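import Vale.Agent.P204.Torus.Calculus

/-!
P204 on the four-torus: the exact test forms of the monotonicity formula.
-/

namespace Vale.Agent.P204.Torus

/-- The periodic coordinates. -/
noncomputable def sv (u : V) : V := fun i => Real.sin (2 * Real.pi * u i) / (2 * Real.pi)

/-- The derivative of the periodic coordinates. -/
noncomputable def cs (u a : V) : V := fun i => Real.cos (2 * Real.pi * u i) * a i

lemma one_sub_cos_eq (u : V) (i : Fin 4) :
    1 - Real.cos (2 * Real.pi * u i) = 2 * Real.sin (Real.pi * u i) ^ 2 := by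
  rw [mul_assoc, Real.cos_two_mul', Real.cos_sq']
  ring

lemma one_sub_cos_le (u : V) (i : Fin 4) :
    0 ≤ 1 - Real.cos (2 * Real.pi * u i) ∧ 1 - Real.cos (2 * Real.pi * u i) ≤ 20 * dist0 u ^ 2 := by
  refine ⟨by linarith [Real.cos_le_one (2 * Real.pi * u i)], ?_⟩
  have h := dist0_sq_coord u i
  rw [one_sub_cos_eq]
  have : Real.pi ^ 2 ≤ 10 := by nlinarith [Real.pi_pos, Real.pi_lt_d2]
  have h' : Real.sin (Real.pi * u i) ^ 2 = Real.pi ^ 2 * (Real.sin (Real.pi * u i) / Real.pi) ^ 2 := by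
    field_simp
  nlinarith [sq_nonneg (dist0 u)]

lemma sv_eq (u : V) (i : Fin 4) :
    sv u i = Real.sin (Real.pi * u i) / Real.pi * Real.cos (Real.pi * u i) := by
  simp only [sv]
  rw [mul_assoc, Real.sin_two_mul]
  field_simp

lemma norm_sv_le (u : V) : ‖sv u‖ ≤ dist0 u := by
  refine (pi_norm_le_iff_of_nonneg (dist0_nonneg u)).2 fun i => ?_
  rw [Real.norm_eq_abs, sv_eq, abs_mul, abs_div, abs_of_pos Real.pi_pos]
  exact (mul_le_of_le_one_right (by positivity) (Real.abs_cos_le_one _)).trans (abs_sin_le_dist0 u i)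

lemma sv_periodic : Periodic sv := fun u n => by
  funext i
  simp only [sv, intVec, Pi.add_apply]
  rw [show 2 * Real.pi * (u i + (n i : ℝ)) = 2 * Real.pi * u i + (n i : ℝ) * (2 * Real.pi) by ring,
    Real.sin_add_int_mul_two_pi]

lemma contDiff_sv : ContDiff ℝ (⊤ : ℕ∞) sv := by
  refine contDiff_pi.2 fun i => ?_
  simp only [sv]
  fun_prop

lemma hasFDerivAt_sv_sub (y z : V) :
    DifferentiableAt ℝ (fun z => sv (z - y)) z ∧
      ∀ a, fderiv ℝ (fun z => sv (z - y)) z a = cs (z - y) a := by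
  have hd : DifferentiableAt ℝ (fun z => sv (z - y)) z :=
    ((contDiff_sv.differentiable (by simp)) (z - y)).comp z (differentiableAt_id.sub_const y)
  refine ⟨hd, fun a => ?_⟩
  funext i
  rw [← fderiv_coord hd a i]
  have h1 : HasFDerivAt (fun z : V => z i - y i)
      (ContinuousLinearMap.proj (R := ℝ) (φ := fun _ : Fin 4 => ℝ) i) z :=
    ((ContinuousLinearMap.proj (R := ℝ) (φ := fun _ : Fin 4 => ℝ) i).hasFDerivAt).sub_const (y i)
  have h2 : HasDerivAt (fun t => Real.sin (2 * Real.pi * t) / (2 * Real.pi))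
      (Real.cos (2 * Real.pi * (z i - y i))) (z i - y i) := by
    have := (((hasDerivAt_id (z i - y i)).const_mul (2 * Real.pi)).sin).div_const (2 * Real.pi)
    refine this.congr_deriv ?_
    simp only [id, mul_one]
    field_simp
  have h3 := h2.comp_hasFDerivAt z h1
  change fderiv ℝ ((fun t => Real.sin (2 * Real.pi * t) / (2 * Real.pi)) ∘ fun z : V => z i - y i)
    z a = _
  rw [h3.fderiv]
  simp [cs]

lemma norm_cs_sub_le (u a : V) : ‖cs u a - a‖ ≤ 20 * dist0 u ^ 2 * ‖a‖ := by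
  refine (pi_norm_le_iff_of_nonneg (by positivity)).2 fun i => ?_
  obtain ⟨h0, h1⟩ := one_sub_cos_le u i
  rw [Real.norm_eq_abs, Pi.sub_apply, cs,
    show Real.cos (2 * Real.pi * u i) * a i - a i = -((1 - Real.cos (2 * Real.pi * u i)) * a i) by
      ring, abs_neg, abs_mul, abs_of_nonneg h0]
  exact mul_le_mul h1 (abs_coord_le' a i) (abs_nonneg _) (by positivity)

lemma coord_eq_ev (α : Form) (k : Fin 6) : α k = ev α (e (fi k)) (e (se k)) := by
  conv_lhs => rw [← ofSkew_ev α]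
  rfl

/-- The weights of the test form. -/
lemma weight_le {c d r ρ : ℝ} (hc : 0 < c) (hc1 : c ≤ 1) (hr : 0 < r) (hd : 0 ≤ d)
    (hρ : c * d ^ 2 ≤ ρ) :
    d / (r ^ 2 + ρ) + d ^ 3 / (r ^ 2 + ρ) ^ 2 ≤ 4 / c ^ 2 / (r + d) := by
  have hp : 0 < r ^ 2 + d ^ 2 := by positivity
  have hD : c * (r ^ 2 + d ^ 2) ≤ r ^ 2 + ρ := by nlinarith [sq_nonneg r]
  have hD0 : 0 < r ^ 2 + ρ := lt_of_lt_of_le (by positivity) hD
  have h1 : d / (r ^ 2 + ρ) ≤ d / (c * (r ^ 2 + d ^ 2)) :=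
    div_le_div_of_nonneg_left hd (by positivity) hD
  have h2 : d ^ 3 / (r ^ 2 + ρ) ^ 2 ≤ d ^ 3 / (c * (r ^ 2 + d ^ 2)) ^ 2 :=
    div_le_div_of_nonneg_left (by positivity) (by positivity) (pow_le_pow_left₀ (by positivity) hD 2)
  have h3 : d / (r ^ 2 + d ^ 2) ≤ 2 / (r + d) := by
    rw [div_le_div_iff₀ hp (by positivity)]
    nlinarith [sq_nonneg (r - d), sq_nonneg r]
  have h4 : d ^ 3 / (c * (r ^ 2 + d ^ 2)) ^ 2 ≤ d / (c ^ 2 * (r ^ 2 + d ^ 2)) := by
    rw [div_le_div_iff₀ (by positivity) (by positivity)]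
    nlinarith [mul_nonneg (mul_nonneg (sq_nonneg c) hd) (mul_nonneg (sq_nonneg r) hp.le)]
  have h5 : d / (c * (r ^ 2 + d ^ 2)) ≤ d / (c ^ 2 * (r ^ 2 + d ^ 2)) :=
    div_le_div_of_nonneg_left hd (by positivity)
      (mul_le_mul_of_nonneg_right (by nlinarith) hp.le)
  calc _ ≤ d / (c ^ 2 * (r ^ 2 + d ^ 2)) + d / (c ^ 2 * (r ^ 2 + d ^ 2)) :=
        add_le_add (h1.trans h5) (h2.trans h4)
    _ = 2 / c ^ 2 * (d / (r ^ 2 + d ^ 2)) := by field_simp; ring
    _ ≤ 2 / c ^ 2 * (2 / (r + d)) := mul_le_mul_of_nonneg_left h3 (by positivity)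
    _ = _ := by field_simp; ring

/-- The difference of the weights at two scales. -/
lemma weight_diff_le {c d r R ρ : ℝ} (hc : 0 < c) (hc1 : c ≤ 1) (hr : 0 < r) (hrR : r ≤ R)
    (hd : 0 ≤ d) (hρ : c * d ^ 2 ≤ ρ) :
    0 ≤ 1 / (r ^ 2 + ρ) - 1 / (R ^ 2 + ρ) ∧
    0 ≤ 1 / (r ^ 2 + ρ) ^ 2 - 1 / (R ^ 2 + ρ) ^ 2 ∧
    d * (1 / (r ^ 2 + ρ) - 1 / (R ^ 2 + ρ)) +
      d ^ 3 * (1 / (r ^ 2 + ρ) ^ 2 - 1 / (R ^ 2 + ρ) ^ 2) ≤
        6 / c ^ 3 * (Real.sqrt R / (d * Real.sqrt d)) := by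
  have hR : 0 < R := lt_of_lt_of_le hr hrR
  have hρ0 : 0 ≤ ρ := le_trans (by positivity) hρ
  have hRr : r ^ 2 + ρ ≤ R ^ 2 + ρ := by nlinarith
  have hA : 0 ≤ 1 / (r ^ 2 + ρ) - 1 / (R ^ 2 + ρ) := by
    rw [sub_nonneg]; exact one_div_le_one_div_of_le (by positivity) hRr
  have hB : 0 ≤ 1 / (r ^ 2 + ρ) ^ 2 - 1 / (R ^ 2 + ρ) ^ 2 := by
    rw [sub_nonneg]
    exact one_div_le_one_div_of_le (by positivity) (pow_le_pow_left₀ (by positivity) hRr 2)
  refine ⟨hA, hB, ?_⟩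
  rcases eq_or_lt_of_le hd with rfl | hd0
  · simp
  have hρ1 : 0 < ρ := lt_of_lt_of_le (by positivity) hρ
  have h1 : 1 / (r ^ 2 + ρ) - 1 / (R ^ 2 + ρ) ≤ R ^ 2 / (c ^ 2 * d ^ 2 * (R ^ 2 + d ^ 2)) := by
    calc _ = (R ^ 2 - r ^ 2) / ((r ^ 2 + ρ) * (R ^ 2 + ρ)) := by
          field_simp; ring
      _ ≤ R ^ 2 / ((c * d ^ 2) * (c * (R ^ 2 + d ^ 2))) := by
          refine div_le_div₀ (sq_nonneg R) (by nlinarith) (by positivity) ?_
          exact mul_le_mul (by nlinarith) (by nlinarith) (by positivity) (by positivity)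
      _ = _ := by ring_nf
  have h2 : 1 / (r ^ 2 + ρ) ^ 2 - 1 / (R ^ 2 + ρ) ^ 2 ≤
      2 / (c * d ^ 2) * (1 / (r ^ 2 + ρ) - 1 / (R ^ 2 + ρ)) := by
    have e1 : 1 / (r ^ 2 + ρ) ≤ 1 / (c * d ^ 2) :=
      one_div_le_one_div_of_le (by positivity) (by nlinarith)
    have e2 : 1 / (R ^ 2 + ρ) ≤ 1 / (c * d ^ 2) :=
      one_div_le_one_div_of_le (by positivity) (by nlinarith)
    calc _ = (1 / (r ^ 2 + ρ) + 1 / (R ^ 2 + ρ)) * (1 / (r ^ 2 + ρ) - 1 / (R ^ 2 + ρ)) := by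
          rw [← one_div_pow, ← one_div_pow]; ring
      _ ≤ (1 / (c * d ^ 2) + 1 / (c * d ^ 2)) * (1 / (r ^ 2 + ρ) - 1 / (R ^ 2 + ρ)) :=
          mul_le_mul_of_nonneg_right (add_le_add e1 e2) hA
      _ = _ := by ring
  have h3 : R ^ 2 / (R ^ 2 + d ^ 2) ≤ 2 * (Real.sqrt R / Real.sqrt d) := by
    obtain ⟨a, ha, rfl⟩ : ∃ a, 0 < a ∧ R = a ^ 2 :=
      ⟨Real.sqrt R, Real.sqrt_pos.2 hR, (Real.sq_sqrt hR.le).symm⟩
    obtain ⟨b, hb, rfl⟩ : ∃ b, 0 < b ∧ d = b ^ 2 :=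
      ⟨Real.sqrt d, Real.sqrt_pos.2 hd0, (Real.sq_sqrt hd0.le).symm⟩
    rw [Real.sqrt_sq ha.le, Real.sqrt_sq hb.le, mul_div_assoc', div_le_div_iff₀ (by positivity) hb]
    have hab : a ^ 3 * b ≤ a ^ 4 + b ^ 4 := by
      rcases le_total a b with h | h
      · nlinarith [pow_le_pow_left₀ ha.le h 3, pow_pos hb 1, pow_pos ha 4]
      · nlinarith [pow_pos ha 3, pow_pos hb 4]
    nlinarith [pow_pos ha 1, pow_pos ha 5, pow_pos hb 4]
  calc _ ≤ d * (R ^ 2 / (c ^ 2 * d ^ 2 * (R ^ 2 + d ^ 2))) +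
        d ^ 3 * (2 / (c * d ^ 2) * (R ^ 2 / (c ^ 2 * d ^ 2 * (R ^ 2 + d ^ 2)))) := by
        refine add_le_add (mul_le_mul_of_nonneg_left h1 hd) ?_
        exact mul_le_mul_of_nonneg_left (h2.trans (mul_le_mul_of_nonneg_left h1 (by positivity)))
          (by positivity)
    _ = (1 / c ^ 2 + 2 / c ^ 3) / d * (R ^ 2 / (R ^ 2 + d ^ 2)) := by field_simp
    _ ≤ 3 / c ^ 3 / d * (2 * (Real.sqrt R / Real.sqrt d)) := by
        refine mul_le_mul ?_ h3 (by positivity) (by positivity)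
        refine div_le_div_of_nonneg_right ?_ hd
        have : 1 / c ^ 2 ≤ 1 / c ^ 3 :=
          one_div_le_one_div_of_le (by positivity) (by nlinarith [pow_pos hc 2])
        have e : (3 : ℝ) / c ^ 3 = 1 / c ^ 3 + 2 / c ^ 3 := by ring
        linarith
    _ = _ := by field_simp; ring

namespace Setup

variable (S : Setup)

/-- The squared periodic distance in the metric at `z`. -/
noncomputable def rho2 (z u : V) : ℝ :=
  S.g z (sv u) (sv u) + ∑ i, (1 - Real.cos (2 * Real.pi * u i)) ^ 2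

/-- The primitive of the test form. -/
noncomputable def prim (r : ℝ) (y z : V) : V :=
  (2 / (r ^ 2 + S.rho2 z (z - y))) • iota (sv (z - y)) (S.Om z)

/-- The exact test form. -/
noncomputable def al (r : ℝ) (y : V) : V → Form := d1 (S.prim r y)

/-- The error in the test form. -/
noncomputable def alErr (r : ℝ) (y z : V) (h : Form) : ℝ :=
  q h (S.al r y z) -
    (4 * r ^ 2 + 4 * S.kap z * S.B z h (sv (z - y)) (sv (z - y))) /
      (r ^ 2 + S.rho2 z (z - y)) ^ 2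

lemma exists_rho2_bounds : ∃ c C, 0 < c ∧ 0 < C ∧ ∀ z u,
    c * dist0 u ^ 2 ≤ S.rho2 z u ∧ S.rho2 z u ≤ C * dist0 u ^ 2 := by
  obtain ⟨c, C, hc, hC, hg⟩ := S.Om_bounds
  refine ⟨min (c / 4) 1, C + 1600, by positivity, by positivity, fun z u => ?_⟩
  obtain ⟨hl, hu, -⟩ := hg z (sv u)
  have hd : dist0 u ^ 2 ≤ 4 * ‖sv u‖ ^ 2 + ∑ i, (1 - Real.cos (2 * Real.pi * u i)) ^ 2 := by
    have h : ∀ i, Real.sin (Real.pi * u i) ^ 2 / Real.pi ^ 2 ≤
        sv u i ^ 2 + (1 - Real.cos (2 * Real.pi * u i)) ^ 2 := by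
      intro i
      rw [sv_eq, one_sub_cos_eq, mul_pow, div_pow, Real.cos_sq']
      have h4 : Real.sin (Real.pi * u i) ^ 2 / Real.pi ^ 2 * Real.sin (Real.pi * u i) ^ 2 ≤
          (2 * Real.sin (Real.pi * u i) ^ 2) ^ 2 := by
        rw [div_mul_eq_mul_div, div_le_iff₀ (by positivity)]
        have hp : 1 ≤ 4 * Real.pi ^ 2 := by nlinarith [Real.pi_gt_three]
        nlinarith [mul_nonneg (sq_nonneg (Real.sin (Real.pi * u i) ^ 2)) (sub_nonneg.2 hp)]
      nlinarith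
    rw [dist0_sq, Finset.sum_div]
    refine (Finset.sum_le_sum fun i _ => h i).trans ?_
    rw [Finset.sum_add_distrib]
    refine add_le_add ?_ le_rfl
    have hi : ∀ i, sv u i ^ 2 ≤ ‖sv u‖ ^ 2 := fun i => by
      rw [← sq_abs]; exact pow_le_pow_left₀ (abs_nonneg _) (abs_coord_le' _ _) 2
    simp only [Fin.sum_univ_four]
    linarith [hi 0, hi 1, hi 2, hi 3]
  have hm : ∑ i, (1 - Real.cos (2 * Real.pi * u i)) ^ 2 ≤ 1600 * dist0 u ^ 2 := by
    have hi : ∀ i, (1 - Real.cos (2 * Real.pi * u i)) ^ 2 ≤ 400 * dist0 u ^ 2 := fun i => by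
      obtain ⟨h0, h1⟩ := one_sub_cos_le u i
      have hd1 : dist0 u ^ 2 ≤ 1 := pow_le_one₀ (dist0_nonneg u) (dist0_le_one u)
      nlinarith [pow_le_pow_left₀ h0 h1 2, sq_nonneg (dist0 u)]
    simp only [Fin.sum_univ_four]
    linarith [hi 0, hi 1, hi 2, hi 3]
  have hm0 : 0 ≤ ∑ i, (1 - Real.cos (2 * Real.pi * u i)) ^ 2 :=
    Finset.sum_nonneg fun i _ => sq_nonneg _
  have hs : ‖sv u‖ ^ 2 ≤ dist0 u ^ 2 := pow_le_pow_left₀ (norm_nonneg _) (norm_sv_le u) 2
  have h1 := min_le_left (c / 4) 1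
  have h2 := min_le_right (c / 4) 1
  have h3 : 0 ≤ min (c / 4) 1 := by positivity
  simp only [rho2]
  constructor
  · nlinarith [sq_nonneg ‖sv u‖]
  · nlinarith [sq_nonneg ‖sv u‖]

lemma rho2_nonneg (z u : V) : 0 ≤ S.rho2 z u := by
  obtain ⟨c, C, hc, -, h⟩ := S.exists_rho2_bounds
  exact le_trans (by positivity) (h z u).1

lemma contDiff_rho2_sub (y : V) : ContDiff ℝ (⊤ : ℕ∞) fun z => S.rho2 z (z - y) := by
  have hs : ContDiff ℝ (⊤ : ℕ∞) fun z : V => sv (z - y) :=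
    contDiff_sv.comp (contDiff_id.sub contDiff_const)
  have h1 : ContDiff ℝ (⊤ : ℕ∞) fun z => S.g z (sv (z - y)) (sv (z - y)) :=
    contDiff_ev S.smooth_Om.smooth hs (S.J_smooth.smooth.clm_apply hs)
  refine h1.add (ContDiff.sum fun i _ => ?_)
  fun_prop

lemma rho2_periodic_sub (y : V) : Periodic fun z => S.rho2 z (z - y) := fun z n => by
  simp only [rho2, g, S.smooth_Om.periodic z n, S.J_smooth.periodic z n, add_sub_right_comm z,
    sv_periodic (z - y) n]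
  refine congrArg _ (Finset.sum_congr rfl fun i _ => ?_)
  simp only [intVec, Pi.add_apply]
  rw [show 2 * Real.pi * ((z - y) i + (n i : ℝ)) =
    2 * Real.pi * (z - y) i + (n i : ℝ) * (2 * Real.pi) by ring, Real.cos_add_int_mul_two_pi]

lemma smooth_prim {r : ℝ} (hr : 0 < r) (y : V) : Smooth (S.prim r y) := by
  refine ⟨?_, fun z n => ?_⟩
  · refine (contDiff_const.div (contDiff_const.add (S.contDiff_rho2_sub y)) fun z => ?_).smul
      (contDiff_pi.2 fun j => contDiff_ev S.smooth_Om.smooth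
        (contDiff_sv.comp (contDiff_id.sub contDiff_const)) contDiff_const)
    have := S.rho2_nonneg z (z - y)
    positivity
  · have h := S.rho2_periodic_sub y z n
    simp only at h
    simp only [prim]
    rw [h]
    simp only [S.smooth_Om.periodic z n, add_sub_right_comm z, sv_periodic (z - y) n]

lemma smooth_al {r : ℝ} (hr : 0 < r) (y : V) : Smooth (S.al r y) :=
  smooth_d1 (S.smooth_prim hr y)

lemma closed_al {r : ℝ} (hr : 0 < r) (y : V) : Closed (S.al r y) :=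
  closed_d1 (S.smooth_prim hr y)

/-- The error in the derivative of `ι_s Ω`. -/
lemma exists_d1_iota : ∃ C, 0 < C ∧ ∀ y z,
    ‖d1 (fun z => iota (sv (z - y)) (S.Om z)) z - (2 : ℝ) • S.Om z‖ ≤ C * dist0 (z - y) := by
  obtain ⟨M, hM0, hM⟩ := exists_bound S.smooth_Om.smooth.continuous S.smooth_Om.periodic
  obtain ⟨M', hM'0, hM'⟩ := S.smooth_Om.exists_fderiv_bound
  refine ⟨6 * (2 * (12 * M') + 2 * (12 * (M * 20))), by positivity, fun y z => ?_⟩
  obtain ⟨hsd, hsD⟩ := hasFDerivAt_sv_sub y z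
  set d := dist0 (z - y)
  have hd0 : 0 ≤ d := dist0_nonneg _
  have hd1 : d ≤ 1 := dist0_le_one _
  have hOm := S.smooth_Om.differentiableAt z
  have hw : DifferentiableAt ℝ (fun z => iota (sv (z - y)) (S.Om z)) z :=
    ((contDiff_pi.2 fun j => contDiff_ev S.smooth_Om.smooth
        (contDiff_sv.comp (contDiff_id.sub contDiff_const)) contDiff_const).differentiable
          (by simp)) z
  have hD : ∀ i j, fderiv ℝ (fun z => iota (sv (z - y)) (S.Om z)) z (e i) j =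
      ev (fderiv ℝ S.Om z (e i)) (sv (z - y)) (e j) + ev (S.Om z) (cs (z - y) (e i)) (e j) := by
    intro i j
    rw [← fderiv_coord hw]
    simp only [iota]
    rw [fderiv_ev hOm hsd (differentiableAt_const _), hsD, fderiv_fun_const]
    simp [ev_def]
  refine (norm_le_sum _).trans ((Finset.sum_le_sum fun k _ =>
    (?_ : _ ≤ (2 * (12 * M') + 2 * (12 * (M * 20))) * d)).trans (le_of_eq (by simp; ring)))
  simp only [PiLp.sub_apply, PiLp.smul_apply, d1_apply, hD, smul_eq_mul]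
  rw [coord_eq_ev (S.Om z) k]
  have t : ∀ i j, |ev (fderiv ℝ S.Om z (e i)) (sv (z - y)) (e j)| ≤ 12 * M' * d := by
    intro i j
    refine (abs_ev_le _ _ _).trans ?_
    calc 12 * (‖fderiv ℝ S.Om z (e i)‖ * (‖sv (z - y)‖ * ‖e j‖)) ≤ 12 * (M' * (d * 1)) := by
          gcongr
          · exact (hM' z _).trans (mul_le_of_le_one_right hM'0.le (e_norm_le i))
          · exact norm_sv_le _
          · exact e_norm_le j
      _ = _ := by ring
  have t' : ∀ i j, |ev (S.Om z) (cs (z - y) (e i) - e i) (e j)| ≤ 12 * (M * 20) * d := by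
    intro i j
    refine (abs_ev_le _ _ _).trans ?_
    calc 12 * (‖S.Om z‖ * (‖cs (z - y) (e i) - e i‖ * ‖e j‖)) ≤ 12 * (M * (20 * d * 1)) := by
          gcongr
          · exact hM z
          · refine (norm_cs_sub_le _ _).trans ?_
            calc 20 * d ^ 2 * ‖e i‖ ≤ 20 * d * 1 := by
                  gcongr
                  · nlinarith
                  · exact e_norm_le i
              _ = 20 * d := by ring
          · exact e_norm_le j
      _ = _ := by ring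
  have hsub : ∀ a b c : V, ev (S.Om z) (a - b) c = ev (S.Om z) a c - ev (S.Om z) b c := fun a b c => by
    simp only [ev_def, Pi.sub_apply]; ring
  have hsk := ev_skew (S.Om z) (e (fi k)) (e (se k))
  have a1 := abs_le.1 (t (fi k) (se k))
  have a2 := abs_le.1 (t (se k) (fi k))
  have a3 := abs_le.1 (t' (fi k) (se k))
  have a4 := abs_le.1 (t' (se k) (fi k))
  rw [hsub] at a3 a4
  rw [abs_le]
  constructor <;> linarith

/-- The error in the derivative of the squared distance. -/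
lemma exists_grad_rho2 : ∃ C, 0 < C ∧ ∀ y z,
    ‖grad (fun z => S.rho2 z (z - y)) z - (2 : ℝ) • S.gcov z (sv (z - y))‖ ≤
      C * dist0 (z - y) ^ 2 := by
  obtain ⟨M, hM0, hM⟩ := exists_bound S.smooth_Om.smooth.continuous S.smooth_Om.periodic
  obtain ⟨M', hM'0, hM'⟩ := S.smooth_Om.exists_fderiv_bound
  obtain ⟨K, hK0, hK⟩ := exists_bound S.J_smooth.smooth.continuous S.J_smooth.periodic
  obtain ⟨K', hK'0, hK'⟩ := S.J_smooth.exists_fderiv_bound
  refine ⟨12 * M' * K + 2 * (12 * (M * (20 * K))) + 12 * M * K' + 4 * (320 : ℝ), by positivity,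
    fun y z => ?_⟩
  obtain ⟨hsd, hsD⟩ := hasFDerivAt_sv_sub y z
  set d := dist0 (z - y)
  have hd0 : 0 ≤ d := dist0_nonneg _
  have hd1 : d ≤ 1 := dist0_le_one _
  set s := sv (z - y) with hs
  refine (pi_norm_le_iff_of_nonneg (by positivity)).2 fun i => ?_
  have hJs : DifferentiableAt ℝ (fun z => S.J z (sv (z - y))) z :=
    ((S.J_smooth.differentiableAt z).hasFDerivAt.clm_apply hsd.hasFDerivAt).differentiableAt
  have hJD : fderiv ℝ (fun z => S.J z (sv (z - y))) z (e i) =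
      S.J z (cs (z - y) (e i)) + fderiv ℝ S.J z (e i) s := by
    rw [((S.J_smooth.differentiableAt z).hasFDerivAt.clm_apply hsd.hasFDerivAt).fderiv]
    simp [hsD, hs]
  have h1 : DifferentiableAt ℝ (fun z => S.g z (sv (z - y)) (sv (z - y))) z :=
    (contDiff_ev S.smooth_Om.smooth (contDiff_sv.comp (contDiff_id.sub contDiff_const))
      (S.J_smooth.smooth.clm_apply (contDiff_sv.comp (contDiff_id.sub contDiff_const)))).differentiable
        (by simp) z
  have hcos : ∀ k : Fin 4, HasFDerivAt (fun z : V => (1 - Real.cos (2 * Real.pi * (z - y) k)) ^ 2)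
      ((2 * (1 - Real.cos (2 * Real.pi * (z k - y k))) * (2 * Real.pi) *
        Real.sin (2 * Real.pi * (z k - y k))) •
          ContinuousLinearMap.proj (R := ℝ) (φ := fun _ : Fin 4 => ℝ) k) z := by
    intro k
    have hp : HasFDerivAt (fun z : V => z k - y k)
        (ContinuousLinearMap.proj (R := ℝ) (φ := fun _ : Fin 4 => ℝ) k) z :=
      ((ContinuousLinearMap.proj (R := ℝ) (φ := fun _ : Fin 4 => ℝ) k).hasFDerivAt).sub_const (y k)
    have hh : HasDerivAt (fun t => (1 - Real.cos (2 * Real.pi * t)) ^ 2)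
        (2 * (1 - Real.cos (2 * Real.pi * (z k - y k))) * (2 * Real.pi) *
          Real.sin (2 * Real.pi * (z k - y k))) (z k - y k) := by
      have := ((((hasDerivAt_id (z k - y k)).const_mul (2 * Real.pi)).cos).const_sub 1).pow 2
      refine this.congr_deriv ?_
      simp only [id, mul_one]
      push_cast
      ring
    exact hh.comp_hasFDerivAt z hp
  have h2 := HasFDerivAt.fun_sum (u := Finset.univ) fun k (_ : k ∈ Finset.univ) => hcos k
  have hgrad : grad (fun z => S.rho2 z (z - y)) z i =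
      ev (fderiv ℝ S.Om z (e i)) s (S.J z s) + ev (S.Om z) (cs (z - y) (e i)) (S.J z s)
        + ev (S.Om z) s (S.J z (cs (z - y) (e i)) + fderiv ℝ S.J z (e i) s)
        + ∑ k, 2 * (1 - Real.cos (2 * Real.pi * (z k - y k))) * (2 * Real.pi) *
            Real.sin (2 * Real.pi * (z k - y k)) * e i k := by
    simp only [grad, rho2]
    rw [fderiv_fun_add h1 h2.differentiableAt, h2.fderiv, add_apply]
    simp only [g]
    rw [fderiv_ev (S.smooth_Om.differentiableAt z) hsd hJs, hsD, hJD]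
    simp [hs]
  have hg : S.gcov z s i = ev (S.Om z) s (S.J z (e i)) := rfl
  have hg' : ev (S.Om z) (e i) (S.J z s) = ev (S.Om z) s (S.J z (e i)) := S.g_symm z (e i) s
  have hsn : ‖s‖ ≤ d := norm_sv_le _
  have hJn : ∀ u : V, ‖S.J z u‖ ≤ K * ‖u‖ := fun u =>
    ((S.J z).le_opNorm u).trans (mul_le_mul_of_nonneg_right (hK z) (norm_nonneg _))
  have hc : ‖cs (z - y) (e i) - e i‖ ≤ 20 * d :=
    (norm_cs_sub_le _ _).trans (by
      calc 20 * d ^ 2 * ‖e i‖ ≤ 20 * d * 1 := by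
            gcongr
            · nlinarith
            · exact e_norm_le i
        _ = 20 * d := by ring)
  have t1 : |ev (fderiv ℝ S.Om z (e i)) s (S.J z s)| ≤ 12 * M' * K * d ^ 2 := by
    refine (abs_ev_le _ _ _).trans ?_
    calc 12 * (‖fderiv ℝ S.Om z (e i)‖ * (‖s‖ * ‖S.J z s‖)) ≤ 12 * (M' * (d * (K * d))) := by
          gcongr
          · exact (hM' z _).trans (mul_le_of_le_one_right hM'0.le (e_norm_le i))
          · exact (hJn s).trans (by gcongr)
      _ = _ := by ring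
  have t2 : |ev (S.Om z) (cs (z - y) (e i) - e i) (S.J z s)| ≤ 12 * (M * (20 * K)) * d ^ 2 := by
    refine (abs_ev_le _ _ _).trans ?_
    calc 12 * (‖S.Om z‖ * (‖cs (z - y) (e i) - e i‖ * ‖S.J z s‖)) ≤
          12 * (M * ((20 * d) * (K * d))) := by
          gcongr
          · exact hM z
          · exact (hJn s).trans (by gcongr)
      _ = _ := by ring
  have t3 : |ev (S.Om z) s (fderiv ℝ S.J z (e i) s)| ≤ 12 * M * K' * d ^ 2 := by
    refine (abs_ev_le _ _ _).trans ?_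
    calc 12 * (‖S.Om z‖ * (‖s‖ * ‖fderiv ℝ S.J z (e i) s‖)) ≤ 12 * (M * (d * (K' * d))) := by
          gcongr
          · exact hM z
          · refine ((fderiv ℝ S.J z (e i)).le_opNorm s).trans ?_
            gcongr
            exact (hK' z _).trans (mul_le_of_le_one_right hK'0.le (e_norm_le i))
      _ = _ := by ring
  have t4 : |ev (S.Om z) s (S.J z (cs (z - y) (e i) - e i))| ≤ 12 * (M * (20 * K)) * d ^ 2 := by
    refine (abs_ev_le _ _ _).trans ?_
    calc 12 * (‖S.Om z‖ * (‖s‖ * ‖S.J z (cs (z - y) (e i) - e i)‖)) ≤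
          12 * (M * (d * (K * (20 * d)))) := by
          gcongr
          · exact hM z
          · exact (hJn _).trans (by gcongr)
      _ = _ := by ring
  have t5 : |∑ k, 2 * (1 - Real.cos (2 * Real.pi * (z k - y k))) * (2 * Real.pi) *
      Real.sin (2 * Real.pi * (z k - y k)) * e i k| ≤ 4 * 320 * d ^ 2 := by
    refine (Finset.abs_sum_le_sum_abs _ _).trans ((Finset.sum_le_sum fun k _ =>
      (?_ : _ ≤ 320 * d ^ 2)).trans (le_of_eq (by simp; ring)))
    have hk := one_sub_cos_le (z - y) k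
    simp only [Pi.sub_apply] at hk
    rw [abs_mul, abs_mul, abs_mul, abs_mul, abs_of_nonneg hk.1,
      abs_of_pos (two_pos (α := ℝ)), abs_of_pos (by positivity : (0 : ℝ) < 2 * Real.pi)]
    calc 2 * (1 - Real.cos (2 * Real.pi * (z k - y k))) * (2 * Real.pi) *
        |Real.sin (2 * Real.pi * (z k - y k))| * |e i k| ≤ 2 * (20 * d ^ 2) * (2 * 4) * 1 * 1 := by
          gcongr
          · exact hk.2
          · exact Real.pi_le_four
          · exact Real.abs_sin_le_one _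
          · exact (abs_coord_le' _ _).trans (e_norm_le i)
      _ = _ := by ring
  rw [Real.norm_eq_abs, Pi.sub_apply, Pi.smul_apply, smul_eq_mul, hgrad, hg, ev_add_right]
  have e1 : ev (S.Om z) (cs (z - y) (e i) - e i) (S.J z s) =
      ev (S.Om z) (cs (z - y) (e i)) (S.J z s) - ev (S.Om z) (e i) (S.J z s) := by
    simp only [ev_def, Pi.sub_apply]; ring
  have e2 : ev (S.Om z) s (S.J z (cs (z - y) (e i) - e i)) =
      ev (S.Om z) s (S.J z (cs (z - y) (e i))) - ev (S.Om z) s (S.J z (e i)) := by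
    rw [map_sub]; simp only [ev_def, Pi.sub_apply]; ring
  rw [e1] at t2
  rw [e2] at t4
  rw [abs_le] at t1 t2 t3 t4 t5 ⊢
  constructor <;> linarith

/-- The test form is its principal part plus two controlled errors. -/
lemma exists_al_split : ∃ C, 0 < C ∧ ∀ y z, ∃ P Q : Form,
    ‖P‖ ≤ C * dist0 (z - y) ∧ ‖Q‖ ≤ C * dist0 (z - y) ^ 3 ∧
    ∀ r, 0 < r → S.al r y z =
      (4 / (r ^ 2 + S.rho2 z (z - y))) • S.Om z
        - (4 / (r ^ 2 + S.rho2 z (z - y)) ^ 2) •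
            wedge (S.gcov z (sv (z - y))) (iota (sv (z - y)) (S.Om z))
        + (1 / (r ^ 2 + S.rho2 z (z - y))) • P + (1 / (r ^ 2 + S.rho2 z (z - y)) ^ 2) • Q := by
  obtain ⟨A, hA0, hA⟩ := S.exists_d1_iota
  obtain ⟨B, hB0, hB⟩ := S.exists_grad_rho2
  obtain ⟨M, hM0, hM⟩ := exists_bound S.smooth_Om.smooth.continuous S.smooth_Om.periodic
  refine ⟨2 * A + 2 * (12 * (B * (12 * M))), by positivity, fun y z => ?_⟩
  set ρ := fun z => S.rho2 z (z - y) with hρ
  set w := fun z => iota (sv (z - y)) (S.Om z) with hw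
  set s := sv (z - y) with hs
  set d := dist0 (z - y)
  have hd0 : 0 ≤ d := dist0_nonneg _
  refine ⟨(2 : ℝ) • (d1 w z - (2 : ℝ) • S.Om z),
    (-2 : ℝ) • wedge (grad ρ z - (2 : ℝ) • S.gcov z s) (w z), ?_, ?_, fun r hr => ?_⟩
  · rw [norm_smul, Real.norm_eq_abs, abs_two]
    calc 2 * ‖d1 w z - (2 : ℝ) • S.Om z‖ ≤ 2 * (A * d) := by gcongr; exact hA y z
      _ ≤ _ := by
        rw [← mul_assoc]
        exact mul_le_mul_of_nonneg_right (le_add_of_nonneg_right (by positivity)) hd0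
  · have hwn : ‖w z‖ ≤ 12 * M * d := by
      refine (pi_norm_le_iff_of_nonneg (by positivity)).2 fun j => ?_
      rw [Real.norm_eq_abs]
      refine (abs_ev_le _ _ _).trans ?_
      calc 12 * (‖S.Om z‖ * (‖sv (z - y)‖ * ‖e j‖)) ≤ 12 * (M * (d * 1)) := by
            gcongr
            · exact hM z
            · exact norm_sv_le _
            · exact e_norm_le j
        _ = _ := by ring
    rw [norm_smul, Real.norm_eq_abs, abs_neg, abs_two]
    calc 2 * ‖wedge (grad ρ z - (2 : ℝ) • S.gcov z s) (w z)‖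
          ≤ 2 * (12 * ((B * d ^ 2) * (12 * M * d))) := by
          gcongr
          exact (norm_wedge_le _ _).trans (by gcongr; exact hB y z)
      _ = 2 * (12 * (B * (12 * M))) * d ^ 3 := by ring
      _ ≤ _ := mul_le_mul_of_nonneg_right (le_add_of_nonneg_left (by positivity)) (by positivity)
  · have hρd : DifferentiableAt ℝ ρ z := (S.contDiff_rho2_sub y).differentiable (by simp) z
    have hwd : DifferentiableAt ℝ w z :=
      ((contDiff_pi.2 fun j => contDiff_ev S.smooth_Om.smooth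
        (contDiff_sv.comp (contDiff_id.sub contDiff_const)) contDiff_const).differentiable
          (by simp)) z
    have hD : 0 < r ^ 2 + ρ z := by
      have := S.rho2_nonneg z (z - y)
      positivity
    have hh : HasDerivAt (fun t => 2 / (r ^ 2 + t)) (-2 / (r ^ 2 + ρ z) ^ 2) (ρ z) := by
      have := (hasDerivAt_const (ρ z) (2 : ℝ)).div ((hasDerivAt_id (ρ z)).const_add (r ^ 2)) hD.ne'
      refine this.congr_deriv ?_
      simp only [id]
      ring
    have hf := hh.comp_hasFDerivAt z hρd.hasFDerivAt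
    have hgr : grad (fun z => 2 / (r ^ 2 + ρ z)) z = (-2 / (r ^ 2 + ρ z) ^ 2) • grad ρ z := by
      funext i
      simp only [grad, Pi.smul_apply, smul_eq_mul]
      rw [show (fun z => 2 / (r ^ 2 + ρ z)) = (fun t => 2 / (r ^ 2 + t)) ∘ ρ from rfl, hf.fderiv]
      simp
    change d1 (fun z => ((fun t => 2 / (r ^ 2 + t)) ∘ ρ) z • w z) z = _
    rw [d1_smul hf.differentiableAt hwd,
      show grad ((fun t => 2 / (r ^ 2 + t)) ∘ ρ) z = _ from hgr]
    ext k
    simp only [PiLp.add_apply, PiLp.sub_apply, PiLp.smul_apply, smul_eq_mul, wedge_apply,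
      Pi.smul_apply, Pi.sub_apply, Function.comp_apply, hw, hρ, hs]
    field_simp
    ring

lemma piM_line_term {z : V} (s : V) :
    piM (S.J z) (wedge (S.gcov z s) (iota s (S.Om z))) = 0 := by
  have h := (S.line_psd z s).1
  rw [line, piM_sub, piM_smul, S.piM_Om, smul_zero, zero_sub, neg_eq_zero] at h
  exact h

lemma exists_piM_bound : ∃ L, 0 < L ∧ ∀ z α, ‖piM (S.J z) α‖ ≤ L * ‖α‖ := by
  obtain ⟨K, hK, hJ⟩ := exists_bound S.J_smooth.smooth.continuous S.J_smooth.periodic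
  refine ⟨(1 + 6 * (12 * K ^ 2)) / 2, by positivity, fun z α => ?_⟩
  have hp : ‖pull (S.J z) α‖ ≤ 6 * (12 * K ^ 2) * ‖α‖ := by
    refine (norm_le_sum _).trans ((Finset.sum_le_sum fun k _ =>
      (?_ : _ ≤ 12 * K ^ 2 * ‖α‖)).trans (le_of_eq (by simp; ring)))
    rw [pull, ofSkew_apply]
    refine (abs_ev_le _ _ _).trans ?_
    have hj : ∀ i, ‖S.J z (e i)‖ ≤ K := fun i => ((S.J z).le_opNorm _).trans
      ((mul_le_of_le_one_right (norm_nonneg _) (e_norm_le i)).trans (hJ z))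
    calc 12 * (‖α‖ * (‖S.J z (e (fi k))‖ * ‖S.J z (e (se k))‖)) ≤ 12 * (‖α‖ * (K * K)) := by
          gcongr <;> exact hj _
      _ = _ := by ring
  rw [piM, norm_smul, Real.norm_eq_abs, abs_of_pos (by norm_num : (0 : ℝ) < 1 / 2)]
  calc 1 / 2 * ‖α - pull (S.J z) α‖ ≤ 1 / 2 * (‖α‖ + 6 * (12 * K ^ 2) * ‖α‖) := by
        gcongr
        exact (norm_sub_le _ _).trans (by gcongr)
    _ = _ := by ring

/-- The two numerators of the error. -/
lemma abs_mass_le {y z : V} {h P Q : Form} {N C0 : ℝ} (_hh : S.Psd z h) (htr : q h (S.Om z) = 1)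
    (hN : ‖h‖ ≤ N * q h (S.Om z)) (hP : ‖P‖ ≤ C0 * dist0 (z - y))
    (hQ : ‖Q‖ ≤ C0 * dist0 (z - y) ^ 3) :
    |q h P| ≤ (6 * N * C0 + 6400) * dist0 (z - y) ∧
      |q h Q + 4 * (S.rho2 z (z - y) - S.g z (sv (z - y)) (sv (z - y)))| ≤
        (6 * N * C0 + 6400) * dist0 (z - y) ^ 3 := by
  rw [htr, mul_one] at hN
  have hN0 : 0 ≤ N := le_trans (norm_nonneg _) hN
  set d := dist0 (z - y)
  have hd0 : 0 ≤ d := dist0_nonneg _
  have hd1 : d ≤ 1 := dist0_le_one _
  have b1 : |q h P| ≤ 6 * N * C0 * d := by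
    refine (abs_q_le _ _).trans ?_
    calc 6 * (‖h‖ * ‖P‖) ≤ 6 * (N * (C0 * d)) := by gcongr
      _ = _ := by ring
  have b2 : |q h Q| ≤ 6 * N * C0 * d ^ 3 := by
    refine (abs_q_le _ _).trans ?_
    calc 6 * (‖h‖ * ‖Q‖) ≤ 6 * (N * (C0 * d ^ 3)) := by gcongr
      _ = _ := by ring
  have hi : ∀ i, (1 - Real.cos (2 * Real.pi * (z - y) i)) ^ 2 ≤ 400 * d ^ 3 := fun i => by
    obtain ⟨h0, h1⟩ := one_sub_cos_le (z - y) i
    calc _ ≤ (20 * d ^ 2) ^ 2 := pow_le_pow_left₀ h0 h1 2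
      _ = 400 * d ^ 3 * d := by ring
      _ ≤ 400 * d ^ 3 * 1 := by gcongr
      _ = _ := mul_one _
  have hm0 : 0 ≤ S.rho2 z (z - y) - S.g z (sv (z - y)) (sv (z - y)) := by
    rw [rho2, add_sub_cancel_left]; exact Finset.sum_nonneg fun i _ => sq_nonneg _
  have hm : S.rho2 z (z - y) - S.g z (sv (z - y)) (sv (z - y)) ≤ 1600 * d ^ 3 := by
    rw [rho2, add_sub_cancel_left, Fin.sum_univ_four]
    linarith [hi 0, hi 1, hi 2, hi 3]
  refine ⟨b1.trans ?_, (abs_add_le _ _).trans ?_⟩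
  · exact mul_le_mul_of_nonneg_right (le_add_of_nonneg_right (by norm_num)) hd0
  · rw [abs_mul, abs_of_nonneg hm0, abs_of_pos (four_pos (α := ℝ)), add_mul]
    linarith

/-- The error in closed form. -/
lemma alErr_eq {r : ℝ} {y z : V} {h P Q : Form} (hh : S.Psd z h) (htr : q h (S.Om z) = 1)
    (hal : S.al r y z = (4 / (r ^ 2 + S.rho2 z (z - y))) • S.Om z
        - (4 / (r ^ 2 + S.rho2 z (z - y)) ^ 2) •
            wedge (S.gcov z (sv (z - y))) (iota (sv (z - y)) (S.Om z))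
        + (1 / (r ^ 2 + S.rho2 z (z - y))) • P + (1 / (r ^ 2 + S.rho2 z (z - y)) ^ 2) • Q) :
    S.alErr r y z h = q h P / (r ^ 2 + S.rho2 z (z - y)) +
      (q h Q + 4 * (S.rho2 z (z - y) - S.g z (sv (z - y)) (sv (z - y)))) /
        (r ^ 2 + S.rho2 z (z - y)) ^ 2 := by
  rw [alErr, hal, q_add_right, q_add_right, q_sub_right, q_smul_right, q_smul_right, q_smul_right,
    q_smul_right, S.q_wedge_gcov hh.1, htr]
  rcases eq_or_ne (r ^ 2 + S.rho2 z (z - y)) 0 with h0 | h0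
  · simp [h0]
  · field_simp
    ring

/-- The size of the test form and its positivity up to an error. -/
lemma exists_al_bounds : ∃ C, 0 < C ∧ ∀ r, 0 < r → r ≤ 1 → ∀ y z,
    ‖S.al r y z‖ ≤ C / (r ^ 2 + dist0 (z - y) ^ 2) ∧
      ‖piM (S.J z) (S.al r y z)‖ ≤ C / (r + dist0 (z - y)) ∧
      ∀ h, S.Psd z h → q h (S.Om z) = 1 → |S.alErr r y z h| ≤ C / (r + dist0 (z - y)) := by
  obtain ⟨C0, hC00, hsplit⟩ := S.exists_al_split
  obtain ⟨c', C', hc', hC', hρ⟩ := S.exists_rho2_bounds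
  obtain ⟨c0, K0, hc0, hK0, hg⟩ := S.Om_bounds
  obtain ⟨M, hM0, hM⟩ := exists_bound S.smooth_Om.smooth.continuous S.smooth_Om.periodic
  obtain ⟨K, hK, hJ⟩ := exists_bound S.J_smooth.smooth.continuous S.J_smooth.periodic
  obtain ⟨N, hN0, hN⟩ := S.exists_norm_psd
  set c := min c' 1
  have hc : 0 < c := lt_min hc' one_pos
  obtain ⟨L, hL0, hL⟩ := S.exists_piM_bound
  refine ⟨(4 * M + 4 * (12 * (12 * (M * K) * (12 * M))) + 2 * C0) / c ^ 2
      + L * C0 * 4 / c ^ 2 + (6 * N * C0 + 6400) * 4 / c ^ 2, by positivity,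
    fun r hr hr1 y z => ?_⟩
  obtain ⟨P, Q, hP, hQ, hal⟩ := hsplit y z
  set d := dist0 (z - y) with hd
  set ρ := S.rho2 z (z - y)
  set s := sv (z - y)
  have hd0 : 0 ≤ d := dist0_nonneg _
  have hd1 : d ≤ 1 := dist0_le_one _
  have hcd : c * d ^ 2 ≤ ρ :=
    (mul_le_mul_of_nonneg_right (min_le_left _ _) (sq_nonneg _)).trans (hρ z (z - y)).1
  have hp : 0 < r ^ 2 + d ^ 2 := by positivity
  have hD : c * (r ^ 2 + d ^ 2) ≤ r ^ 2 + ρ := by nlinarith [min_le_right c' 1, sq_nonneg r]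
  have hD0 : 0 < r ^ 2 + ρ := lt_of_lt_of_le (by positivity) hD
  have hsmall : ∀ a b B : ℝ, 0 ≤ B → |a| ≤ B * d → |b| ≤ B * d ^ 3 →
      |a / (r ^ 2 + ρ) + b / (r ^ 2 + ρ) ^ 2| ≤ B * 4 / c ^ 2 / (r + d) := by
    intro a b B hB ha hb
    refine (abs_add_le _ _).trans ?_
    rw [abs_div, abs_div, abs_of_pos hD0, abs_of_pos (pow_pos hD0 2)]
    calc _ ≤ B * d / (r ^ 2 + ρ) + B * d ^ 3 / (r ^ 2 + ρ) ^ 2 := by gcongr
      _ = B * (d / (r ^ 2 + ρ) + d ^ 3 / (r ^ 2 + ρ) ^ 2) := by ring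
      _ ≤ B * (4 / c ^ 2 / (r + d)) :=
          mul_le_mul_of_nonneg_left (weight_le hc (min_le_right _ _) hr hd0 hcd) hB
      _ = _ := by ring
  have hwn : ‖iota s (S.Om z)‖ ≤ 12 * M * d := by
    refine (pi_norm_le_iff_of_nonneg (by positivity)).2 fun j => ?_
    rw [Real.norm_eq_abs]
    refine (abs_ev_le _ _ _).trans ?_
    calc 12 * (‖S.Om z‖ * (‖s‖ * ‖e j‖)) ≤ 12 * (M * (d * 1)) := by
          gcongr
          · exact hM z
          · exact norm_sv_le _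
          · exact e_norm_le j
      _ = _ := by ring
  have hgn : ‖S.gcov z s‖ ≤ 12 * (M * K) * d := by
    refine (pi_norm_le_iff_of_nonneg (by positivity)).2 fun j => ?_
    rw [Real.norm_eq_abs]
    refine (abs_ev_le _ _ _).trans ?_
    calc 12 * (‖S.Om z‖ * (‖s‖ * ‖S.J z (e j)‖)) ≤ 12 * (M * (d * (K * 1))) := by
          gcongr
          · exact hM z
          · exact norm_sv_le _
          · exact ((S.J z).le_opNorm _).trans (by gcongr <;> [exact hJ z; exact e_norm_le j])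
      _ = _ := by ring
  refine ⟨?_, ?_, fun h hh htr => ?_⟩
  · rw [hal r hr]
    refine (norm_add_le _ _).trans ((add_le_add ((norm_add_le _ _).trans
      (add_le_add (norm_sub_le _ _) le_rfl)) le_rfl).trans ?_)
    simp only [norm_smul, Real.norm_eq_abs, abs_div, abs_of_pos hD0, abs_of_pos (pow_pos hD0 2),
      abs_one, abs_of_pos (four_pos (α := ℝ))]
    have i1 : 1 / (r ^ 2 + ρ) ≤ 1 / c ^ 2 / (r ^ 2 + d ^ 2) := by
      rw [div_div]
      exact one_div_le_one_div_of_le (by positivity) (le_trans (by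
        gcongr; nlinarith [min_le_right c' 1]) hD)
    have i2 : d ^ 2 / (r ^ 2 + ρ) ^ 2 ≤ 1 / c ^ 2 / (r ^ 2 + d ^ 2) := by
      calc _ ≤ (r ^ 2 + d ^ 2) / (c * (r ^ 2 + d ^ 2)) ^ 2 := by
            gcongr
            nlinarith [sq_nonneg r]
        _ = _ := by field_simp
    have b1 : ‖P‖ ≤ C0 := hP.trans (mul_le_of_le_one_right hC00.le hd1)
    have b2 : ‖Q‖ ≤ C0 * d ^ 2 := hQ.trans (by
      gcongr C0 * ?_
      calc d ^ 3 = d ^ 2 * d := by ring
        _ ≤ d ^ 2 * 1 := by gcongr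
        _ = d ^ 2 := mul_one _)
    have b3 : ‖wedge (S.gcov z s) (iota s (S.Om z))‖ ≤ 12 * (12 * (M * K) * (12 * M)) * d ^ 2 := by
      refine (norm_wedge_le _ _).trans ?_
      calc 12 * (‖S.gcov z s‖ * ‖iota s (S.Om z)‖) ≤ 12 * ((12 * (M * K) * d) * (12 * M * d)) := by
            gcongr
        _ = _ := by ring
    calc 4 / (r ^ 2 + ρ) * ‖S.Om z‖ + 4 / (r ^ 2 + ρ) ^ 2 * ‖wedge (S.gcov z s) (iota s (S.Om z))‖
          + 1 / (r ^ 2 + ρ) * ‖P‖ + 1 / (r ^ 2 + ρ) ^ 2 * ‖Q‖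
        ≤ 4 / (r ^ 2 + ρ) * M + 4 / (r ^ 2 + ρ) ^ 2 * (12 * (12 * (M * K) * (12 * M)) * d ^ 2)
          + 1 / (r ^ 2 + ρ) * C0 + 1 / (r ^ 2 + ρ) ^ 2 * (C0 * d ^ 2) := by
          gcongr; exact hM z
      _ = (4 * M + C0) * (1 / (r ^ 2 + ρ))
          + (4 * (12 * (12 * (M * K) * (12 * M))) + C0) * (d ^ 2 / (r ^ 2 + ρ) ^ 2) := by ring
      _ ≤ (4 * M + C0) * (1 / c ^ 2 / (r ^ 2 + d ^ 2))
          + (4 * (12 * (12 * (M * K) * (12 * M))) + C0) * (1 / c ^ 2 / (r ^ 2 + d ^ 2)) := by gcongr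
      _ = (4 * M + 4 * (12 * (12 * (M * K) * (12 * M))) + 2 * C0) / c ^ 2 / (r ^ 2 + d ^ 2) := by
          ring
      _ ≤ _ := by
          gcongr
          have h3 : ∀ a b c : ℝ, 0 ≤ b → 0 ≤ c → a ≤ a + b + c := fun a b c hb hc => by linarith
          apply h3 <;> positivity
  · rw [hal r hr]
    simp only [piM_add, piM_sub, piM_smul, S.piM_Om, S.piM_line_term, smul_zero, sub_zero, zero_add]
    refine (norm_add_le _ _).trans ?_
    rw [norm_smul, norm_smul, Real.norm_eq_abs, Real.norm_eq_abs,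
      abs_of_pos (by positivity : 0 < 1 / (r ^ 2 + ρ)),
      abs_of_pos (by positivity : 0 < 1 / (r ^ 2 + ρ) ^ 2)]
    calc 1 / (r ^ 2 + ρ) * ‖piM (S.J z) P‖ + 1 / (r ^ 2 + ρ) ^ 2 * ‖piM (S.J z) Q‖
        ≤ 1 / (r ^ 2 + ρ) * (L * (C0 * d)) + 1 / (r ^ 2 + ρ) ^ 2 * (L * (C0 * d ^ 3)) := by
          gcongr
          · exact (hL z P).trans (by gcongr)
          · exact (hL z Q).trans (by gcongr)
      _ = L * C0 * (d / (r ^ 2 + ρ) + d ^ 3 / (r ^ 2 + ρ) ^ 2) := by ring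
      _ ≤ L * C0 * (4 / c ^ 2 / (r + d)) :=
          mul_le_mul_of_nonneg_left (weight_le hc (min_le_right _ _) hr hd0 hcd) (by positivity)
      _ = L * C0 * 4 / c ^ 2 / (r + d) := by ring
      _ ≤ _ := by
          gcongr
          rw [add_assoc, add_left_comm]
          exact le_add_of_nonneg_right (by positivity)
  · have hm := S.abs_mass_le (y := y) hh htr (hN z h hh) hP hQ
    rw [S.alErr_eq hh htr (hal r hr)]
    refine (hsmall _ _ (6 * N * C0 + 6400) (by positivity) hm.1 hm.2).trans ?_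
    gcongr
    exact le_add_of_nonneg_left (by positivity)

/-- The difference of two scales. -/
lemma exists_al_diff : ∃ C, 0 < C ∧ ∀ r R, 0 < r → r ≤ R → R ≤ 1 → ∀ y z,
    ‖piM (S.J z) (S.al r y z - S.al R y z)‖ ≤
        C * (Real.sqrt R / (dist0 (z - y) * Real.sqrt (dist0 (z - y)))) ∧
      ∀ h, S.Psd z h → q h (S.Om z) = 1 → |S.alErr r y z h - S.alErr R y z h| ≤
        C * (Real.sqrt R / (dist0 (z - y) * Real.sqrt (dist0 (z - y)))) := by
  obtain ⟨C0, hC00, hsplit⟩ := S.exists_al_split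
  obtain ⟨c', C', hc', hC', hρ⟩ := S.exists_rho2_bounds
  obtain ⟨N, hN0, hN⟩ := S.exists_norm_psd
  obtain ⟨L, hL0, hL⟩ := S.exists_piM_bound
  set c := min c' 1
  have hc : 0 < c := lt_min hc' one_pos
  refine ⟨(L * C0 + (6 * N * C0 + 6400)) * (6 / c ^ 3), by positivity,
    fun r R hr hrR hR y z => ?_⟩
  have hR0 : 0 < R := lt_of_lt_of_le hr hrR
  obtain ⟨P, Q, hP, hQ, hal⟩ := hsplit y z
  set d := dist0 (z - y)
  set ρ := S.rho2 z (z - y)
  have hd0 : 0 ≤ d := dist0_nonneg _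
  have hcd : c * d ^ 2 ≤ ρ :=
    (mul_le_mul_of_nonneg_right (min_le_left _ _) (sq_nonneg _)).trans (hρ z (z - y)).1
  obtain ⟨hA, hB, hX⟩ := weight_diff_le hc (min_le_right _ _) hr hrR hd0 hcd
  set X := Real.sqrt R / (d * Real.sqrt d)
  have key : ∀ a b B : ℝ, 0 ≤ B → a ≤ B * d → b ≤ B * d ^ 3 → 0 ≤ a → 0 ≤ b →
      (1 / (r ^ 2 + ρ) - 1 / (R ^ 2 + ρ)) * a + (1 / (r ^ 2 + ρ) ^ 2 - 1 / (R ^ 2 + ρ) ^ 2) * b ≤
        B * (6 / c ^ 3 * X) := by
    intro a b B hB0 ha hb _ _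
    calc _ ≤ (1 / (r ^ 2 + ρ) - 1 / (R ^ 2 + ρ)) * (B * d)
          + (1 / (r ^ 2 + ρ) ^ 2 - 1 / (R ^ 2 + ρ) ^ 2) * (B * d ^ 3) := by gcongr
      _ = B * (d * (1 / (r ^ 2 + ρ) - 1 / (R ^ 2 + ρ)) +
            d ^ 3 * (1 / (r ^ 2 + ρ) ^ 2 - 1 / (R ^ 2 + ρ) ^ 2)) := by ring
      _ ≤ _ := mul_le_mul_of_nonneg_left hX hB0
  have hX0 : 0 ≤ 6 / c ^ 3 * X := by positivity
  refine ⟨?_, fun h hh htr => ?_⟩
  · rw [hal r hr, hal R hR0]
    simp only [piM_add, piM_sub, piM_smul, S.piM_Om, S.piM_line_term, smul_zero, sub_zero, zero_add]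
    rw [add_sub_add_comm, ← sub_smul, ← sub_smul]
    refine (norm_add_le _ _).trans ?_
    rw [norm_smul, norm_smul, Real.norm_eq_abs, Real.norm_eq_abs, abs_of_nonneg hA, abs_of_nonneg hB]
    refine (key _ _ (L * C0) (by positivity) ?_ ?_ (norm_nonneg _) (norm_nonneg _)).trans ?_
    · exact (hL z P).trans (by rw [mul_assoc]; gcongr)
    · exact (hL z Q).trans (by rw [mul_assoc]; gcongr)
    · exact (mul_le_mul_of_nonneg_right (le_add_of_nonneg_right (by positivity)) hX0).trans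
        (le_of_eq (mul_assoc _ _ _).symm)
  · obtain ⟨h1, h2⟩ := S.abs_mass_le (y := y) hh htr (hN z h hh) hP hQ
    rw [S.alErr_eq hh htr (hal r hr), S.alErr_eq hh htr (hal R hR0)]
    have e : ∀ a b u v u' v' : ℝ, a / u + b / v - (a / u' + b / v') =
        (1 / u - 1 / u') * a + (1 / v - 1 / v') * b := fun a b u v u' v' => by ring
    rw [e]
    refine (abs_add_le _ _).trans ?_
    rw [abs_mul (1 / (r ^ 2 + ρ) - 1 / (R ^ 2 + ρ)),
      abs_mul (1 / (r ^ 2 + ρ) ^ 2 - 1 / (R ^ 2 + ρ) ^ 2), abs_of_nonneg hA, abs_of_nonneg hB]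
    refine (key _ _ (6 * N * C0 + 6400) (by positivity) h1 h2 (abs_nonneg _) (abs_nonneg _)).trans ?_
    exact (mul_le_mul_of_nonneg_right (le_add_of_nonneg_left (by positivity)) hX0).trans
      (le_of_eq (mul_assoc _ _ _).symm)

end Setup

end Vale.Agent.P204.Torus
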