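import Vale.Agent.P204.Torus.UData
import Vale.Agent.P204.Torus.TestForm

/-!
P204 on the four-torus: the quantities of the second estimate.
-/

open MeasureTheory

namespace Vale.Agent.P204.Torus

/-- The dyadic scales. -/
noncomputable def scale (k : ℕ) : ℝ := ((2 : ℝ) ^ k)⁻¹

namespace Setup

variable (S : Setup)

/-- The adapted weight `r² / (r² + ρ²)²` centred at `y`. -/
noncomputable def th (r : ℝ) (y z : V) : ℝ := r ^ 2 / (r ^ 2 + S.rho2 z (z - y)) ^ 2

end Setup

namespace Current

variable {S : Setup} (T : Current S)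

/-- The density bound given by the first estimate. -/
def DensBound : Prop := ∃ C, ∀ r, 0 < r → r ≤ 1 → ∀ y, T.dens r y ≤ C

/-- The adapted density. -/
noncomputable def Th (r : ℝ) (y : V) : ℝ := ∫ z, S.th r y z ∂T.ν

/-- The transverse part of the test integral. -/
noncomputable def Kr (r : ℝ) (y : V) : ℝ :=
  ∫ z, S.B z (T.h z) (sv (z - y)) (sv (z - y)) / (r ^ 2 + S.rho2 z (z - y)) ^ 2 ∂T.ν

/-- A majorant of the derivatives of the weights. -/
noncomputable def rad (r : ℝ) (x : V) : ℝ :=
  ∫ z, (r ^ 2 / (r ^ 2 + dist0 (z - x) ^ 2) ^ 2 +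
    r ^ 2 * dist0 (z - x) / (r ^ 2 + dist0 (z - x) ^ 2) ^ 3) ∂T.ν

/-- The pairing of a weighted regularised current with the regularised current. -/
noncomputable def pairE (w : V → ℝ) (ε : ℝ) : ℝ := ∫ x in cube, q (T.regW w ε x) (T.reg ε x)

end Current

end Vale.Agent.P204.Torus
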