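import Vale.Agent.P204.Torus.Defs

/-!
P204 on the four-torus: the periodic distance, the radial weight `ε²/(ε²+d²)` and the integrals
over the fundamental cube which bound the test forms.
-/

open MeasureTheory Set
open scoped BigOperators

namespace Vale.Agent.P204.Torus

/-- The radial weight `ε² / (ε² + d²)`. -/
noncomputable def phi (ε : ℝ) (u : V) : ℝ := ε ^ 2 / (ε ^ 2 + dist0 u ^ 2)

lemma dist0_nonneg (u : V) : 0 ≤ dist0 u := div_nonneg (Real.sqrt_nonneg _) Real.pi_pos.le

lemma dist0_sq (u : V) : dist0 u ^ 2 = (∑ i, Real.sin (Real.pi * u i) ^ 2) / Real.pi ^ 2 := by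
  rw [dist0, div_pow, Real.sq_sqrt (Finset.sum_nonneg fun i _ => sq_nonneg _)]

lemma dist0_sq_coord (u : V) (i : Fin 4) :
    (Real.sin (Real.pi * u i) / Real.pi) ^ 2 ≤ dist0 u ^ 2 := by
  rw [dist0_sq, div_pow]
  gcongr
  exact Finset.single_le_sum (f := fun j => Real.sin (Real.pi * u j) ^ 2) (fun j _ => sq_nonneg _)
    (Finset.mem_univ i)

lemma dist0_le_one (u : V) : dist0 u ≤ 1 := by
  rw [dist0, div_le_one Real.pi_pos, Real.sqrt_le_iff]
  refine ⟨Real.pi_pos.le, ?_⟩
  have h : ∑ i, Real.sin (Real.pi * u i) ^ 2 ≤ 4 := by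
    refine (Finset.sum_le_sum fun i _ => Real.sin_sq_le_one (Real.pi * u i)).trans ?_
    simp
  nlinarith [Real.pi_gt_three]

lemma dist0_zero : dist0 0 = 0 := by simp [dist0]

lemma dist0_neg (u : V) : dist0 (-u) = dist0 u := by simp [dist0]

lemma dist0_sub_comm (x y : V) : dist0 (x - y) = dist0 (y - x) := by
  rw [← dist0_neg (x - y), neg_sub]

lemma dist0_periodic : Periodic dist0 := by
  intro x n
  simp only [dist0, intVec, Pi.add_apply, mul_add]
  congr 2
  refine Finset.sum_congr rfl fun i _ => ?_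
  rw [show Real.pi * (n i : ℝ) = (n i : ℝ) * Real.pi from mul_comm _ _,
    Real.sin_add_int_mul_pi, mul_pow, ← zpow_natCast, ← zpow_mul, mul_comm (n i), zpow_mul]
  simp

lemma continuous_dist0 : Continuous dist0 := by unfold dist0; fun_prop

lemma dist0_add_le (u v : V) : dist0 (u + v) ≤ dist0 u + dist0 v := by
  simp only [dist0, ← add_div]
  refine div_le_div_of_nonneg_right ?_ Real.pi_pos.le
  set a := fun i => |Real.sin (Real.pi * u i)|
  set b := fun i => |Real.sin (Real.pi * v i)|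
  have h : ∑ i, Real.sin (Real.pi * (u + v) i) ^ 2 ≤ ∑ i, (a i + b i) ^ 2 := by
    refine Finset.sum_le_sum fun i _ => ?_
    rw [← sq_abs (Real.sin _), Pi.add_apply, mul_add, Real.sin_add]
    refine pow_le_pow_left₀ (abs_nonneg _) ((abs_add_le _ _).trans ?_) 2
    rw [abs_mul, abs_mul]
    exact add_le_add (mul_le_of_le_one_right (abs_nonneg _) (Real.abs_cos_le_one _))
      (mul_le_of_le_one_left (abs_nonneg _) (Real.abs_cos_le_one _))
  refine (Real.sqrt_le_sqrt h).trans ?_
  rw [Real.sqrt_le_iff]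
  refine ⟨by positivity, ?_⟩
  have hcs := Finset.sum_mul_sq_le_sq_mul_sq Finset.univ a b
  have hu : ∑ i, Real.sin (Real.pi * u i) ^ 2 = ∑ i, a i ^ 2 :=
    Finset.sum_congr rfl fun i _ => (sq_abs _).symm
  have hv : ∑ i, Real.sin (Real.pi * v i) ^ 2 = ∑ i, b i ^ 2 :=
    Finset.sum_congr rfl fun i _ => (sq_abs _).symm
  rw [hu, hv]
  have hA : 0 ≤ ∑ i, a i ^ 2 := Finset.sum_nonneg fun i _ => sq_nonneg _
  have hB : 0 ≤ ∑ i, b i ^ 2 := Finset.sum_nonneg fun i _ => sq_nonneg _
  have h2 : ∑ i, a i * b i ≤ √(∑ i, a i ^ 2) * √(∑ i, b i ^ 2) := by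
    rw [← Real.sqrt_mul hA]
    exact Real.le_sqrt_of_sq_le hcs
  calc ∑ i, (a i + b i) ^ 2 = ∑ i, a i ^ 2 + 2 * ∑ i, a i * b i + ∑ i, b i ^ 2 := by
        simp only [add_sq, Finset.sum_add_distrib, mul_assoc, ← Finset.mul_sum]
    _ ≤ _ := by
        rw [add_sq, Real.sq_sqrt hA, Real.sq_sqrt hB]
        linarith

lemma dist0_sub_le (x y z : V) : dist0 (x - z) ≤ dist0 (x - y) + dist0 (y - z) :=
  le_of_eq_of_le (by rw [sub_add_sub_cancel]) (dist0_add_le (x - y) (y - z))

lemma phi_nonneg (ε : ℝ) (u : V) : 0 ≤ phi ε u := by unfold phi; positivity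

lemma phi_le_one (ε : ℝ) (u : V) : phi ε u ≤ 1 :=
  div_le_one_of_le₀ (le_add_of_nonneg_right (sq_nonneg _)) (by positivity)

lemma phi_periodic (ε : ℝ) : Periodic (phi ε) := fun x n => by
  simp only [phi, dist0_periodic x n]

lemma continuous_phi {ε : ℝ} (hε : 0 < ε) : Continuous (phi ε) := by
  unfold phi
  exact continuous_const.div (continuous_const.add (continuous_dist0.pow 2))
    fun u => by positivity

/-- The product of two weights is controlled by the weight between their centres. -/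
lemma phi_mul_le {ε : ℝ} (hε : 0 < ε) (x y z : V) (a : ℕ) :
    phi ε (x - y) ^ a * phi ε (x - z) ^ a ≤
      4 ^ a * phi ε (y - z) ^ a * (phi ε (x - y) ^ a + phi ε (x - z) ^ a) := by
  have key : ∀ p w : V, dist0 (y - z) ≤ 2 * dist0 p → phi ε p ≤ 4 * phi ε (y - z) →
      phi ε p ^ a * phi ε w ^ a ≤
        4 ^ a * phi ε (y - z) ^ a * phi ε w ^ a := fun p w _ h => by
    rw [← mul_pow 4]
    exact mul_le_mul_of_nonneg_right (pow_le_pow_left₀ (phi_nonneg _ _) h a)
      (pow_nonneg (phi_nonneg _ _) a)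
  have hle : ∀ p : V, dist0 (y - z) ≤ 2 * dist0 p → phi ε p ≤ 4 * phi ε (y - z) := fun p h => by
    unfold phi
    rw [← mul_div_assoc, div_le_div_iff₀ (by positivity) (by positivity)]
    have h2 := pow_le_pow_left₀ (dist0_nonneg _) h 2
    nlinarith [sq_nonneg ε, mul_nonneg (sq_nonneg ε) (sq_nonneg ε)]
  have ht : dist0 (y - z) ≤ dist0 (x - y) + dist0 (x - z) := by
    have := dist0_sub_le y x z
    rwa [dist0_sub_comm y x] at this
  have h4 : 0 ≤ 4 ^ a * phi ε (y - z) ^ a := by
    have := phi_nonneg ε (y - z)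
    positivity
  rcases le_total (dist0 (x - y)) (dist0 (x - z)) with h | h
  · have h' : dist0 (y - z) ≤ 2 * dist0 (x - z) := by linarith
    rw [mul_comm]
    refine (key _ _ h' (hle _ h')).trans (mul_le_mul_of_nonneg_left ?_ h4)
    exact le_add_of_nonneg_right (pow_nonneg (phi_nonneg _ _) a)
  · have h' : dist0 (y - z) ≤ 2 * dist0 (x - y) := by linarith
    refine (key _ _ h' (hle _ h')).trans (mul_le_mul_of_nonneg_left ?_ h4)
    exact le_add_of_nonneg_left (pow_nonneg (phi_nonneg _ _) a)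

/-- The sum of the dyadic scales below `R`. -/
lemma dyadic_sum_le {r R : ℝ} (hr : 0 < r) (hR : 0 ≤ R) (M : ℕ) :
    ∑ k ∈ (Finset.range M).filter (fun k : ℕ => 2 ^ k * r ≤ R), 2 ^ k * r ≤ 2 * R := by
  induction M with
  | zero => simpa using hR
  | succ M ih =>
    rw [Finset.range_add_one, Finset.filter_insert]
    split_ifs with h
    · rw [Finset.sum_insert (by simp)]
      refine le_trans (add_le_add le_rfl (Finset.sum_le_sum_of_subset_of_nonneg
        (Finset.filter_subset _ _) fun k _ _ => by positivity)) ?_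
      rw [← Finset.sum_mul, geom_sum_eq (by norm_num)]
      have : (0 : ℝ) < 2 ^ M := by positivity
      rw [show (2 : ℝ) - 1 = 1 by norm_num, div_one]
      nlinarith
    · exact ih

/-- `1/(r+d)` is bounded by the dyadic test weights between `r` and `R`. -/
lemma inv_le_dyadic {r R d : ℝ} (hr : 0 < r) (hrR : r ≤ R) (hd : 0 ≤ d) {M : ℕ}
    (hM : R < 2 ^ M * r) :
    1 / (r + d) ≤ 2 / R + 8 * ∑ k ∈ (Finset.range M).filter (fun k : ℕ => 2 ^ k * r ≤ R),
      (2 ^ k * r) ^ 3 / ((2 ^ k * r) ^ 2 + d ^ 2) ^ 2 := by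
  have hR : 0 < R := hr.trans_le hrR
  have hnn : ∀ k : ℕ, 0 ≤ (2 ^ k * r) ^ 3 / ((2 ^ k * r) ^ 2 + d ^ 2) ^ 2 := fun k => by positivity
  have hS : 0 ≤ ∑ k ∈ (Finset.range M).filter (fun k : ℕ => 2 ^ k * r ≤ R),
      (2 ^ k * r) ^ 3 / ((2 ^ k * r) ^ 2 + d ^ 2) ^ 2 := Finset.sum_nonneg fun k _ => hnn k
  rcases le_or_gt R (2 * (r + d)) with h | h
  · refine le_add_of_le_of_nonneg ?_ (by positivity)
    rw [div_le_div_iff₀ (by positivity) hR]
    linarith
  set t := max r d
  have ht : r ≤ t := le_max_left _ _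
  have htd : d ≤ t := le_max_right _ _
  have htR : 2 * t ≤ R := by
    have : t ≤ r + d := max_le (by linarith) (by linarith)
    linarith
  classical
  have hex : ∃ k : ℕ, t ≤ 2 ^ k * r := ⟨M, by linarith⟩
  obtain ⟨k, hk, hk'⟩ : ∃ k : ℕ, t ≤ 2 ^ k * r ∧ 2 ^ k * r ≤ 2 * t := by
    refine ⟨Nat.find hex, Nat.find_spec hex, ?_⟩
    rcases Nat.eq_zero_or_eq_succ_pred (Nat.find hex) with h0 | h0
    · rw [h0, pow_zero, one_mul]; linarith
    · have := Nat.find_min hex (m := (Nat.find hex).pred) (by omega)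
      rw [h0, pow_succ]
      linarith [not_le.1 this]
  have hkM : k ∈ (Finset.range M).filter (fun k : ℕ => 2 ^ k * r ≤ R) := by
    rw [Finset.mem_filter, Finset.mem_range]
    refine ⟨?_, by linarith⟩
    by_contra hk2
    have : (2 : ℝ) ^ M * r ≤ 2 ^ k * r :=
      mul_le_mul_of_nonneg_right (pow_le_pow_right₀ one_le_two (not_lt.1 hk2)) hr.le
    linarith
  refine le_trans ?_ (le_add_of_nonneg_left (by positivity : (0 : ℝ) ≤ 2 / R))
  refine le_trans ?_ (mul_le_mul_of_nonneg_left
    (Finset.single_le_sum (fun k _ => hnn k) hkM) (by norm_num : (0 : ℝ) ≤ 8))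
  set b := 2 ^ k * r
  have hb : 0 < b := by positivity
  have hdb : d ≤ b := htd.trans hk
  have h1 : b ^ 3 / (4 * b ^ 4) ≤ b ^ 3 / (b ^ 2 + d ^ 2) ^ 2 := by
    refine div_le_div_of_nonneg_left (by positivity) (by positivity) ?_
    have h2 : b ^ 2 + d ^ 2 ≤ 2 * b ^ 2 := by nlinarith
    refine (pow_le_pow_left₀ (by positivity) h2 2).trans_eq ?_
    ring
  refine le_trans ?_ (mul_le_mul_of_nonneg_left h1 (by norm_num : (0 : ℝ) ≤ 8))
  rw [show 8 * (b ^ 3 / (4 * b ^ 4)) = 2 / b by field_simp; ring,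
    div_le_div_iff₀ (by positivity) hb]
  have : t ≤ r + d := max_le (by linarith) (by linarith)
  linarith

/-! ### Integrals over the cube -/

/-- Lebesgue measure on the fundamental cube. -/
noncomputable def cubeVol : Measure V := volume.restrict cube

lemma cubeVol_eq :
    cubeVol = Measure.pi fun _ : Fin 4 => (volume : Measure ℝ).restrict (Ico 0 1) := by
  rw [cubeVol, cube, volume_pi, Measure.restrict_pi_pi]

instance : IsFiniteMeasure cubeVol := by
  rw [cubeVol_eq]; infer_instance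

lemma integrable_cube_prod {f : Fin 4 → ℝ → ℝ}
    (hf : ∀ i, IntegrableOn (f i) (Ico 0 1)) :
    Integrable (fun x : V => ∏ i, f i (x i)) cubeVol := by
  rw [cubeVol_eq]
  exact Integrable.fintype_prod fun i => hf i

lemma integral_cube_prod (f : Fin 4 → ℝ → ℝ) :
    ∫ x : V, ∏ i, f i (x i) ∂cubeVol = ∏ i, ∫ t in Ico (0 : ℝ) 1, f i t := by
  rw [cubeVol_eq]
  exact integral_fintype_prod_eq_prod f

lemma integral_Ico_periodic {f : ℝ → ℝ} (hf : Function.Periodic f 1) (a : ℝ) :
    ∫ t in Ico (0 : ℝ) 1, f (t - a) = ∫ t in (-(1 / 2) : ℝ)..(1 / 2), f t := by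
  rw [setIntegral_congr_set Ico_ae_eq_Ioc, ← intervalIntegral.integral_of_le zero_le_one,
    intervalIntegral.integral_comp_sub_right, zero_sub,
    show (1 : ℝ) - a = -a + 1 by ring, hf.intervalIntegral_add_eq (-a) (-(1 / 2))]
  norm_num

lemma two_mul_abs_le_sin {t : ℝ} (ht : |t| ≤ 1 / 2) :
    2 / Real.pi * |t| ≤ |Real.sin (Real.pi * t) / Real.pi| := by
  have h := Real.mul_abs_le_abs_sin (x := Real.pi * t) (by
    rw [abs_mul, abs_of_pos Real.pi_pos]
    nlinarith [Real.pi_pos])
  rw [abs_mul, abs_of_pos Real.pi_pos, ← mul_assoc,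
    div_mul_cancel₀ (2 : ℝ) Real.pi_pos.ne'] at h
  rw [abs_div, abs_of_pos Real.pi_pos, div_mul_eq_mul_div]
  exact div_le_div_of_nonneg_right h Real.pi_pos.le

lemma periodic_sin_sq (g : ℝ → ℝ) :
    Function.Periodic (fun t => g ((Real.sin (Real.pi * t) / Real.pi) ^ 2)) 1 := by
  intro t
  simp only
  rw [mul_add, mul_one, Real.sin_add_pi, neg_div, neg_sq]

/-- The one-dimensional weight has mass of order `ε`. -/
lemma integral_lorentz_le {ε : ℝ} (hε : 0 < ε) (a : ℝ) :
    ∫ t in Ico (0 : ℝ) 1, ε ^ 2 / (ε ^ 2 + (Real.sin (Real.pi * (t - a)) / Real.pi) ^ 2)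
      ≤ Real.pi ^ 2 / 2 * ε := by
  rw [integral_Ico_periodic (periodic_sin_sq fun w => ε ^ 2 / (ε ^ 2 + w)) a,
    intervalIntegral.integral_of_le (by norm_num)]
  set c := 2 / (Real.pi * ε) with hc
  have hc0 : 0 < c := by positivity
  have hi : Integrable fun t : ℝ => (1 + (c * t) ^ 2)⁻¹ :=
    integrable_inv_one_add_sq.comp_mul_left' hc0.ne'
  have hint : ∫ t : ℝ, (1 + (c * t) ^ 2)⁻¹ = Real.pi ^ 2 / 2 * ε := by
    rw [Measure.integral_comp_mul_left fun t : ℝ => (1 + t ^ 2)⁻¹, integral_univ_inv_one_add_sq,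
      abs_of_pos (inv_pos.2 hc0), smul_eq_mul, hc]
    field_simp
  have hpt : ∀ t ∈ Ioc (-(1 / 2) : ℝ) (1 / 2),
      ε ^ 2 / (ε ^ 2 + (Real.sin (Real.pi * t) / Real.pi) ^ 2) ≤ (1 + (c * t) ^ 2)⁻¹ := by
    intro t ht
    have h := pow_le_pow_left₀ (by positivity)
      (two_mul_abs_le_sin (abs_le.2 ⟨ht.1.le, ht.2⟩)) 2
    rw [sq_abs, mul_pow, sq_abs] at h
    rw [inv_eq_one_div, div_le_div_iff₀ (by positivity) (by positivity), one_mul, mul_add,
      mul_one]
    have : ε ^ 2 * (c * t) ^ 2 = (2 / Real.pi) ^ 2 * t ^ 2 := by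
      rw [hc]; field_simp
    linarith
  refine le_trans (setIntegral_mono_on ?_ hi.integrableOn measurableSet_Ioc hpt) ?_
  · refine (Continuous.integrableOn_Icc ?_).mono_set Ioc_subset_Icc_self
    exact continuous_const.div (by fun_prop) fun t => by positivity
  · rw [← hint]
    exact setIntegral_le_integral hi (Filter.Eventually.of_forall fun t => by positivity)

lemma phi_pow_le_prod {ε : ℝ} (hε : 0 < ε) (u : V) :
    phi ε u ^ 4 ≤
      ∏ i, ε ^ 2 / (ε ^ 2 + (Real.sin (Real.pi * u i) / Real.pi) ^ 2) := by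
  rw [show phi ε u ^ 4 = ∏ _i : Fin 4, phi ε u by simp]
  refine Finset.prod_le_prod (fun i _ => phi_nonneg _ _) fun i _ => ?_
  exact div_le_div_of_nonneg_left (sq_nonneg ε) (by positivity)
    (add_le_add le_rfl (dist0_sq_coord u i))

/-- The constant of `integral_phi_pow_le`. -/
noncomputable def phiMass : ℝ := (Real.pi ^ 2 / 2) ^ 4

lemma phiMass_pos : 0 < phiMass := by unfold phiMass; positivity

lemma integrable_phi_pow {ε : ℝ} (hε : 0 < ε) (y : V) (a : ℕ) :
    Integrable (fun x : V => phi ε (x - y) ^ a) cubeVol :=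
  (integrable_const (1 : ℝ)).mono'
    ((((continuous_phi hε).comp (continuous_id.sub continuous_const)).pow a).aestronglyMeasurable)
    (Filter.Eventually.of_forall fun x => by
      rw [Real.norm_eq_abs, abs_of_nonneg (pow_nonneg (phi_nonneg _ _) _)]
      exact pow_le_one₀ (phi_nonneg _ _) (phi_le_one _ _))

/-- The weight has mass of order `ε⁴`. -/
lemma integral_phi_pow_le {ε : ℝ} (hε : 0 < ε) (y : V) {a : ℕ} (ha : 4 ≤ a) :
    ∫ x, phi ε (x - y) ^ a ∂cubeVol ≤ phiMass * ε ^ 4 := by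
  set f : Fin 4 → ℝ → ℝ := fun i t =>
    ε ^ 2 / (ε ^ 2 + (Real.sin (Real.pi * (t - y i)) / Real.pi) ^ 2)
  have hf : ∀ i, IntegrableOn (f i) (Ico 0 1) := fun i =>
    (Continuous.integrableOn_Icc (continuous_const.div (by fun_prop) fun t => by
      positivity)).mono_set Ico_subset_Icc_self
  refine (integral_mono (integrable_phi_pow hε y a) (integrable_cube_prod hf) fun x => ?_).trans ?_
  · exact (pow_le_pow_of_le_one (phi_nonneg _ _) (phi_le_one _ _) ha).trans
      (phi_pow_le_prod hε (x - y))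
  · rw [integral_cube_prod]
    calc ∏ i, ∫ t in Ico (0 : ℝ) 1, f i t ≤ ∏ _i : Fin 4, Real.pi ^ 2 / 2 * ε :=
          Finset.prod_le_prod (fun i _ => setIntegral_nonneg measurableSet_Ico fun t _ => by
            positivity) fun i _ => integral_lorentz_le hε (y i)
      _ = phiMass * ε ^ 4 := by
          simp [phiMass, mul_pow]

/-- Two weights integrate to the weight between their centres. -/
lemma integral_phi_mul_le {ε : ℝ} (hε : 0 < ε) (y z : V) {a : ℕ} (ha : 4 ≤ a) :
    ∫ x, phi ε (x - y) ^ a * phi ε (x - z) ^ a ∂cubeVol ≤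
      2 * 4 ^ a * phiMass * ε ^ 4 * phi ε (y - z) ^ a := by
  have hi := (integrable_phi_pow hε y a).add (integrable_phi_pow hε z a)
  refine (integral_mono ?_ (hi.const_mul (4 ^ a * phi ε (y - z) ^ a))
    fun x => phi_mul_le hε x y z a).trans ?_
  · refine (integrable_phi_pow hε y a).mono'
      (Continuous.aestronglyMeasurable
        ((((continuous_phi hε).comp (continuous_id.sub continuous_const)).pow a).mul
          (((continuous_phi hε).comp (continuous_id.sub continuous_const)).pow a)))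
      (Filter.Eventually.of_forall fun x => ?_)
    have := phi_nonneg ε (x - y)
    have := phi_nonneg ε (x - z)
    rw [Real.norm_eq_abs, abs_of_nonneg (by positivity)]
    exact mul_le_of_le_one_right (by positivity)
      (pow_le_one₀ (phi_nonneg _ _) (phi_le_one _ _))
  · simp only [Pi.add_apply]
    rw [integral_const_mul, integral_add (integrable_phi_pow hε y a) (integrable_phi_pow hε z a)]
    refine (mul_le_mul_of_nonneg_left (add_le_add (integral_phi_pow_le hε y ha)
      (integral_phi_pow_le hε z ha)) ?_).trans_eq (by ring)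
    have := phi_nonneg ε (y - z)
    positivity

lemma integrableOn_rpow_sin {e : ℝ} (he0 : 0 ≤ e) (he : e < 1) :
    IntegrableOn (fun t : ℝ => |Real.sin (Real.pi * t) / Real.pi| ^ (-e))
      (Icc (-(1 / 2)) (1 / 2)) := by
  have h0 : IntervalIntegrable (fun t : ℝ => t ^ (-e)) volume 0 (1 / 2) :=
    intervalIntegral.intervalIntegrable_rpow' (by linarith)
  have hpos : IntegrableOn (fun t : ℝ => |t| ^ (-e)) (Icc 0 (1 / 2)) := by
    rw [integrableOn_Icc_iff_integrableOn_Ioc]
    exact ((intervalIntegrable_iff_integrableOn_Ioc_of_le (by norm_num)).1 h0).congr_fun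
      (fun t ht => by rw [abs_of_pos ht.1]) measurableSet_Ioc
  have hneg : IntegrableOn (fun t : ℝ => |t| ^ (-e)) (Icc (-(1 / 2)) 0) := by
    have := hpos.comp_neg
    simpa using this
  have hall : IntegrableOn (fun t : ℝ => |t| ^ (-e)) (Icc (-(1 / 2)) (1 / 2)) := by
    rw [← Icc_union_Icc_eq_Icc (by norm_num : -(1 / 2 : ℝ) ≤ 0) (by norm_num)]
    exact hneg.union hpos
  refine (hall.const_mul ((2 / Real.pi) ^ (-e))).mono' ?_ ?_
  · exact (Measurable.aestronglyMeasurable (by fun_prop))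
  · have hne : ∀ᵐ t : ℝ ∂(volume.restrict (Icc (-(1 / 2)) (1 / 2))), t ≠ 0 :=
      ae_restrict_of_ae (Countable.ae_notMem (countable_singleton (0 : ℝ)) volume |>.mono
        fun t ht => by simpa using ht)
    filter_upwards [ae_restrict_mem measurableSet_Icc, hne] with t ht ht0
    rw [Real.norm_eq_abs, abs_of_nonneg (by positivity),
      ← Real.mul_rpow (by positivity) (abs_nonneg t)]
    exact Real.rpow_le_rpow_of_nonpos (by positivity)
      (two_mul_abs_le_sin (abs_le.2 ⟨ht.1, ht.2⟩)) (neg_nonpos.2 he0)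

/-- The one-dimensional factor of the singularity `1/d^p`, with `e = p/4`. -/
noncomputable def sinPow (e a t : ℝ) : ℝ := |Real.sin (Real.pi * (t - a)) / Real.pi| ^ (-e)

/-- Its mass over a period. -/
noncomputable def sinPowMass (e : ℝ) : ℝ :=
  ∫ t in (-(1 / 2) : ℝ)..(1 / 2), |Real.sin (Real.pi * t) / Real.pi| ^ (-e)

lemma periodic_abs_sin (g : ℝ → ℝ) :
    Function.Periodic (fun t => g |Real.sin (Real.pi * t) / Real.pi|) 1 := by
  intro t
  simp only
  rw [mul_add, mul_one, Real.sin_add_pi, neg_div, abs_neg]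

lemma integrable_sinPow {e : ℝ} (he0 : 0 ≤ e) (he : e < 1) (a : ℝ) :
    IntegrableOn (sinPow e a) (Ico 0 1) := by
  have h0 : IntervalIntegrable (fun t : ℝ => |Real.sin (Real.pi * t) / Real.pi| ^ (-e)) volume
      (-(1 / 2)) (-(1 / 2) + 1) := by
    rw [intervalIntegrable_iff_integrableOn_Icc_of_le (by norm_num)]
    exact (integrableOn_rpow_sin he0 he).mono_set (Icc_subset_Icc le_rfl (by norm_num))
  have h1 := ((periodic_abs_sin fun w => w ^ (-e)).intervalIntegrable one_ne_zero h0 (-a)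
    (1 - a)).comp_sub_right a
  rw [neg_add_cancel, sub_add_cancel] at h1
  exact ((intervalIntegrable_iff_integrableOn_Icc_of_le zero_le_one).1 h1).mono_set
    Ico_subset_Icc_self

lemma invPow_le_prod {u : V} (hu : ∀ i, Real.sin (Real.pi * u i) ≠ 0) (p : ℕ) :
    (dist0 u ^ p)⁻¹ ≤ ∏ i, |Real.sin (Real.pi * u i) / Real.pi| ^ (-((p : ℝ) / 4)) := by
  set a : Fin 4 → ℝ := fun i => |Real.sin (Real.pi * u i) / Real.pi|
  have ha : ∀ i, 0 < a i := fun i => abs_pos.2 (div_ne_zero (hu i) Real.pi_pos.ne')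
  have hle : ∀ i, a i ≤ dist0 u := fun i => by
    have := Real.sqrt_le_sqrt (dist0_sq_coord u i)
    rwa [Real.sqrt_sq_eq_abs, Real.sqrt_sq (dist0_nonneg u)] at this
  calc (dist0 u ^ p)⁻¹ = ∏ _i : Fin 4, dist0 u ^ (-((p : ℝ) / 4)) := by
        rw [Finset.prod_const, Finset.card_univ, Fintype.card_fin, ← Real.rpow_natCast _ 4,
          ← Real.rpow_mul (dist0_nonneg u), show -((p : ℝ) / 4) * ((4 : ℕ) : ℝ) = -(p : ℝ) by
            push_cast; ring, Real.rpow_neg (dist0_nonneg u), Real.rpow_natCast]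
    _ ≤ _ := Finset.prod_le_prod (fun i _ => Real.rpow_nonneg (dist0_nonneg u) _) fun i _ =>
        Real.rpow_le_rpow_of_nonpos (ha i) (hle i) (neg_nonpos.2 (by positivity))

lemma ae_sin_ne_zero (y : V) :
    ∀ᵐ x ∂cubeVol, ∀ i, Real.sin (Real.pi * (x i - y i)) ≠ 0 := by
  rw [Filter.eventually_all]
  intro i
  rw [cubeVol_eq]
  have hq := (Measure.quasiMeasurePreserving_eval
    (μ := fun _ : Fin 4 => (volume : Measure ℝ).restrict (Ico 0 1)) i)
  refine hq.ae (p := fun t : ℝ => Real.sin (Real.pi * (t - y i)) ≠ 0) ?_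
  refine ae_restrict_of_ae (Countable.ae_notMem ((countable_range fun n : ℤ => y i + n)) _ |>.mono
    fun t ht hsin => ht ?_)
  obtain ⟨n, hn⟩ := Real.sin_eq_zero_iff.1 hsin
  refine ⟨n, ?_⟩
  have : t - y i = n := by
    have := hn
    rw [mul_comm (n : ℝ)] at this
    exact (mul_left_cancel₀ Real.pi_pos.ne' this).symm
  simp only
  linarith

lemma integrable_invPow (y : V) {p : ℕ} (hp : p < 4) :
    Integrable (fun x : V => (dist0 (x - y) ^ p)⁻¹) cubeVol := by
  have he : (p : ℝ) / 4 < 1 := by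
    rw [div_lt_one (by norm_num)]; exact_mod_cast hp
  refine (integrable_cube_prod fun i => integrable_sinPow (by positivity) he (y i)).mono'
    ((continuous_dist0.comp (continuous_id.sub continuous_const)).measurable.pow_const p
      |>.inv.aestronglyMeasurable) ?_
  refine (ae_sin_ne_zero y).mono fun x hx => ?_
  rw [Real.norm_eq_abs, abs_of_nonneg (inv_nonneg.2 (pow_nonneg (dist0_nonneg _) _))]
  exact invPow_le_prod (u := x - y) hx p

/-- `1/d^p` has uniformly bounded mass for `p < 4`. -/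
lemma integral_invPow_le (y : V) {p : ℕ} (hp : p < 4) :
    ∫ x, (dist0 (x - y) ^ p)⁻¹ ∂cubeVol ≤ sinPowMass ((p : ℝ) / 4) ^ 4 := by
  have he : (p : ℝ) / 4 < 1 := by
    rw [div_lt_one (by norm_num)]; exact_mod_cast hp
  refine (integral_mono_ae (integrable_invPow y hp)
    (integrable_cube_prod fun i => integrable_sinPow (by positivity) he (y i))
    ((ae_sin_ne_zero y).mono fun x hx => invPow_le_prod (u := x - y) hx p)).trans_eq ?_
  rw [integral_cube_prod]
  have : ∀ i, ∫ t in Ico (0 : ℝ) 1, sinPow ((p : ℝ) / 4) (y i) t = sinPowMass ((p : ℝ) / 4) :=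
    fun i => integral_Ico_periodic (periodic_abs_sin fun w => w ^ (-((p : ℝ) / 4))) (y i)
  simp [this]

/-! ### Shifts -/

/-- The projection of the cover to the torus. -/
noncomputable def toTorus (x : V) : Fin 4 → UnitAddCircle := fun i => (x i : UnitAddCircle)

/-- The representative in the cube. -/
noncomputable def fromTorus (p : Fin 4 → UnitAddCircle) : V :=
  fun i => (AddCircle.equivIco (1 : ℝ) 0 (p i) : ℝ)

lemma measurable_fromTorus : Measurable fromTorus := by
  refine measurable_pi_lambda _ fun i => ?_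
  exact (measurable_subtype_coe.comp
    (AddCircle.measurableEquivIco (1 : ℝ) 0).measurable).comp (measurable_pi_apply i)

lemma periodic_fromTorus {α : Type*} {f : V → α} (hf : Periodic f) (x : V) :
    f (fromTorus (toTorus x)) = f x := by
  have h : fromTorus (toTorus x) = x + intVec (fun i => -⌊x i⌋) := by
    funext i
    simp only [fromTorus, toTorus, intVec, Pi.add_apply, AddCircle.equivIco,
      QuotientAddGroup.equivIcoMod_coe,
      toIcoMod_zero_one, Int.cast_neg, Int.fract]
    ring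
  rw [h, hf]

lemma measurePreserving_toTorus :
    MeasurePreserving toTorus cubeVol volume := by
  rw [cubeVol_eq, volume_pi]
  refine measurePreserving_pi _ _ fun i => ?_
  rw [Measure.restrict_congr_set Ico_ae_eq_Ioc]
  simpa using AddCircle.measurePreserving_mk (1 : ℝ) 0

/-- Integrals of periodic functions over the cube are invariant under shifts. -/
lemma integral_cube_shift {E : Type*} [NormedAddCommGroup E] [NormedSpace ℝ E] {f : V → E}
    (hm : StronglyMeasurable f) (hf : Periodic f) (y : V) :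
    ∫ x, f (x - y) ∂cubeVol = ∫ x, f x ∂cubeVol := by
  have hF : StronglyMeasurable fun p => f (fromTorus p) :=
    hm.comp_measurable measurable_fromTorus
  have key : ∀ g : V → E, Periodic g → StronglyMeasurable g →
      ∫ x, g x ∂cubeVol = ∫ p, g (fromTorus p) := fun g hg hgm => by
    have hmap := integral_map (μ := cubeVol) (f := fun p => g (fromTorus p))
      measurePreserving_toTorus.measurable.aemeasurable
      (hgm.comp_measurable measurable_fromTorus).aestronglyMeasurable
    rw [measurePreserving_toTorus.map_eq] at hmap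
    rw [hmap]
    simp only [periodic_fromTorus hg]
  have hs : Periodic fun x => f (x - y) := fun x n => by
    simp only
    rw [show x + intVec n - y = x - y + intVec n by abel, hf]
  rw [key _ hs (hm.comp_measurable (by fun_prop)), key f hf hm]
  have e : ∀ p, f (fromTorus p - y) = f (fromTorus (p - toTorus y)) := fun p => by
    have h : toTorus (fromTorus p - y) = p - toTorus y := by
      funext i
      simp [toTorus, fromTorus]
    rw [← h, periodic_fromTorus hf]
  simp only [e]
  exact integral_sub_right_eq_self (fun p => f (fromTorus p)) (toTorus y)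

end Vale.Agent.P204.Torus
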