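import Vale.Agent.P204.Torus.Facts

/-!
P204 on the four-torus: derivatives of fields of two-forms and exact forms.
-/

namespace Vale.Agent.P204.Torus

open scoped BigOperators

lemma e_norm_le (i : Fin 4) : ‖e i‖ ≤ 1 := by simp [e, Pi.norm_single]

lemma Smooth.differentiableAt {F : Type*} [NormedAddCommGroup F] [NormedSpace ℝ F] {f : V → F}
    (hf : Smooth f) (x : V) : DifferentiableAt ℝ f x :=
  hf.smooth.differentiable (by simp) x

lemma periodic_fderiv {F : Type*} [NormedAddCommGroup F] [NormedSpace ℝ F] {f : V → F}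
    (hp : Periodic f) : Periodic (fderiv ℝ f) := fun x n => by
  rw [← fderiv_comp_add_right]
  congr 1
  funext z
  exact hp z n

/-- A bound on the derivative of a smooth periodic field. -/
lemma Smooth.exists_fderiv_bound {F : Type*} [NormedAddCommGroup F] [NormedSpace ℝ F] {f : V → F}
    (hf : Smooth f) : ∃ C, 0 < C ∧ ∀ x u, ‖fderiv ℝ f x u‖ ≤ C * ‖u‖ := by
  obtain ⟨C, hC0, hC⟩ :=
    exists_bound (hf.smooth.continuous_fderiv (by simp)) (periodic_fderiv hf.periodic)
  exact ⟨C, hC0, fun x u => ((fderiv ℝ f x).le_opNorm u).trans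
    (mul_le_mul_of_nonneg_right (hC x) (norm_nonneg _))⟩

/-- The derivative of a coordinate. -/
lemma fderiv_coord {b : V → V} {x : V} (hb : DifferentiableAt ℝ b x) (u : V) (j : Fin 4) :
    fderiv ℝ (fun x => b x j) x u = fderiv ℝ b x u j := by
  have h : HasFDerivAt (fun x => b x j)
      ((ContinuousLinearMap.proj (R := ℝ) (φ := fun _ : Fin 4 => ℝ) j).comp (fderiv ℝ b x)) x :=
    (ContinuousLinearMap.proj (R := ℝ) (φ := fun _ : Fin 4 => ℝ) j).hasFDerivAt.comp x
      hb.hasFDerivAt
  rw [h.fderiv]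
  rfl

/-- The product rule for the evaluation of a two-form. -/
lemma fderiv_ev {f : V → Form} {a b : V → V} {x : V} (hf : DifferentiableAt ℝ f x)
    (ha : DifferentiableAt ℝ a x) (hb : DifferentiableAt ℝ b x) (u : V) :
    fderiv ℝ (fun x => ev (f x) (a x) (b x)) x u =
      ev (fderiv ℝ f x u) (a x) (b x) + ev (f x) (fderiv ℝ a x u) (b x)
        + ev (f x) (a x) (fderiv ℝ b x u) := by
  have hfk : ∀ k, HasFDerivAt (fun x => f x k)
      ((EuclideanSpace.proj (𝕜 := ℝ) k).comp (fderiv ℝ f x)) x := fun k =>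
    (EuclideanSpace.proj (𝕜 := ℝ) k).hasFDerivAt.comp x hf.hasFDerivAt
  have hv : ∀ (c : V → V), DifferentiableAt ℝ c x → ∀ i, HasFDerivAt (fun x => c x i)
      ((ContinuousLinearMap.proj (R := ℝ) (φ := fun _ : Fin 4 => ℝ) i).comp (fderiv ℝ c x)) x :=
    fun c hc i => (ContinuousLinearMap.proj (R := ℝ) (φ := fun _ : Fin 4 => ℝ) i).hasFDerivAt.comp x
      hc.hasFDerivAt
  have h := HasFDerivAt.fun_sum (u := Finset.univ) fun k (_ : k ∈ Finset.univ) =>
    (hfk k).mul (((hv a ha (fi k)).mul (hv b hb (se k))).sub ((hv b hb (fi k)).mul (hv a ha (se k))))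
  have h' : fderiv ℝ (fun x => ev (f x) (a x) (b x)) x = _ := HasFDerivAt.fderiv h
  rw [h']
  simp only [ev, FunLike.coe_sum, Finset.sum_apply, ← Finset.sum_add_distrib]
  refine Finset.sum_congr rfl fun k _ => ?_
  simp only [add_apply, smul_apply,
    sub_apply, ContinuousLinearMap.comp_apply, ContinuousLinearMap.proj_apply,
    PiLp.proj_apply, smul_eq_mul, Pi.sub_apply, Pi.mul_apply]
  ring

/-- The covector of the derivative of a function. -/
noncomputable def grad (f : V → ℝ) (x : V) : V := fun i => fderiv ℝ f x (e i)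

lemma pair_grad {f : V → ℝ} (x u : V) : pair (grad f x) u = fderiv ℝ f x u := by
  conv_rhs => rw [sum_e u]
  simp only [pair, grad, map_sum, map_smul, smul_eq_mul]
  exact Finset.sum_congr rfl fun i _ => mul_comm _ _

lemma d1_apply (b : V → V) (x : V) (k : Fin 6) :
    d1 b x k = fderiv ℝ b x (e (fi k)) (se k) - fderiv ℝ b x (e (se k)) (fi k) := by
  simp only [d1, ofSkew_apply, pair_e']

lemma wedge_apply (ξ η : V) (k : Fin 6) :
    wedge ξ η k = ξ (fi k) * η (se k) - η (fi k) * ξ (se k) := by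
  simp only [wedge, ofSkew_apply, pair_e']

/-- The product rule for `d`. -/
lemma d1_smul {f : V → ℝ} {b : V → V} {x : V} (hf : DifferentiableAt ℝ f x)
    (hb : DifferentiableAt ℝ b x) :
    d1 (fun x => f x • b x) x = f x • d1 b x + wedge (grad f x) (b x) := by
  ext k
  have h : fderiv ℝ (fun x => f x • b x) x =
      f x • fderiv ℝ b x + (fderiv ℝ f x).smulRight (b x) :=
    (hf.hasFDerivAt.smul hb.hasFDerivAt).fderiv
  simp only [d1_apply, h, wedge_apply, grad, PiLp.add_apply, PiLp.smul_apply,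
    add_apply, smul_apply,
    ContinuousLinearMap.smulRight_apply, Pi.add_apply, Pi.smul_apply, smul_eq_mul]
  ring

lemma smooth_d1 {b : V → V} (hb : Smooth b) : Smooth (d1 b) := by
  refine ⟨contDiff_form.2 fun k => ?_, fun x n => by
    simp only [d1, periodic_fderiv hb.periodic x n]⟩
  simp only [d1_apply]
  have h : ∀ i j, ContDiff ℝ (⊤ : ℕ∞) fun x => fderiv ℝ b x (e i) j := fun i j =>
    contDiff_pi.1 ((hb.smooth.fderiv_right (by simp)).clm_apply contDiff_const) j
  exact (h _ _).sub (h _ _)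

lemma ev_d1 (b : V → V) (x u v : V) :
    ev (d1 b x) u v = pair (fderiv ℝ b x u) v - pair (fderiv ℝ b x v) u :=
  ev_ofSkew (fun u v => pair (fderiv ℝ b x u) v - pair (fderiv ℝ b x v) u) (fun u v => by ring)
    (fun u u' v => by simp only [map_add, pair_def, Pi.add_apply]; ring)
    (fun a u v => by simp only [map_smul, pair_def, Pi.smul_apply, smul_eq_mul]; ring) u v

lemma closed_d1 {b : V → V} (hb : Smooth b) : Closed (d1 b) := by
  intro x u v w
  have hD : DifferentiableAt ℝ (fderiv ℝ b) x :=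
    ((hb.smooth.fderiv_right (m := (1 : WithTop ℕ∞)) (WithTop.coe_le_coe.2 le_top)).differentiable
      one_ne_zero) x
  have hsym : IsSymmSndFDerivAt ℝ b x :=
    hb.smooth.contDiffAt.isSymmSndFDerivAt (by
      rw [minSmoothness_of_isRCLikeNormedField]; exact WithTop.coe_le_coe.2 le_top)
  have key : ∀ a p p', ev (fderiv ℝ (d1 b) x a) p p' =
      pair (fderiv ℝ (fderiv ℝ b) x a p) p' - pair (fderiv ℝ (fderiv ℝ b) x a p') p := by
    intro a p p'
    have h1 := fderiv_ev ((smooth_d1 hb).differentiableAt x) (differentiableAt_const p)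
      (differentiableAt_const p') a (x := x)
    simp only [fderiv_fun_const, Pi.zero_apply, zero_apply] at h1
    have e1 : ∀ (α : Form) (q : V), ev α 0 q = 0 := fun α q => by simp [ev_def]
    have e2 : ∀ (α : Form) (q : V), ev α q 0 = 0 := fun α q => by simp [ev_def]
    rw [e1, e2, add_zero, add_zero] at h1
    simp only [ev_d1] at h1
    rw [← h1]
    have hp : ∀ q q', HasFDerivAt (fun y => pair (fderiv ℝ b y q) q')
        (∑ i, q' i • (ContinuousLinearMap.proj (R := ℝ) (φ := fun _ : Fin 4 => ℝ) i).comp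
          ((ContinuousLinearMap.apply ℝ V q).comp (fderiv ℝ (fderiv ℝ b) x))) x := by
      intro q q'
      refine HasFDerivAt.fun_sum fun i _ => ?_
      exact ((ContinuousLinearMap.proj (R := ℝ) (φ := fun _ : Fin 4 => ℝ) i).comp
        (ContinuousLinearMap.apply ℝ V q)).hasFDerivAt.comp x hD.hasFDerivAt |>.mul_const _
    rw [((hp p p').fun_sub (hp p' p)).fderiv]
    simp [pair, mul_comm]
  rw [key, key, key, hsym u v, hsym u w, hsym v w]
  ring

end Vale.Agent.P204.Torus
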