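import Vale.Agent.P204.Torus.GSolve

/-!
P204 on the four-torus: the projection onto closed forms along anti-self-dual forms, and the
coefficients of closed forms.
-/

open MeasureTheory Filter Topology
open scoped BigOperators ComplexConjugate ENNReal

namespace Vale.Agent.P204.Torus

/-- The numerator of `piR`. -/
noncomputable def piNum (t : V) (a : Form) : Form :=
  WithLp.toLp 2 ![
    t 0 ^ 2 * (a 0 + a 3) + t 0 * ((a 1 + a 4) * t 3 - (a 2 + a 5) * t 2) +
      (t 1 * (a 0 + a 3) + t 2 * (a 1 + a 4) + t 3 * (a 2 + a 5)) * t 1,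
    t 0 ^ 2 * (a 1 + a 4) + t 0 * ((a 2 + a 5) * t 1 - (a 0 + a 3) * t 3) +
      (t 1 * (a 0 + a 3) + t 2 * (a 1 + a 4) + t 3 * (a 2 + a 5)) * t 2,
    t 0 ^ 2 * (a 2 + a 5) + t 0 * ((a 0 + a 3) * t 2 - (a 1 + a 4) * t 1) +
      (t 1 * (a 0 + a 3) + t 2 * (a 1 + a 4) + t 3 * (a 2 + a 5)) * t 3,
    -(t 0 * ((a 1 + a 4) * t 3 - (a 2 + a 5) * t 2)) + (t 1 ^ 2 + t 2 ^ 2 + t 3 ^ 2) * (a 0 + a 3) -
      (t 1 * (a 0 + a 3) + t 2 * (a 1 + a 4) + t 3 * (a 2 + a 5)) * t 1,
    -(t 0 * ((a 2 + a 5) * t 1 - (a 0 + a 3) * t 3)) + (t 1 ^ 2 + t 2 ^ 2 + t 3 ^ 2) * (a 1 + a 4) -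
      (t 1 * (a 0 + a 3) + t 2 * (a 1 + a 4) + t 3 * (a 2 + a 5)) * t 2,
    -(t 0 * ((a 0 + a 3) * t 2 - (a 1 + a 4) * t 1)) + (t 1 ^ 2 + t 2 ^ 2 + t 3 ^ 2) * (a 2 + a 5) -
      (t 1 * (a 0 + a 3) + t 2 * (a 1 + a 4) + t 3 * (a 2 + a 5)) * t 3]

lemma piNum_closed (t : V) (a : Form) (u v w : V) :
    pair t u * ev (piNum t a) v w + pair t v * ev (piNum t a) w u +
      pair t w * ev (piNum t a) u v = 0 := by
  simp only [piNum, ev_def, pair_def, Matrix.cons_val_zero, Matrix.cons_val_one, Matrix.cons_val]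
  ring

/-- The projection onto closed forms along anti-self-dual forms; at `0`, onto self-dual forms. -/
noncomputable def piR (t : V) (a : Form) : Form :=
  if t = 0 then (1 / 2 : ℝ) • WithLp.toLp 2 ![a 0 + a 3, a 1 + a 4, a 2 + a 5, a 0 + a 3, a 1 + a 4, a 2 + a 5]
  else (∑ i, t i ^ 2)⁻¹ • piNum t a

lemma sum_sq_pos {t : V} (ht : t ≠ 0) : 0 < ∑ i, t i ^ 2 := by
  obtain ⟨i, hi⟩ := Function.ne_iff.1 ht
  exact Finset.sum_pos' (fun j _ => sq_nonneg _) ⟨i, Finset.mem_univ i, lt_of_le_of_ne (sq_nonneg _)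
    (Ne.symm (pow_ne_zero 2 hi))⟩

lemma piR_closed (t : V) (a : Form) (u v w : V) :
    pair t u * ev (piR t a) v w + pair t v * ev (piR t a) w u + pair t w * ev (piR t a) u v = 0 := by
  rcases eq_or_ne t 0 with rfl | ht
  · simp [pair]
  · simp only [piR, if_neg ht, ev_smul]
    linear_combination (∑ i, t i ^ 2)⁻¹ * piNum_closed t a u v w

lemma piR_add (t : V) (a b : Form) : piR t (a + b) = piR t a + piR t b := by
  unfold piR piNum
  split_ifs <;>
  · ext k; fin_cases k <;> simp <;> ring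

lemma piR_smul (t : V) (r : ℝ) (a : Form) : piR t (r • a) = r • piR t a := by
  unfold piR piNum
  split_ifs <;>
  · ext k; fin_cases k <;> simp <;> ring

lemma piR_neg (t : V) (a : Form) : piR (-t) a = piR t a := by
  unfold piR piNum
  simp only [neg_eq_zero, Pi.neg_apply, neg_sq]
  split_ifs with h
  · rfl
  · congr 1
    ext k; fin_cases k <;> simp <;> ring

lemma piR_facts (t : V) (a : Form) :
    (piR t a 0 + piR t a 3 = a 0 + a 3 ∧ piR t a 1 + piR t a 4 = a 1 + a 4 ∧
      piR t a 2 + piR t a 5 = a 2 + a 5) ∧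
    0 ≤ piR t a 0 * piR t a 3 + piR t a 1 * piR t a 4 + piR t a 2 * piR t a 5 ∧
    q a a ≤ 2 * q a (piR t a) := by
  rcases eq_or_ne t 0 with rfl | ht
  · simp only [piR, ↓reduceIte, q, PiLp.smul_apply, smul_eq_mul, Matrix.cons_val_zero,
      Matrix.cons_val_one, Matrix.cons_val]
    refine ⟨⟨by ring, by ring, by ring⟩, ?_, ?_⟩ <;>
      nlinarith [sq_nonneg (a 0 + a 3), sq_nonneg (a 1 + a 4), sq_nonneg (a 2 + a 5),
        sq_nonneg (a 0 - a 3), sq_nonneg (a 1 - a 4), sq_nonneg (a 2 - a 5)]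
  have hn := sum_sq_pos ht
  rw [Fin.sum_univ_four] at hn
  have e : ∀ k, piR t a k = piNum t a k / (t 0 ^ 2 + t 1 ^ 2 + t 2 ^ 2 + t 3 ^ 2) := fun k => by
    simp [piR, ht, Fin.sum_univ_four, div_eq_inv_mul]
  have hdot : piR t a 0 * piR t a 3 + piR t a 1 * piR t a 4 + piR t a 2 * piR t a 5 = 0 := by
    simp only [e]
    field_simp
    simp only [piNum, Matrix.cons_val_zero, Matrix.cons_val_one, Matrix.cons_val]
    ring
  have hs : piR t a 0 + piR t a 3 = a 0 + a 3 ∧ piR t a 1 + piR t a 4 = a 1 + a 4 ∧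
      piR t a 2 + piR t a 5 = a 2 + a 5 := by
    refine ⟨?_, ?_, ?_⟩ <;>
    · simp only [e]
      field_simp
      simp only [piNum, Matrix.cons_val_zero, Matrix.cons_val_one, Matrix.cons_val]
      ring
  refine ⟨hs, hdot.ge, ?_⟩
  have e3 : piR t a 3 = a 0 + a 3 - piR t a 0 := by linarith [hs.1]
  have e4 : piR t a 4 = a 1 + a 4 - piR t a 1 := by linarith [hs.2.1]
  have e5 : piR t a 5 = a 2 + a 5 - piR t a 2 := by linarith [hs.2.2]
  simp only [q, e3, e4, e5] at hdot ⊢
  nlinarith [sq_nonneg (2 * piR t a 0 - 2 * a 0), sq_nonneg (2 * piR t a 1 - 2 * a 1),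
    sq_nonneg (2 * piR t a 2 - 2 * a 2)]

lemma norm_piR_le (t : V) (a : Form) : ‖piR t a‖ ≤ 2 * ‖a‖ := by
  obtain ⟨⟨h0, h1, h2⟩, h, -⟩ := piR_facts t a
  refine (abs_le_of_sq_le_sq' ?_ (by positivity)).2
  rw [mul_pow, norm_sq_Form, norm_sq_Form, Fin.sum_univ_six, Fin.sum_univ_six]
  have e0 := congrArg (· ^ 2) h0
  have e1 := congrArg (· ^ 2) h1
  have e2 := congrArg (· ^ 2) h2
  simp only at e0 e1 e2
  nlinarith [sq_nonneg (a 0 - a 3), sq_nonneg (a 1 - a 4), sq_nonneg (a 2 - a 5),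
    sq_nonneg (a 0 + a 3), sq_nonneg (a 1 + a 4), sq_nonneg (a 2 + a 5)]

/-- The imaginary part of a complex two-form. -/
noncomputable def imF (a : CForm) : Form := WithLp.toLp 2 fun k => (a k).im

lemma reF_add_imF (a : CForm) : a = cplx (reF a) + Complex.I • cplx (imF a) := by
  ext k
  simp [cplx_apply, reF_apply, imF, mul_comm Complex.I]

lemma norm_sq_reim (a : CForm) : ‖a‖ ^ 2 = ‖reF a‖ ^ 2 + ‖imF a‖ ^ 2 := by
  simp [norm_sq_CForm, norm_sq_Form, reF_apply, imF, Complex.sq_norm, Complex.normSq_apply, ← sq,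
    Finset.sum_add_distrib]

lemma re_qC_cconj (a b : CForm) : (qC a (cconj b)).re = q (reF a) (reF b) + q (imF a) (imF b) := by
  simp [qC, q, cconj_apply, reF_apply, imF]
  ring

/-- The complexified projection. -/
noncomputable def piC (ξ : Freq) (a : CForm) : CForm :=
  cplx (piR (intVec ξ) (reF a)) + Complex.I • cplx (piR (intVec ξ) (imF a))

lemma reF_piC (ξ : Freq) (a : CForm) : reF (piC ξ a) = piR (intVec ξ) (reF a) := by
  ext k; simp [piC, reF_apply, cplx_apply]

lemma imF_piC (ξ : Freq) (a : CForm) : imF (piC ξ a) = piR (intVec ξ) (imF a) := by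
  ext k; simp [piC, imF, cplx_apply]

lemma norm_piC_le (ξ : Freq) (a : CForm) : ‖piC ξ a‖ ≤ 2 * ‖a‖ := by
  refine (abs_le_of_sq_le_sq' ?_ (by positivity)).2
  rw [norm_sq_reim, mul_pow, norm_sq_reim a, reF_piC, imF_piC]
  have h1 := pow_le_pow_left₀ (norm_nonneg _) (norm_piR_le (intVec ξ) (reF a)) 2
  have h2 := pow_le_pow_left₀ (norm_nonneg _) (norm_piR_le (intVec ξ) (imF a)) 2
  rw [mul_pow] at h1 h2
  linarith

lemma piC_add (ξ : Freq) (a b : CForm) : piC ξ (a + b) = piC ξ a + piC ξ b := by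
  have h1 : reF (a + b) = reF a + reF b := reL.map_add a b
  have h2 : imF (a + b) = imF a + imF b := by ext k; simp [imF]
  ext k
  simp only [piC, h1, h2, piR_add, cplx_apply, PiLp.add_apply, PiLp.smul_apply, smul_eq_mul,
    Complex.ofReal_add]
  ring

lemma piC_smul (ξ : Freq) (r : ℝ) (a : CForm) : piC ξ ((r : ℂ) • a) = (r : ℂ) • piC ξ a := by
  have h1 : reF ((r : ℂ) • a) = r • reF a := by ext k; simp [reF_apply]
  have h2 : imF ((r : ℂ) • a) = r • imF a := by ext k; simp [imF]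
  ext k
  simp only [piC, h1, h2, piR_smul, cplx_apply, PiLp.add_apply, PiLp.smul_apply, smul_eq_mul,
    Complex.ofReal_mul]
  ring

lemma intVec_neg (ξ : Freq) : intVec (-ξ) = -intVec ξ := by funext i; simp [intVec]

lemma piC_herm {c : Freq → CForm} (hc : Herm c) : Herm fun ξ => piC ξ (c ξ) := fun ξ => by
  have h1 : reF (cconj (c ξ)) = reF (c ξ) := by ext k; simp [reF_apply, cconj_apply]
  have h2 : imF (cconj (c ξ)) = (-1 : ℝ) • imF (c ξ) := by ext k; simp [imF, cconj_apply]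
  simp only [piC, hc ξ, h1, h2, intVec_neg, piR_neg, piR_smul]
  ext k
  simp [cplx_apply, cconj_apply]

/-- The projection acting on coefficients. -/
noncomputable def Pic (c : Freq → CForm) : Freq → CForm := fun ξ => piC ξ (c ξ)

lemma Pic_good {c : Freq → CForm} (hc : Good c) : Good (Pic c) :=
  ⟨piC_herm hc.1, (hc.2.mul_left 4).of_nonneg_of_le (fun _ => sq_nonneg _) fun ξ => by
    refine (pow_le_pow_left₀ (norm_nonneg _) (norm_piC_le ξ (c ξ)) 2).trans_eq ?_
    ring⟩

lemma SQ_Pic_le {c : Freq → CForm} (hc : Summable fun ξ => ‖c ξ‖ ^ 2) :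
    (Summable fun ξ => ‖Pic c ξ‖ ^ 2) ∧ SQ (Pic c) ≤ 4 * SQ c := by
  have h : ∀ ξ, ‖Pic c ξ‖ ^ 2 ≤ 4 * ‖c ξ‖ ^ 2 := fun ξ =>
    (pow_le_pow_left₀ (norm_nonneg _) (norm_piC_le ξ (c ξ)) 2).trans_eq (by ring)
  have hs := (hc.mul_left 4).of_nonneg_of_le (fun _ => sq_nonneg _) h
  exact ⟨hs, (hs.tsum_le_tsum h (hc.mul_left 4)).trans_eq tsum_mul_left⟩

lemma PQ_self_le_Pic {c : Freq → CForm} (hc : Good c) : PQ c c ≤ 2 * PQ c (Pic c) := by
  rw [PQ, PQ, ← tsum_mul_left]
  refine (summable_PQ hc.2 hc.2).tsum_le_tsum (fun ξ => ?_)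
    ((summable_PQ hc.2 (Pic_good hc).2).mul_left 2)
  rw [re_qC_cconj, re_qC_cconj, Pic, reF_piC, imF_piC]
  linarith [(piR_facts (intVec ξ) (reF (c ξ))).2.2, (piR_facts (intVec ξ) (imF (c ξ))).2.2]

lemma Rapid.Pic {c : Freq → CForm} (hc : Rapid c) : Rapid (Torus.Pic c) := fun j =>
  ((hc j).mul_left 2).of_nonneg_of_le (fun ξ => by have := wt_pos ξ; positivity) fun ξ => by
    have := mul_le_mul_of_nonneg_left (norm_piC_le ξ (c ξ)) (pow_nonneg (wt_pos ξ).le j)
    simpa [Torus.Pic, mul_left_comm] using this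

/-! ### Coefficients of closed forms -/

/-- The complexification of `ev`. -/
noncomputable def evC (a : CForm) (v w : V) : ℂ :=
  ((ev (reF a) v w : ℝ) : ℂ) + Complex.I * ((ev (imF a) v w : ℝ) : ℂ)

lemma phase_eq_pair (ξ : Freq) (u : V) : phase ξ u = 2 * Real.pi * pair (intVec ξ) u := by
  rw [phase_apply]; rfl

lemma coef_fderiv {f : V → Form} (hf : Smooth f) (u : V) (ξ : Freq) :
    coef (fun x => fderiv ℝ f x u) ξ = (Complex.I * (phase ξ u : ℂ)) • coef f ξ := by
  ext k
  simp only [coef_apply, PiLp.smul_apply, smul_eq_mul]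
  rw [← coefS_fderiv ((hf.coord k).smooth.of_le (by norm_cast)) (hf.coord k).periodic]
  refine congrArg (fun g => coefS g ξ) (funext fun x => ?_)
  have hd : HasFDerivAt (fun y => (f y k : ℂ))
      ((Complex.ofRealCLM.comp (EuclideanSpace.proj k)).comp (fderiv ℝ f x)) x :=
    (Complex.ofRealCLM.comp (EuclideanSpace.proj k)).hasFDerivAt.comp x
      (hf.smooth.differentiable (by simp)).differentiableAt.hasFDerivAt
  rw [hd.fderiv]
  rfl

lemma smooth_ev {f : V → Form} (hf : Smooth f) (v w : V) :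
    Smooth fun x => (ev (f x) v w : ℂ) := by
  let L : Form →L[ℝ] ℂ := Complex.ofRealCLM.comp (LinearMap.toContinuousLinearMap
    { toFun := fun a => ev a v w
      map_add' := fun a b => ev_add a b v w
      map_smul' := fun r a => ev_smul r a v w })
  exact ⟨L.contDiff.comp hf.smooth, fun x n => by simp [hf.periodic x n]⟩

lemma coefS_ev {f : V → Form} (hf : Smooth f) (v w : V) (ξ : Freq) :
    coefS (fun x => (ev (f x) v w : ℂ)) ξ = evC (coef f ξ) v w := by
  have h : ∀ a : CForm, evC a v w =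
      ∑ k, a k * ((v (fi k) * w (se k) - w (fi k) * v (se k) : ℝ) : ℂ) := fun a => by
    simp only [evC, ev, reF_apply, imF, Complex.ofReal_sum, Finset.mul_sum, ← Finset.sum_add_distrib]
    refine Finset.sum_congr rfl fun k _ => ?_
    apply Complex.ext <;> simp
  have hx : ∀ x, (ev (f x) v w : ℂ) =
      ∑ k, ((v (fi k) * w (se k) - w (fi k) * v (se k) : ℝ) : ℂ) * (f x k : ℂ) := fun x => by
    simp [ev, mul_comm]
  rw [h]
  simp only [coefS, hx, Finset.mul_sum]
  rw [integral_finsetSum _ fun k _ => integrable_chr_mul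
    ((integrableOn_cube (hf.coord k).smooth.continuous).const_mul _) (-ξ)]
  refine Finset.sum_congr rfl fun k _ => ?_
  rw [coef_apply, coefS, ← integral_mul_const]
  exact integral_congr_ae (Eventually.of_forall fun x => by simp only; ring)

/-- The condition `ξ ∧ a = 0`. -/
def WedgeZero (ξ : Freq) (a : CForm) : Prop :=
  ∀ u v w, (pair (intVec ξ) u : ℂ) * evC a v w + (pair (intVec ξ) v : ℂ) * evC a w u +
    (pair (intVec ξ) w : ℂ) * evC a u v = 0

lemma WedgeZero.smul {ξ : Freq} {a : CForm} (h : WedgeZero ξ a) (r : ℝ) :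
    WedgeZero ξ ((r : ℂ) • a) := by
  intro u v w
  have e : ∀ v w, evC ((r : ℂ) • a) v w = (r : ℂ) * evC a v w := fun v w => by
    have h1 : reF ((r : ℂ) • a) = r • reF a := by ext k; simp [reF_apply]
    have h2 : imF ((r : ℂ) • a) = r • imF a := by ext k; simp [imF]
    simp only [evC, h1, h2, ev_smul, Complex.ofReal_mul]
    ring
  simp only [e]
  linear_combination (r : ℂ) * h u v w

theorem closed_iff {f : V → Form} (hf : Smooth f) :
    Closed f ↔ ∀ ξ, WedgeZero ξ (coef f ξ) := by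
  let E : V → V → V → V → ℂ := fun u v w x => (ev (fderiv ℝ f x u) v w : ℂ) +
    (ev (fderiv ℝ f x v) w u : ℂ) + (ev (fderiv ℝ f x w) u v : ℂ)
  have hs : ∀ u v w : V, Smooth fun x => (ev (fderiv ℝ f x u) v w : ℂ) := fun u v w =>
    smooth_ev (hf.fderiv_apply u) v w
  have hE : ∀ u v w, Smooth (E u v w) := fun u v w =>
    ⟨((hs u v w).smooth.add (hs v w u).smooth).add (hs w u v).smooth, fun x n => by
      simp only [E]
      exact congrArg₂ (· + ·) (congrArg₂ (· + ·) ((hs u v w).periodic x n) ((hs v w u).periodic x n))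
        ((hs w u v).periodic x n)⟩
  have hi : ∀ u v w : V, Integrable (fun x => (ev (fderiv ℝ f x u) v w : ℂ)) (volume.restrict cube) :=
    fun u v w => integrableOn_cube (hs u v w).smooth.continuous
  have hcoef : ∀ u v w ξ, coefS (E u v w) ξ = (Complex.I * (2 * Real.pi : ℝ)) *
      ((pair (intVec ξ) u : ℂ) * evC (coef f ξ) v w + (pair (intVec ξ) v : ℂ) * evC (coef f ξ) w u +
        (pair (intVec ξ) w : ℂ) * evC (coef f ξ) u v) := fun u v w ξ => by
    have e : ∀ u v w : V, coefS (fun x => (ev (fderiv ℝ f x u) v w : ℂ)) ξ =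
        Complex.I * (2 * Real.pi : ℝ) * ((pair (intVec ξ) u : ℂ) * evC (coef f ξ) v w) :=
      fun u v w => by
        rw [coefS_ev (hf.fderiv_apply u) v w, coef_fderiv hf, phase_eq_pair]
        set a := coef f ξ
        have h1 : reF ((Complex.I * ((2 * Real.pi * pair (intVec ξ) u : ℝ) : ℂ)) • a) =
            (-(2 * Real.pi * pair (intVec ξ) u)) • imF a := by
          ext k; simp [reF_apply, imF]
        have h2 : imF ((Complex.I * ((2 * Real.pi * pair (intVec ξ) u : ℝ) : ℂ)) • a) =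
            (2 * Real.pi * pair (intVec ξ) u) • reF a := by
          ext k; simp [reF_apply, imF]
        simp only [evC, h1, h2, ev_smul]
        push_cast
        ring_nf
        rw [Complex.I_sq]
        ring
    simp only [E]
    rw [coefS_add ((hi u v w).fun_add (hi v w u)) (hi w u v), coefS_add (hi u v w) (hi v w u),
      e, e, e]
    ring
  constructor
  · intro h ξ u v w
    have hz : E u v w = fun _ => 0 := funext fun x => by
      simp only [E, ← Complex.ofReal_add, h x u v w, Complex.ofReal_zero]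
    have := hcoef u v w ξ
    rw [hz] at this
    simpa [coefS, Real.pi_ne_zero] using this.symm
  · intro h x u v w
    have hz : coefS (E u v w) = fun _ => 0 := funext fun ξ => by rw [hcoef, h ξ u v w, mul_zero]
    have := (hasSum_series (hE u v w).smooth.continuous (hE u v w).periodic
      (by rw [hz]; exact summable_zero) x).unique (by simp only [hz, mul_zero]; exact hasSum_zero)
    simpa [E, ← Complex.ofReal_add] using this

lemma wedgeZero_piC (ξ : Freq) (a : CForm) : WedgeZero ξ (piC ξ a) := by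
  intro u v w
  simp only [evC, reF_piC, imF_piC]
  have h1 := congrArg (fun r : ℝ => (r : ℂ)) (piR_closed (intVec ξ) (reF a) u v w)
  have h2 := congrArg (fun r : ℝ => (r : ℂ)) (piR_closed (intVec ξ) (imF a) u v w)
  push_cast at h1 h2
  linear_combination h1 + Complex.I * h2

theorem closed_synth_Pic {c : Freq → CForm} (hc : Rapid c) (hh : Herm c) :
    Closed (synth (Pic c)) := by
  refine (closed_iff (smooth_synth hc.Pic)).2 fun ξ => ?_
  rw [coef_synth hc.Pic.summable (piC_herm hh)]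
  exact wedgeZero_piC ξ _

end Vale.Agent.P204.Torus
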