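import Vale.Agent.P204.Torus.Alg
import Vale.Agent.P204.Torus.Integrals

/-!
P204 on the four-torus: uniform versions of the pointwise algebra.
-/

namespace Vale.Agent.P204.Torus

open scoped BigOperators

/-! ## The periodic distance -/

lemma abs_sin_le_dist0 (u : V) (i : Fin 4) :
    |Real.sin (Real.pi * u i)| / Real.pi ≤ dist0 u := by
  refine (div_le_div_iff_of_pos_right Real.pi_pos).2 ?_
  rw [← Real.sqrt_sq_eq_abs]
  exact Real.sqrt_le_sqrt (Finset.single_le_sum (f := fun j => Real.sin (Real.pi * u j) ^ 2)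
    (fun j _ => sq_nonneg _) (Finset.mem_univ i))

lemma dist0_le_sum (u : V) : dist0 u ≤ ∑ i, |Real.sin (Real.pi * u i)| / Real.pi := by
  rw [← Finset.sum_div]
  refine (div_le_div_iff_of_pos_right Real.pi_pos).2 ?_
  rw [Real.sqrt_le_left (Finset.sum_nonneg fun i _ => abs_nonneg _)]
  simp only [Fin.sum_univ_four]
  have h := fun i => sq_abs (Real.sin (Real.pi * u i))
  have n := fun i => abs_nonneg (Real.sin (Real.pi * u i))
  nlinarith [h 0, h 1, h 2, h 3, mul_nonneg (n 0) (n 1), mul_nonneg (n 0) (n 2),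
    mul_nonneg (n 0) (n 3), mul_nonneg (n 1) (n 2), mul_nonneg (n 1) (n 3), mul_nonneg (n 2) (n 3)]

/-- Triangle inequality up to a constant. -/
lemma exists_dist0_triangle :
    ∃ C, 0 < C ∧ ∀ a b : V, dist0 (a + b) ≤ C * (dist0 a + dist0 b) := by
  refine ⟨4, by norm_num, fun a b => (dist0_le_sum _).trans ?_⟩
  have h : ∀ i, |Real.sin (Real.pi * (a + b) i)| / Real.pi ≤ dist0 a + dist0 b := by
    intro i
    refine le_trans ?_ (add_le_add (abs_sin_le_dist0 a i) (abs_sin_le_dist0 b i))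
    rw [← add_div]
    refine (div_le_div_iff_of_pos_right Real.pi_pos).2 ?_
    rw [Pi.add_apply, mul_add, Real.sin_add]
    refine (abs_add_le _ _).trans (add_le_add ?_ ?_) <;> rw [abs_mul]
    · exact mul_le_of_le_one_right (abs_nonneg _) (Real.abs_cos_le_one _)
    · exact mul_le_of_le_one_left (abs_nonneg _) (Real.abs_cos_le_one _)
  refine (Finset.sum_le_sum fun i _ => h i).trans ?_
  simp [mul_add]

/-- The nearest lattice point. -/
lemma exists_near (u : V) : ∃ n, ‖u - intVec n‖ ≤ 2 * dist0 u := by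
  refine ⟨fun i => round (u i), (pi_norm_le_iff_of_nonneg
    (mul_nonneg (by norm_num) (dist0_nonneg u))).2 fun i => ?_⟩
  set t := u i - (round (u i) : ℝ) with ht
  have h0 : |t| ≤ 1 / 2 := abs_sub_round _
  have h1 : 2 / Real.pi * |Real.pi * t| ≤ |Real.sin (Real.pi * t)| :=
    Real.mul_abs_le_abs_sin (by
      rw [abs_mul, abs_of_pos Real.pi_pos]; nlinarith [Real.pi_pos])
  have h2 : |Real.sin (Real.pi * t)| = |Real.sin (Real.pi * u i)| := by
    rw [ht, mul_sub, mul_comm Real.pi ((round (u i) : ℝ)), Real.sin_sub_int_mul_pi, abs_mul,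
      abs_zpow, abs_neg, abs_one, one_zpow, one_mul]
  have h3 := abs_sin_le_dist0 u i
  rw [abs_mul, abs_of_pos Real.pi_pos, h2] at h1
  rw [div_le_iff₀ Real.pi_pos] at h3
  have h4 : 2 * |t| ≤ dist0 u * Real.pi := by
    calc 2 * |t| = 2 / Real.pi * (Real.pi * |t|) := by field_simp
      _ ≤ _ := h1
      _ ≤ _ := h3
  change ‖t‖ ≤ _
  rw [Real.norm_eq_abs]
  nlinarith [dist0_nonneg u, Real.pi_le_four]

/-! ## Periodic functions -/

/-- The closed fundamental cube. -/
def box : Set V := Set.Icc 0 1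

lemma exists_reduce (x : V) : ∃ n, ∃ y ∈ box, x = y + intVec n := by
  refine ⟨fun i => ⌊x i⌋, fun i => Int.fract (x i),
    ⟨fun i => Int.fract_nonneg _, fun i => (Int.fract_lt_one _).le⟩, ?_⟩
  funext i
  simp only [intVec, Pi.add_apply]
  exact (Int.fract_add_floor (x i)).symm

lemma exists_bound {F : Type*} [NormedAddCommGroup F] {f : V → F} (hf : Continuous f)
    (hp : Periodic f) : ∃ C, 0 < C ∧ ∀ x, ‖f x‖ ≤ C := by
  obtain ⟨C, hC⟩ := isCompact_Icc.exists_bound_of_continuousOn (s := box) hf.continuousOn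
  refine ⟨max C 1, by positivity, fun x => ?_⟩
  obtain ⟨n, y, hy, rfl⟩ := exists_reduce x
  rw [hp]
  exact (hC y hy).trans (le_max_left _ _)

lemma exists_lipschitz {F : Type*} [NormedAddCommGroup F] [NormedSpace ℝ F] {f : V → F}
    (hf : Smooth f) : ∃ C, 0 < C ∧ ∀ x y, ‖f x - f y‖ ≤ C * dist0 (x - y) := by
  have hd : Differentiable ℝ f := hf.smooth.differentiable (by simp)
  have hper : Periodic (fderiv ℝ f) := fun x n => by
    rw [← fderiv_comp_add_right]
    congr 1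
    funext z
    exact hf.periodic z n
  obtain ⟨C, hC0, hC⟩ := exists_bound (hf.smooth.continuous_fderiv (by simp)) hper
  refine ⟨2 * C, by positivity, fun x y => ?_⟩
  obtain ⟨n, hn⟩ := exists_near (x - y)
  have h1 : f x = f (x - intVec n) := by
    conv_lhs => rw [← sub_add_cancel x (intVec n)]
    rw [hf.periodic]
  rw [h1]
  refine (convex_univ.norm_image_sub_le_of_norm_fderiv_le (fun z _ => hd z) (fun z _ => hC z)
    (Set.mem_univ y) (Set.mem_univ _)).trans ?_
  calc C * ‖x - intVec n - y‖ = C * ‖x - y - intVec n‖ := by rw [sub_right_comm]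
    _ ≤ C * (2 * dist0 (x - y)) := mul_le_mul_of_nonneg_left hn hC0.le
    _ = _ := by ring

/-- A positive homogeneous periodic function on a periodic closed cone is bounded below. -/
lemma exists_lower {W : Type*} [NormedAddCommGroup W] [NormedSpace ℝ W] [FiniteDimensional ℝ W]
    (K : V → W → Prop) (f : V → W → ℝ) (k : ℕ)
    (hK : IsClosed {p : V × W | K p.1 p.2}) (hf : Continuous fun p : V × W => f p.1 p.2)
    (hKp : ∀ x n w, K (x + intVec n) w ↔ K x w) (hfp : ∀ x n w, f (x + intVec n) w = f x w)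
    (hhom : ∀ x w (s : ℝ), 0 < s → K x w → K x (s • w) ∧ f x (s • w) = s ^ k * f x w)
    (h0 : ∀ x, f x 0 = 0) (hk : k ≠ 0)
    (hpos : ∀ x w, K x w → w ≠ 0 → 0 < f x w) :
    ∃ c, 0 < c ∧ ∀ x w, K x w → c * ‖w‖ ^ k ≤ f x w := by
  have hcomp : IsCompact ((box ×ˢ Metric.sphere (0 : W) 1) ∩ {p : V × W | K p.1 p.2}) :=
    (isCompact_Icc.prod (isCompact_sphere _ _)).inter_right hK
  obtain ⟨c, hc, hcle⟩ := hcomp.exists_forall_le'
    (f := fun p : V × W => f p.1 p.2) hf.continuousOn (a := 0) fun p hp =>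
      hpos p.1 p.2 hp.2 (norm_ne_zero_iff.1 (by
        have := hp.1.2; rw [mem_sphere_zero_iff_norm] at this; simp [this]))
  refine ⟨c, hc, fun x w hw => ?_⟩
  rcases eq_or_ne w 0 with rfl | hne
  · rw [h0]; simp [zero_pow hk]
  obtain ⟨n, y, hy, rfl⟩ := exists_reduce x
  rw [hKp] at hw
  rw [hfp]
  have hn : 0 < ‖w‖ := norm_pos_iff.2 hne
  obtain ⟨h1, h2⟩ := hhom y w ‖w‖⁻¹ (inv_pos.2 hn) hw
  have := hcle (y, ‖w‖⁻¹ • w) ⟨⟨hy, by
    rw [mem_sphere_zero_iff_norm]; simp [norm_smul, hn.ne']⟩, h1⟩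
  simp only [h2, inv_pow] at this
  rwa [inv_mul_eq_div, le_div_iff₀ (pow_pos hn k)] at this

lemma norm_le_sum (α : Form) : ‖α‖ ≤ ∑ k, |α k| := by
  rw [EuclideanSpace.norm_eq, Real.sqrt_le_left (Finset.sum_nonneg fun i _ => abs_nonneg _)]
  simp only [Real.norm_eq_abs]
  exact Finset.sum_sq_le_sq_sum_of_nonneg fun i _ => abs_nonneg _

lemma abs_coord_le' (u : V) (i : Fin 4) : |u i| ≤ ‖u‖ := by
  simpa [Real.norm_eq_abs] using norm_le_pi_norm u i

lemma abs_pair_le (ξ u : V) : |pair ξ u| ≤ 4 * (‖ξ‖ * ‖u‖) := by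
  refine (Finset.abs_sum_le_sum_abs _ _).trans ((Finset.sum_le_sum fun i _ => ?_).trans
    (le_of_eq (by simp : (∑ _i : Fin 4, ‖ξ‖ * ‖u‖) = 4 * (‖ξ‖ * ‖u‖))))
  rw [abs_mul]
  exact mul_le_mul (abs_coord_le' _ _) (abs_coord_le' _ _) (abs_nonneg _) (norm_nonneg _)

lemma abs_ev_le (α : Form) (u v : V) : |ev α u v| ≤ 12 * (‖α‖ * (‖u‖ * ‖v‖)) := by
  have h : ∀ k, |α k * (u (fi k) * v (se k) - v (fi k) * u (se k))| ≤
      2 * (‖α‖ * (‖u‖ * ‖v‖)) := by
    intro k
    rw [abs_mul]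
    refine (mul_le_mul (abs_coord_le α k) (abs_sub _ _) (abs_nonneg _) (norm_nonneg _)).trans ?_
    rw [abs_mul, abs_mul]
    have h1 : |u (fi k)| * |v (se k)| ≤ ‖u‖ * ‖v‖ :=
      mul_le_mul (abs_coord_le' _ _) (abs_coord_le' _ _) (abs_nonneg _) (norm_nonneg _)
    have h2 : |v (fi k)| * |u (se k)| ≤ ‖u‖ * ‖v‖ := by
      rw [mul_comm ‖u‖]
      exact mul_le_mul (abs_coord_le' _ _) (abs_coord_le' _ _) (abs_nonneg _) (norm_nonneg _)
    nlinarith [norm_nonneg α]
  refine (Finset.abs_sum_le_sum_abs _ _).trans ((Finset.sum_le_sum fun k _ => h k).trans ?_)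
  simp
  linarith

lemma norm_wedge_le (ξ η : V) : ‖wedge ξ η‖ ≤ 12 * (‖ξ‖ * ‖η‖) := by
  have h : ∀ k, |wedge ξ η k| ≤ 2 * (‖ξ‖ * ‖η‖) := by
    intro k
    simp only [wedge, ofSkew_apply, pair_e']
    refine (abs_sub _ _).trans ?_
    rw [abs_mul, abs_mul, two_mul]
    refine add_le_add (mul_le_mul (abs_coord_le' _ _) (abs_coord_le' _ _) (abs_nonneg _)
      (norm_nonneg _)) ?_
    rw [mul_comm ‖ξ‖]
    exact mul_le_mul (abs_coord_le' _ _) (abs_coord_le' _ _) (abs_nonneg _) (norm_nonneg _)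
  refine (norm_le_sum _).trans ((Finset.sum_le_sum fun k _ => h k).trans ?_)
  simp
  linarith

lemma contDiff_form {f : V → Form} :
    ContDiff ℝ (⊤ : ℕ∞) f ↔ ∀ k, ContDiff ℝ (⊤ : ℕ∞) fun x => f x k :=
  contDiff_piLp 2

lemma contDiff_ev {f : V → Form} {a b : V → V} (hf : ContDiff ℝ (⊤ : ℕ∞) f)
    (ha : ContDiff ℝ (⊤ : ℕ∞) a) (hb : ContDiff ℝ (⊤ : ℕ∞) b) :
    ContDiff ℝ (⊤ : ℕ∞) fun x => ev (f x) (a x) (b x) := by
  have h1 := contDiff_form.1 hf
  have h2 := contDiff_pi.1 ha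
  have h3 := contDiff_pi.1 hb
  exact ContDiff.sum fun k _ => (h1 k).mul (((h2 _).mul (h3 _)).sub ((h3 _).mul (h2 _)))

namespace Setup

variable (S : Setup)

lemma contDiff_J_apply (u : V) : ContDiff ℝ (⊤ : ℕ∞) fun x => S.J x u :=
  S.J_smooth.smooth.clm_apply contDiff_const

lemma smooth_pull {f : V → Form} (hf : Smooth f) : Smooth fun x => pull (S.J x) (f x) :=
  ⟨contDiff_form.2 fun _ => contDiff_ev hf.smooth (S.contDiff_J_apply _) (S.contDiff_J_apply _),
    fun x n => by simp only [S.J_smooth.periodic x n, hf.periodic x n]⟩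

lemma smooth_piP {f : V → Form} (hf : Smooth f) : Smooth fun x => piP (S.J x) (f x) :=
  ⟨(hf.smooth.add (S.smooth_pull hf).smooth).const_smul (1 / 2 : ℝ),
    fun x n => by simp only [piP, S.J_smooth.periodic x n, hf.periodic x n]⟩

lemma smooth_piM {f : V → Form} (hf : Smooth f) : Smooth fun x => piM (S.J x) (f x) :=
  ⟨(hf.smooth.sub (S.smooth_pull hf).smooth).const_smul (1 / 2 : ℝ),
    fun x n => by simp only [piM, S.J_smooth.periodic x n, hf.periodic x n]⟩

lemma smooth_Om : Smooth S.Om := S.smooth_piP S.om_smooth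

lemma continuous_J_apply₂ : Continuous fun p : V × V => S.J p.1 p.2 :=
  (S.J_smooth.smooth.continuous.comp continuous_fst).clm_apply continuous_snd

lemma continuous_g : Continuous fun p : V × V => S.g p.1 p.2 p.2 := by
  have h1 : ∀ k, Continuous fun p : V × V => S.Om p.1 k := fun k =>
    ((contDiff_form.1 S.smooth_Om.smooth k).continuous).comp continuous_fst
  have h2 : ∀ i, Continuous fun p : V × V => S.J p.1 p.2 i := fun i =>
    (continuous_apply i).comp S.continuous_J_apply₂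
  have h3 : ∀ i, Continuous fun p : V × V => p.2 i := fun i =>
    (continuous_apply i).comp continuous_snd
  simp only [g, ev]
  exact continuous_finsetSum _ fun k _ =>
    (h1 k).mul (((h3 _).mul (h2 _)).sub ((h2 _).mul (h3 _)))

lemma Om_bounds : ∃ c C, 0 < c ∧ 0 < C ∧ ∀ x u,
    c * ‖u‖ ^ 2 ≤ S.g x u u ∧ S.g x u u ≤ C * ‖u‖ ^ 2 ∧ c ≤ S.kap x ∧ S.kap x ≤ C := by
  obtain ⟨c, hc, hcle⟩ := exists_lower (fun _ _ => True) (fun x u => S.g x u u) 2
    (by simp) S.continuous_g (fun _ _ _ => Iff.rfl)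
    (fun x n u => by simp only [g, Om, S.J_smooth.periodic x n, S.om_smooth.periodic x n])
    (fun x u s _ _ => ⟨trivial, by rw [S.g_smul_left, S.g_symm, S.g_smul_left]; ring⟩)
    (fun x => by simp [g, ev_def]) two_ne_zero (fun x u _ hu => S.g_pos x hu)
  have hk : Continuous S.kap := by
    have h := fun k => (contDiff_form.1 S.smooth_Om.smooth k).continuous
    unfold kap q
    exact (((((( h 0).mul (h 3)).add ((h 1).mul (h 4))).add ((h 2).mul (h 5))).add
      ((h 3).mul (h 0))).add ((h 4).mul (h 1))).add ((h 5).mul (h 2)) |>.div_const 2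
  have hkp : ∀ x n, S.kap (x + intVec n) = S.kap x := fun x n => by
    simp only [kap, S.smooth_Om.periodic x n]
  obtain ⟨c', hc', hc'le⟩ := exists_lower (W := ℝ) (fun _ t => 0 ≤ t) (fun x t => S.kap x * t) 1
    (isClosed_le continuous_const continuous_snd) ((hk.comp continuous_fst).mul continuous_snd)
    (fun _ _ _ => Iff.rfl) (fun x n t => by simp only [hkp])
    (fun x t s hs ht => ⟨mul_nonneg hs.le ht, by simp only [smul_eq_mul]; ring⟩)
    (fun x => mul_zero _) one_ne_zero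
    (fun x t ht h0 => mul_pos (S.kap_pos x) (lt_of_le_of_ne ht (Ne.symm h0)))
  obtain ⟨C, hC0, hC⟩ := exists_bound hk hkp
  obtain ⟨M, hM0, hM⟩ := exists_bound S.smooth_Om.smooth.continuous S.smooth_Om.periodic
  obtain ⟨M', hM'0, hM'⟩ := exists_bound S.J_smooth.smooth.continuous S.J_smooth.periodic
  refine ⟨min c c', max C (12 * (M * M')), lt_min hc hc', by positivity, fun x u => ⟨?_, ?_, ?_, ?_⟩⟩
  · exact (mul_le_mul_of_nonneg_right (min_le_left _ _) (sq_nonneg _)).trans (hcle x u trivial)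
  · refine ((le_abs_self _).trans (abs_ev_le _ _ _)).trans ?_
    have h1 : ‖S.J x u‖ ≤ M' * ‖u‖ :=
      ((S.J x).le_opNorm u).trans (mul_le_mul_of_nonneg_right (hM' x) (norm_nonneg _))
    calc 12 * (‖S.Om x‖ * (‖u‖ * ‖S.J x u‖)) ≤ 12 * (M * (‖u‖ * (M' * ‖u‖))) := by
          gcongr
          exact hM x
      _ = 12 * (M * M') * ‖u‖ ^ 2 := by ring
      _ ≤ _ := mul_le_mul_of_nonneg_right (le_max_right _ _) (sq_nonneg _)
  · refine (min_le_right _ _).trans ?_
    have := hc'le x 1 zero_le_one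
    simpa using this
  · exact ((le_abs_self _).trans (hC x)).trans (le_max_left _ _)

lemma continuous_q {X : Type*} [TopologicalSpace X] {a b : X → Form} (ha : Continuous a)
    (hb : Continuous b) : Continuous fun t => q (a t) (b t) := by
  unfold q
  fun_prop

lemma continuous_piP₂ : Continuous fun p : V × Form => piP (S.J p.1) p.2 := by
  have hJ : ∀ i, Continuous fun p : V × Form => S.J p.1 (e i) := fun i =>
    (S.contDiff_J_apply (e i)).continuous.comp continuous_fst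
  have : Continuous fun p : V × Form => pull (S.J p.1) p.2 := by
    refine (PiLp.continuous_toLp 2 _).comp (continuous_pi fun k => ?_)
    have h1 : ∀ j, Continuous fun p : V × Form => p.2 j := fun j =>
      (PiLp.continuous_apply 2 _ j).comp continuous_snd
    have h2 : ∀ i j, Continuous fun p : V × Form => S.J p.1 (e i) j := fun i j =>
      (continuous_apply j).comp (hJ i)
    exact continuous_finsetSum _ fun j _ =>
      (h1 j).mul (((h2 _ _).mul (h2 _ _)).sub ((h2 _ _).mul (h2 _ _)))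
  unfold piP
  fun_prop

lemma exists_q_anti : ∃ c, 0 < c ∧ ∀ x n, piP (S.J x) n = 0 → c * ‖n‖ ^ 2 ≤ q n n :=
  exists_lower (fun x n => piP (S.J x) n = 0) (fun _ n => q n n) 2
    (isClosed_eq S.continuous_piP₂ continuous_const) (continuous_q continuous_snd continuous_snd)
    (fun x n w => by simp only [S.J_smooth.periodic x n]) (fun _ _ _ => rfl)
    (fun x n s _ hn => ⟨by rw [piP_smul, hn, smul_zero], by
      rw [q_smul_left, q_smul_right]; ring⟩)
    (fun _ => q_zero_left _) two_ne_zero (fun x n hn h0 => S.q_anti_pos hn h0)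

lemma isClosed_psdSet : IsClosed {p : V × Form | S.Psd p.1 p.2} := by
  have h1 : IsClosed {p : V × Form | piM (S.J p.1) p.2 = 0} := by
    have hc : Continuous fun p : V × Form => piM (S.J p.1) p.2 := by
      have : (fun p : V × Form => piM (S.J p.1) p.2) =
          fun p => p.2 - piP (S.J p.1) p.2 := by
        funext p
        rw [eq_sub_iff_add_eq', piP_add_piM]
      rw [this]
      exact continuous_snd.sub S.continuous_piP₂
    exact isClosed_eq hc continuous_const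
  have h2 : IsClosed {p : V × Form | ∀ u, 0 ≤ ev p.2 u (S.J p.1 u)} := by
    simp only [Set.ofPred_forall]
    refine isClosed_iInter fun u => isClosed_le continuous_const ?_
    have hj : ∀ i, Continuous fun p : V × Form => S.J p.1 u i := fun i =>
      ((continuous_apply i).comp (S.contDiff_J_apply u).continuous).comp continuous_fst
    exact continuous_finsetSum _ fun k _ =>
      ((PiLp.continuous_apply 2 _ k).comp continuous_snd).mul
        ((continuous_const.mul (hj _)).sub ((hj _).mul continuous_const))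
  exact h1.inter h2

lemma exists_norm_psd : ∃ C, 0 < C ∧ ∀ x h, S.Psd x h → ‖h‖ ≤ C * q h (S.Om x) := by
  obtain ⟨c, hc, hle⟩ := exists_lower S.Psd (fun x h => q h (S.Om x)) 1 S.isClosed_psdSet
    (continuous_q continuous_snd (S.smooth_Om.smooth.continuous.comp continuous_fst))
    (fun x n w => by simp only [Psd, S.J_smooth.periodic x n])
    (fun x n w => by simp only [S.smooth_Om.periodic x n])
    (fun x h s hs hh => ⟨S.psd_smul hs.le hh, by rw [q_smul_left, pow_one]⟩)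
    (fun x => q_zero_left _) one_ne_zero
    (fun x h hh h0 => lt_of_le_of_ne (S.q_Om_nonneg hh) fun h' => h0 (S.psd_eq_zero hh h'.symm))
  refine ⟨c⁻¹, inv_pos.2 hc, fun x h hh => ?_⟩
  have := hle x h hh
  rw [pow_one] at this
  rwa [inv_mul_eq_div, le_div_iff₀ hc, mul_comm]

lemma exists_piM_lip : ∃ C, 0 < C ∧ ∀ x y h,
    ‖piM (S.J x) h - piM (S.J y) h‖ ≤ C * dist0 (x - y) * ‖h‖ := by
  have hs : ∀ k : Fin 6, Smooth fun x => piM (S.J x) (EuclideanSpace.single k (1 : ℝ)) := fun k =>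
    S.smooth_piM ⟨contDiff_const, fun _ _ => rfl⟩
  choose C hC0 hC using fun k => exists_lipschitz (hs k)
  refine ⟨∑ k, C k, Finset.sum_pos (fun k _ => hC0 k) Finset.univ_nonempty, fun x y h => ?_⟩
  have hdec : ∀ z, piM (S.J z) h = ∑ k, h k • piM (S.J z) (EuclideanSpace.single k (1 : ℝ)) := by
    intro z
    have hh : h = ∑ k, h k • EuclideanSpace.single k (1 : ℝ) := by
      ext j
      simp [Pi.single_apply]
    conv_lhs => rw [hh]
    simp only [Fin.sum_univ_six, piM_add, piM_smul]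
  rw [hdec x, hdec y, ← Finset.sum_sub_distrib, Finset.sum_mul, Finset.sum_mul]
  refine (norm_sum_le _ _).trans (Finset.sum_le_sum fun k _ => ?_)
  rw [← smul_sub, norm_smul, Real.norm_eq_abs, mul_comm]
  exact mul_le_mul (hC k x y) (abs_coord_le h k) (abs_nonneg _)
    (mul_nonneg (hC0 k).le (dist0_nonneg _))

lemma ev_piP_self (x : V) (h : Form) (u : V) :
    ev (piP (S.J x) h) u (S.J x u) = ev h u (S.J x u) := by
  rw [ev_piP, S.J_sq, ev_neg_right, ← ev_skew]
  ring

/-- A positive form moved to a nearby point. -/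
lemma exists_move : ∃ C, 0 < C ∧ ∀ x y h, S.Psd y h → q h (S.Om y) = 1 →
    S.Psd x (piP (S.J x) h + (C * dist0 (x - y) ^ 2) • S.Om x) ∧
      ‖piM (S.J x) h‖ ≤ C * dist0 (x - y) ∧
      |q (piP (S.J x) h) (S.Om x) - 1| ≤ C * dist0 (x - y) ∧
      (∀ u, ev h u (S.J y u) ≤
        2 * ev (piP (S.J x) h) u (S.J x u) + C * dist0 (x - y) ^ 2 * ‖u‖ ^ 2) := by
  obtain ⟨c, C0, hc, hC0, hg⟩ := S.Om_bounds
  obtain ⟨N, hN0, hN⟩ := S.exists_norm_psd
  obtain ⟨L, hL0, hL⟩ := exists_lipschitz S.J_smooth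
  obtain ⟨L', hL'0, hL'⟩ := exists_lipschitz S.smooth_Om
  obtain ⟨P, hP0, hP⟩ := S.exists_piM_lip
  obtain ⟨M, hM0, hM⟩ := exists_bound S.J_smooth.smooth.continuous S.J_smooth.periodic
  set K := 12 * (N * (M * L * (M * (M * L)))) with hK
  have hK0 : 0 < K := by positivity
  refine ⟨K + K / c + P * N + 6 * (N * L'), by positivity, fun x y h hh htr => ?_⟩
  set d := dist0 (x - y) with hd
  have hd0 : 0 ≤ d := dist0_nonneg _
  have hh1 : ‖h‖ ≤ N := by simpa [htr] using hN y h hh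
  set C := K + K / c + P * N + 6 * (N * L')
  have hC1 : K ≤ C := by
    have : 0 ≤ K / c := by positivity
    have : 0 ≤ P * N + 6 * (N * L') := by positivity
    linarith
  have hC2 : K / c ≤ C := by
    have : 0 ≤ P * N + 6 * (N * L') := by positivity
    linarith
  have hC3 : P * N ≤ C := by
    have : 0 ≤ K / c + 6 * (N * L') := by positivity
    linarith
  have hC4 : 6 * (N * L') ≤ C := by
    have : 0 ≤ K / c + P * N := by positivity
    linarith
  have key : ∀ u, ev h u (S.J y u) ≤ 2 * ev h u (S.J x u) + K * d ^ 2 * ‖u‖ ^ 2 := by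
    intro u
    set e' := -(S.J y (S.J x u - S.J y u)) with he'
    have h1 : ev h u (S.J x u) = S.B y h u u + S.B y h u e' := by
      simp only [Setup.B, he', map_neg, S.J_sq, neg_neg]
      rw [← ev_add_right, add_sub_cancel]
    have hen : ‖e'‖ ≤ M * L * d * ‖u‖ := by
      rw [he', norm_neg]
      refine ((S.J y).le_opNorm _).trans ?_
      have : ‖S.J x u - S.J y u‖ ≤ L * d * ‖u‖ :=
        ((S.J x - S.J y).le_opNorm u).trans (mul_le_mul_of_nonneg_right (hL x y) (norm_nonneg _))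
      calc ‖S.J y‖ * ‖S.J x u - S.J y u‖ ≤ M * (L * d * ‖u‖) :=
            mul_le_mul (hM y) this (norm_nonneg _) hM0.le
        _ = _ := by ring
    have hBe : S.B y h e' e' ≤ K * d ^ 2 * ‖u‖ ^ 2 := by
      refine (le_abs_self _).trans ((abs_ev_le _ _ _).trans ?_)
      have hJe : ‖S.J y e'‖ ≤ M * (M * L * d * ‖u‖) :=
        ((S.J y).le_opNorm _).trans (mul_le_mul (hM y) hen (norm_nonneg _) hM0.le)
      calc 12 * (‖h‖ * (‖e'‖ * ‖S.J y e'‖))
            ≤ 12 * (N * ((M * L * d * ‖u‖) * (M * (M * L * d * ‖u‖)))) := by gcongr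
        _ = K * d ^ 2 * ‖u‖ ^ 2 := by rw [hK]; ring
    have hcs := S.B_cs hh u e'
    have hu0 := S.B_nonneg hh u
    have he0 := S.B_nonneg hh e'
    have : -(S.B y h u u + S.B y h e' e') / 2 ≤ S.B y h u e' := by
      nlinarith [sq_nonneg (S.B y h u u - S.B y h e' e')]
    change S.B y h u u ≤ _
    linarith
  refine ⟨⟨?_, fun u => ?_⟩, ?_, ?_, fun u => ?_⟩
  · rw [piM_add, S.piM_piP, piM_smul, S.piM_Om, smul_zero, add_zero]
  · rw [ev_add, ev_smul, S.ev_piP_self]
    have h1 := key u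
    have h2 : 0 ≤ ev h u (S.J y u) := hh.2 u
    have h3 : c * ‖u‖ ^ 2 ≤ ev (S.Om x) u (S.J x u) := (hg x u).1
    have h4 : K / c * d ^ 2 * (c * ‖u‖ ^ 2) ≤ C * d ^ 2 * ev (S.Om x) u (S.J x u) :=
      mul_le_mul (mul_le_mul_of_nonneg_right hC2 (sq_nonneg d)) h3 (by positivity)
        (by positivity)
    have h5 : K / c * d ^ 2 * (c * ‖u‖ ^ 2) = K * d ^ 2 * ‖u‖ ^ 2 := by field_simp
    have h6 : 0 ≤ K * d ^ 2 * ‖u‖ ^ 2 := by positivity
    linarith
  · have := hP x y h
    rw [hh.1, sub_zero] at this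
    refine this.trans ?_
    calc P * d * ‖h‖ ≤ P * d * N := mul_le_mul_of_nonneg_left hh1 (by positivity)
      _ ≤ C * d := by
        rw [mul_right_comm]
        exact mul_le_mul_of_nonneg_right hC3 hd0
  · rw [S.q_piP_left, show piP (S.J x) (S.Om x) = S.Om x from S.piP_piP x _, ← htr,
      ← q_sub_right]
    refine (abs_q_le _ _).trans ?_
    calc 6 * (‖h‖ * ‖S.Om x - S.Om y‖) ≤ 6 * (N * (L' * d)) := by
          gcongr
          exact hL' x y
      _ ≤ C * d := by
        rw [show 6 * (N * (L' * d)) = 6 * (N * L') * d by ring]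
        exact mul_le_mul_of_nonneg_right hC4 hd0
  · rw [S.ev_piP_self]
    refine (key u).trans ?_
    gcongr

/-- Two positive forms pair almost nonnegatively. -/
lemma exists_pair_lower : ∃ C, 0 < C ∧ ∀ y z hy hz, S.Psd y hy → S.Psd z hz →
    q hy (S.Om y) = 1 → q hz (S.Om z) = 1 → -(C * dist0 (y - z) ^ 2) ≤ q hy hz := by
  obtain ⟨C, hC, hmove⟩ := S.exists_move
  refine ⟨C, hC, fun y z hy hz h1 h2 t1 t2 => ?_⟩
  have h := S.q_psd_psd h1 (hmove y z hz h2 t2).1
  rw [q_add_right, q_smul_right, t1, ← S.q_inv_piP h1.1] at h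
  linarith

lemma exists_dual (T : V →ₗ[ℝ] V) (hinj : ∀ v, T v = 0 → v = 0) (ξ : V) :
    ∃ v, T v = ξ :=
  (LinearMap.injective_iff_surjective.1 ((injective_iff_map_eq_zero T).2 hinj)) ξ

lemma exists_gcov (x : V) (ξ : V) : ∃ u, S.gcov x u = ξ := by
  refine exists_dual
    { toFun := S.gcov x
      map_add' := fun a b => funext fun i => S.g_add_left x a b (e i)
      map_smul' := fun a b => funext fun i => S.g_smul_left x a b (e i) } (fun v hv => ?_) ξ
  by_contra hne
  have := S.pair_gcov x v v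
  rw [show S.gcov x v = 0 from hv] at this
  simp [pair] at this
  exact (S.g_pos x hne).ne this

lemma exists_iota (x : V) (w : V) : ∃ v, iota v (S.Om x) = w := by
  refine exists_dual
    { toFun := fun v => iota v (S.Om x)
      map_add' := fun a b => funext fun i => ev_add_left _ a b (e i)
      map_smul' := fun a b => funext fun i => ev_smul_left _ a b (e i) } (fun v hv => ?_) w
  by_contra hne
  have := pair_iota v (S.Om x) (S.J x v)
  rw [show iota v (S.Om x) = 0 from hv] at this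
  simp [pair] at this
  exact (S.g_pos x hne).ne this

lemma exists_iota_bound : ∃ C, 0 < C ∧
    ∀ x v, ‖v‖ ≤ C * ‖iota v (S.Om x)‖ := by
  obtain ⟨c, C0, hc, hC0, hg⟩ := S.Om_bounds
  obtain ⟨M, hM0, hM⟩ := exists_bound S.J_smooth.smooth.continuous S.J_smooth.periodic
  refine ⟨4 * M / c, by positivity, fun x v => ?_⟩
  have h : c * ‖v‖ ^ 2 ≤ 4 * (‖iota v (S.Om x)‖ * (M * ‖v‖)) := by
    refine ((hg x v).1.trans ((le_of_eq (pair_iota v (S.Om x) (S.J x v)).symm).trans
      ((le_abs_self _).trans (abs_pair_le _ _)))).trans ?_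
    gcongr
    exact ((S.J x).le_opNorm v).trans (mul_le_mul_of_nonneg_right (hM x) (norm_nonneg _))
  rcases eq_or_lt_of_le (norm_nonneg v) with h0 | h0
  · rw [← h0]; positivity
  · rw [div_mul_eq_mul_div, le_div_iff₀ hc]
    nlinarith

/-- The pairing with `ξ ∧ ι_v Ω`. -/
lemma exists_wedge_iota : ∃ C, 0 < C ∧ ∀ x h ξ v, S.Psd x h → q h (S.Om x) = 1 →
    |q h (wedge ξ (iota v (S.Om x))) - pair ξ v| ≤ C * ‖ξ‖ * Real.sqrt (S.B x h v v) := by
  obtain ⟨c, C0, hc, hC0, hg⟩ := S.Om_bounds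
  obtain ⟨N, hN0, hN⟩ := S.exists_norm_psd
  obtain ⟨M, hM0, hM⟩ := exists_bound S.J_smooth.smooth.continuous S.J_smooth.periodic
  refine ⟨C0 * Real.sqrt (12 * (N * M)) * (4 / c), by positivity, fun x h ξ v hh htr => ?_⟩
  obtain ⟨u, rfl⟩ := S.exists_gcov x ξ
  rw [S.q_wedge_gcov hh.1, htr, mul_one, S.pair_gcov, sub_sub_cancel_left, abs_neg, abs_mul,
    abs_of_pos (S.kap_pos x)]
  have hu : ‖u‖ ≤ 4 / c * ‖S.gcov x u‖ := by
    have h1 := ((hg x u).1).trans (((S.pair_gcov x u u).symm.le).trans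
      ((le_abs_self _).trans (abs_pair_le _ _)))
    rcases eq_or_lt_of_le (norm_nonneg u) with h0 | h0
    · rw [← h0]; positivity
    · rw [div_mul_eq_mul_div, le_div_iff₀ hc]
      nlinarith
  have hBu : Real.sqrt (S.B x h u u) ≤ Real.sqrt (12 * (N * M)) * ‖u‖ := by
    rw [← Real.sqrt_sq (norm_nonneg u), ← Real.sqrt_mul (by positivity)]
    refine Real.sqrt_le_sqrt ((le_abs_self _).trans ((abs_ev_le _ _ _).trans ?_))
    have h1 : ‖S.J x u‖ ≤ M * ‖u‖ :=
      ((S.J x).le_opNorm u).trans (mul_le_mul_of_nonneg_right (hM x) (norm_nonneg _))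
    have h2 : ‖h‖ ≤ N := by simpa [htr] using hN x h hh
    calc 12 * (‖h‖ * (‖u‖ * ‖S.J x u‖)) ≤ 12 * (N * (‖u‖ * (M * ‖u‖))) := by gcongr
      _ = _ := by ring
  have hcs : |S.B x h u v| ≤ Real.sqrt (S.B x h u u) * Real.sqrt (S.B x h v v) := by
    rw [← Real.sqrt_mul (S.B_nonneg hh u), ← Real.sqrt_sq_eq_abs]
    exact Real.sqrt_le_sqrt (S.B_cs hh u v)
  calc S.kap x * |S.B x h u v|
        ≤ C0 * (Real.sqrt (12 * (N * M)) * (4 / c * ‖S.gcov x u‖) *
          Real.sqrt (S.B x h v v)) := by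
        refine mul_le_mul (hg x u).2.2.2 (hcs.trans ?_) (abs_nonneg _) hC0.le
        refine mul_le_mul_of_nonneg_right (hBu.trans ?_) (Real.sqrt_nonneg _)
        exact mul_le_mul_of_nonneg_left hu (Real.sqrt_nonneg _)
    _ = _ := by ring

/-- The pairing with `g u ∧ w`. -/
lemma exists_wedge_gcov : ∃ C, 0 < C ∧ ∀ x h u w, S.Psd x h → q h (S.Om x) = 1 →
    |q h (wedge (S.gcov x u) w) - pair w (S.J x u)| ≤
      C * ‖w‖ * Real.sqrt (S.B x h u u) := by
  obtain ⟨c, C0, hc, hC0, hg⟩ := S.Om_bounds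
  obtain ⟨N, hN0, hN⟩ := S.exists_norm_psd
  obtain ⟨M, hM0, hM⟩ := exists_bound S.J_smooth.smooth.continuous S.J_smooth.periodic
  obtain ⟨K, hK0, hK⟩ := S.exists_iota_bound
  refine ⟨C0 * Real.sqrt (12 * (N * M)) * K, by positivity, fun x h u w hh htr => ?_⟩
  obtain ⟨v, rfl⟩ := S.exists_iota x w
  rw [S.q_wedge_gcov hh.1, htr, mul_one, pair_iota,
    show ev (S.Om x) v (S.J x u) = S.g x u v from S.g_symm x v u,
    sub_sub_cancel_left, abs_neg, abs_mul, abs_of_pos (S.kap_pos x)]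
  have hBv : Real.sqrt (S.B x h v v) ≤ Real.sqrt (12 * (N * M)) * ‖v‖ := by
    rw [← Real.sqrt_sq (norm_nonneg v), ← Real.sqrt_mul (by positivity)]
    refine Real.sqrt_le_sqrt ((le_abs_self _).trans ((abs_ev_le _ _ _).trans ?_))
    have h1 : ‖S.J x v‖ ≤ M * ‖v‖ :=
      ((S.J x).le_opNorm v).trans (mul_le_mul_of_nonneg_right (hM x) (norm_nonneg _))
    have h2 : ‖h‖ ≤ N := by simpa [htr] using hN x h hh
    calc 12 * (‖h‖ * (‖v‖ * ‖S.J x v‖)) ≤ 12 * (N * (‖v‖ * (M * ‖v‖))) := by gcongr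
      _ = _ := by ring
  have hcs : |S.B x h u v| ≤ Real.sqrt (S.B x h u u) * Real.sqrt (S.B x h v v) := by
    rw [← Real.sqrt_mul (S.B_nonneg hh u), ← Real.sqrt_sq_eq_abs]
    exact Real.sqrt_le_sqrt (S.B_cs hh u v)
  calc S.kap x * |S.B x h u v|
        ≤ C0 * (Real.sqrt (S.B x h u u) *
          (Real.sqrt (12 * (N * M)) * (K * ‖iota v (S.Om x)‖))) := by
        refine mul_le_mul (hg x u).2.2.2 (hcs.trans ?_) (abs_nonneg _) hC0.le
        refine mul_le_mul_of_nonneg_left (hBv.trans ?_) (Real.sqrt_nonneg _)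
        exact mul_le_mul_of_nonneg_left (hK x v) (Real.sqrt_nonneg _)
    _ = _ := by ring

/-- The direction attached to a covector and a positive form, measured by another one. -/
lemma exists_vec_bound : ∃ C, 0 < C ∧ ∀ y z hy hz η, S.Psd y hy → S.Psd z hz →
    q hy (S.Om y) = 1 → q hz (S.Om z) = 1 →
    ‖vec hy η‖ ≤ C * ‖η‖ ∧
      S.B z hz (vec hy η) (vec hy η) ≤ C * ‖η‖ ^ 2 * (q hy hz + C * dist0 (y - z) ^ 2) := by
  obtain ⟨c, C0, hc, hC0, hg⟩ := S.Om_bounds
  obtain ⟨N, hN0, hN⟩ := S.exists_norm_psd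
  obtain ⟨K, hK0, hK⟩ := S.exists_iota_bound
  obtain ⟨Mv, hMv0, hmove⟩ := S.exists_move
  have he : ∀ i, ‖e i‖ ≤ 1 := fun i => by simp [e, Pi.norm_single]
  set A := 72 * N with hA
  set G := 2 * C0 * K ^ 2 with hG
  set C := A + G + Mv + Mv * A ^ 2 with hC
  have hA0 : 0 < A := by positivity
  have hG0 : 0 < G := by positivity
  refine ⟨max C (Mv + Mv * A ^ 2 / G), by positivity, fun y z hy hz η h1 h2 t1 t2 => ?_⟩
  set D := max C (Mv + Mv * A ^ 2 / G)
  have hvn : ‖vec hy η‖ ≤ A * ‖η‖ := by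
    refine (pi_norm_le_iff_of_nonneg (by positivity)).2 fun i => ?_
    rw [Real.norm_eq_abs]
    refine (abs_q_le _ _).trans ?_
    have hh : ‖hy‖ ≤ N := by simpa [t1] using hN y hy h1
    have hw := norm_wedge_le (e i) η
    calc 6 * (‖hy‖ * ‖wedge (e i) η‖) ≤ 6 * (N * (12 * (1 * ‖η‖))) := by
          gcongr
          exact hw.trans (by gcongr; exact he i)
      _ = _ := by rw [hA]; ring
  have h00 : (0 : ℝ) < G + Mv + Mv * A ^ 2 := by positivity
  have hAD : A ≤ D := le_trans (by rw [hC]; linarith) (le_max_left _ _)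
  refine ⟨hvn.trans (mul_le_mul_of_nonneg_right hAD (norm_nonneg _)), ?_⟩
  obtain ⟨hp, -, -, hmv⟩ := hmove y z hz h2 t2
  set d := dist0 (y - z)
  set v := vec hy η with hv
  obtain ⟨w, hw⟩ := S.exists_iota y η
  have hmain := S.B_vec_le h1 hp w
  rw [t1, mul_one, hw, q_add_right, q_smul_right, t1, mul_one, ← S.q_inv_piP h1.1] at hmain
  have hgw : S.g y w w ≤ C0 * (K ^ 2 * ‖η‖ ^ 2) := by
    refine (hg y w).2.1.trans (mul_le_mul_of_nonneg_left ?_ hC0.le)
    rw [← mul_pow, ← hw]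
    exact pow_le_pow_left₀ (norm_nonneg _) (hK y w) 2
  have hpos : 0 ≤ q hy hz + Mv * d ^ 2 := by
    have := S.q_psd_psd h1 hp
    rw [q_add_right, q_smul_right, t1, mul_one, ← S.q_inv_piP h1.1] at this
    exact this
  have h3 : ev (piP (S.J y) hz) v (S.J y v) ≤ C0 * (K ^ 2 * ‖η‖ ^ 2) * (q hy hz + Mv * d ^ 2) := by
    refine le_trans ?_ (hmain.trans (mul_le_mul_of_nonneg_right hgw hpos))
    rw [Setup.B, ev_add, ev_smul]
    exact le_add_of_nonneg_right (mul_nonneg (by positivity) ((S.psd_Om y).2 v))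
  have h4 := hmv v
  have h5 : ‖v‖ ^ 2 ≤ A ^ 2 * ‖η‖ ^ 2 := by
    rw [← mul_pow]; exact pow_le_pow_left₀ (norm_nonneg _) hvn 2
  calc S.B z hz v v ≤ 2 * (C0 * (K ^ 2 * ‖η‖ ^ 2) * (q hy hz + Mv * d ^ 2))
        + Mv * d ^ 2 * (A ^ 2 * ‖η‖ ^ 2) := by
        have := mul_le_mul_of_nonneg_left h5 (show (0 : ℝ) ≤ Mv * d ^ 2 by positivity)
        change ev hz v (S.J z v) ≤ _
        linarith
    _ = G * ‖η‖ ^ 2 * (q hy hz + (Mv + Mv * A ^ 2 / G) * d ^ 2) := by
        rw [hG]; field_simp; ring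
    _ ≤ D * ‖η‖ ^ 2 * (q hy hz + D * d ^ 2) := by
        have h0 : (0 : ℝ) < A + Mv + Mv * A ^ 2 := by positivity
        have hGD : G ≤ D := le_trans (by rw [hC]; linarith) (le_max_left _ _)
        refine mul_le_mul (mul_le_mul_of_nonneg_right hGD (sq_nonneg _)) ?_ ?_ (by positivity)
        · gcongr; exact le_max_right _ _
        · have : 0 ≤ Mv * A ^ 2 / G * d ^ 2 := by positivity
          linarith

end Setup

end Vale.Agent.P204.Torus
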