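import Vale.Agent.P204.Torus.UData
import Vale.Agent.P204.Torus.Facts
import Vale.Agent.P204.Torus.Integrals

/-!
P204 on the four-torus: the pairing of a regularised current with continuous fields, and the
uniform bounds used by the first estimate.
-/

open MeasureTheory
open scoped BigOperators

namespace Vale.Agent.P204.Torus

/-- The pairing with a fixed two-form, as a linear functional. -/
noncomputable def qL (a : Form) : Form →L[ℝ] ℝ :=
  LinearMap.toContinuousLinearMap
    { toFun := fun b => q a b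
      map_add' := fun b c => q_add_right a b c
      map_smul' := fun s b => by simp only [q_smul_right, RingHom.id_apply, smul_eq_mul] }

lemma qL_apply (a b : Form) : qL a b = q a b := rfl

lemma q_integral {α : Type*} [MeasurableSpace α] {μ : Measure α} {F : α → Form}
    (hF : Integrable F μ) (a : Form) : q a (∫ z, F z ∂μ) = ∫ z, q a (F z) ∂μ :=
  ((qL a).integral_comp_comm hF).symm

lemma continuous_piP {S : Setup} {f : V → Form} (hf : Continuous f) :
    Continuous fun x => piP (S.J x) (f x) :=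
  S.continuous_piP₂.comp (continuous_id.prodMk hf)

/-- The two projections are uniformly bounded. -/
lemma Setup.exists_proj_bound (S : Setup) : ∃ C, 0 < C ∧ ∀ x α,
    ‖piP (S.J x) α‖ ≤ C * ‖α‖ ∧ ‖piM (S.J x) α‖ ≤ C * ‖α‖ := by
  obtain ⟨M, hM0, hM⟩ := exists_bound S.J_smooth.smooth.continuous S.J_smooth.periodic
  refine ⟨1 + 6 * (12 * M ^ 2), by positivity, fun x α => ?_⟩
  have he : ∀ i, ‖e i‖ ≤ 1 := fun i => by simp [e, Pi.norm_single]
  have hJ : ∀ i, ‖S.J x (e i)‖ ≤ M := fun i =>
    ((S.J x).le_opNorm _).trans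
      ((mul_le_mul (hM x) (he i) (norm_nonneg _) hM0.le).trans_eq (mul_one _))
  have hp : ‖pull (S.J x) α‖ ≤ 6 * (12 * M ^ 2) * ‖α‖ := by
    refine (norm_le_sum _).trans ((Finset.sum_le_sum fun k _ =>
      show |pull (S.J x) α k| ≤ 12 * M ^ 2 * ‖α‖ from ?_).trans ?_)
    · rw [pull, ofSkew_apply]
      refine (abs_ev_le _ _ _).trans ?_
      calc 12 * (‖α‖ * (‖S.J x (e (fi k))‖ * ‖S.J x (e (se k))‖)) ≤ 12 * (‖α‖ * (M * M)) := by
            gcongr <;> exact hJ _
        _ = _ := by ring
    · simp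
      linarith
  have h2 : ‖(1 / 2 : ℝ)‖ = 1 / 2 := by norm_num
  constructor
  · simp only [piP, norm_smul, h2]
    have := norm_add_le α (pull (S.J x) α)
    nlinarith [norm_nonneg α, mul_nonneg (sq_nonneg M) (norm_nonneg α)]
  · simp only [piM, norm_smul, h2]
    have := norm_sub_le α (pull (S.J x) α)
    nlinarith [norm_nonneg α, mul_nonneg (sq_nonneg M) (norm_nonneg α)]

/-- Continuous functions are integrable on the cube. -/
lemma integrable_cube_of_continuous {E : Type*} [NormedAddCommGroup E] {f : V → E}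
    (hf : Continuous f) : Integrable f cubeVol := by
  refine (hf.continuousOn.integrableOn_compact (isCompact_Icc (a := (0 : V)) (b := 1))).mono_set ?_
  intro x hx
  simp only [cube, Set.mem_pi, Set.mem_univ, true_implies, Set.mem_Ico] at hx
  exact ⟨fun i => (hx i).1, fun i => (hx i).2.le⟩

lemma l2_nonneg {F : Type*} [NormedAddCommGroup F] (f : V → F) : 0 ≤ l2 f := Real.sqrt_nonneg _

lemma l2_sq {F : Type*} [NormedAddCommGroup F] (f : V → F) :
    l2 f ^ 2 = ∫ x, ‖f x‖ ^ 2 ∂cubeVol :=
  Real.sq_sqrt (integral_nonneg fun _ => sq_nonneg _)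

/-- Cauchy–Schwarz. -/
lemma integral_mul_sq_le {α : Type*} [MeasurableSpace α] {μ : Measure α} {f g : α → ℝ}
    (hf : Integrable (fun x => f x ^ 2) μ) (hg : Integrable (fun x => g x ^ 2) μ)
    (hfg : Integrable (fun x => f x * g x) μ) :
    (∫ x, f x * g x ∂μ) ^ 2 ≤ (∫ x, f x ^ 2 ∂μ) * ∫ x, g x ^ 2 ∂μ := by
  have key : ∀ s : ℝ, 0 ≤ (∫ x, g x ^ 2 ∂μ) * (s * s) + 2 * (∫ x, f x * g x ∂μ) * s +
      ∫ x, f x ^ 2 ∂μ := fun s => by
    have h : 0 ≤ ∫ x, s ^ 2 * g x ^ 2 + 2 * s * (f x * g x) + f x ^ 2 ∂μ :=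
      integral_nonneg fun x => by
        refine le_of_le_of_eq (sq_nonneg (s * g x + f x)) ?_
        ring
    rw [integral_add ((hg.const_mul _).fun_add (hfg.const_mul _)) hf,
      integral_add (hg.const_mul _) (hfg.const_mul _), integral_const_mul, integral_const_mul] at h
    nlinarith
  have := discrim_le_zero key
  simp only [discrim] at this
  nlinarith

namespace Current

variable {S : Setup} (T : Current S)

instance : IsFiniteMeasure T.ν := T.finite

lemma exists_h_bound : ∃ C, 0 < C ∧ ∀ z, ‖T.h z‖ ≤ C := by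
  obtain ⟨C, hC, h⟩ := S.exists_norm_psd
  exact ⟨C, hC, fun z => by simpa [T.trace z] using h z (T.h z) (T.psd z)⟩

lemma integrable_bounded {E : Type*} [NormedAddCommGroup E] {F : V → E}
    (hF : AEStronglyMeasurable F T.ν) {C : ℝ} (hb : ∀ z, ‖F z‖ ≤ C) : Integrable F T.ν :=
  Integrable.of_bound hF C (Filter.Eventually.of_forall hb)

variable {k : V → ℝ}

lemma integrable_smooth_smul (hk : Continuous k) (hp : Periodic k) (x : V) :
    Integrable (fun z => k (x - z) • T.h z) T.ν := by
  obtain ⟨C, hC, hh⟩ := T.exists_h_bound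
  obtain ⟨K, hK, hkb⟩ := exists_bound hk hp
  refine T.integrable_bounded ((hk.comp (by fun_prop)).aestronglyMeasurable.smul
    T.meas.aestronglyMeasurable) (C := K * C) fun z => ?_
  rw [norm_smul]
  exact mul_le_mul (hkb _) (hh z) (norm_nonneg _) hK.le

lemma continuous_smoothing (hk : Continuous k) (hp : Periodic k) :
    Continuous fun x => ∫ z, k (x - z) • T.h z ∂T.ν := by
  obtain ⟨C, hC, hh⟩ := T.exists_h_bound
  obtain ⟨K, hK, hkb⟩ := exists_bound hk hp
  refine continuous_of_dominated (fun x => (T.integrable_smooth_smul hk hp x).aestronglyMeasurable)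
    (bound := fun _ => K * C) (fun x => Filter.Eventually.of_forall fun z => ?_)
    (integrable_const _) (Filter.Eventually.of_forall fun z => (hk.comp (by fun_prop)).smul
      continuous_const)
  rw [norm_smul]
  exact mul_le_mul (hkb _) (hh z) (norm_nonneg _) hK.le

lemma q_smoothing (hk : Continuous k) (hp : Periodic k) (a : Form) (x : V) :
    q (∫ z, k (x - z) • T.h z ∂T.ν) a = ∫ z, k (x - z) * q (T.h z) a ∂T.ν := by
  rw [q_comm, q_integral (T.integrable_smooth_smul hk hp x) a]
  exact integral_congr_ae (Filter.Eventually.of_forall fun z => by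
    simp only [q_smul_right]; rw [q_comm a])

/-- Fubini for a continuous kernel against the measure. -/
lemma integral_swap {F : V → V → ℝ} (hF : Measurable (Function.uncurry F)) {C : ℝ}
    (hb : ∀ x z, |F x z| ≤ C) :
    ∫ x, ∫ z, F x z ∂T.ν ∂cubeVol = ∫ z, ∫ x, F x z ∂cubeVol ∂T.ν :=
  integral_integral_swap (Integrable.of_bound hF.aestronglyMeasurable C
    (Filter.Eventually.of_forall fun p => (Real.norm_eq_abs _).trans_le (hb p.1 p.2)))

end Current

end Vale.Agent.P204.Torus
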