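import Vale.Agent.P204.Torus.Calculus

/-!
P204 on the four-torus: from plain functions to a `Setup`, including the orientation.
-/

namespace Vale.Agent.P204.Torus

open scoped BigOperators

/-- A smooth almost complex structure on the torus, seen on `ℝ⁴`. -/
structure TorusACS (J : V → V → V) : Prop where
  linear : ∀ x, IsLinearMap ℝ (J x)
  smooth : ∀ u, ContDiff ℝ (⊤ : ℕ∞) fun x => J x u
  sq : ∀ x u, J x (J x u) = -u
  periodic : ∀ x n u, J (x + intVec n) u = J x u

/-- A smooth closed two-form on the torus, seen on `ℝ⁴`. -/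
structure TorusTwoForm (ω : V → V → V → ℝ) : Prop where
  linear : ∀ x v, IsLinearMap ℝ fun u => ω x u v
  skew : ∀ x u v, ω x u v = -ω x v u
  smooth : ∀ u v, ContDiff ℝ (⊤ : ℕ∞) fun x => ω x u v
  periodic : ∀ x n u v, ω (x + intVec n) u v = ω x u v
  closed : ∀ x u v w, fderiv ℝ (fun y => ω y v w) x u + fderiv ℝ (fun y => ω y w u) x v
    + fderiv ℝ (fun y => ω y u v) x w = 0

/-- `ω` is positive on every complex line of `J`, hence nondegenerate. -/
def Tames (J : V → V → V) (ω : V → V → V → ℝ) : Prop := ∀ x u, u ≠ 0 → 0 < ω x u (J x u)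

/-- `ω` is invariant under `J`. -/
def InvariantFun (J : V → V → V) (ω : V → V → V → ℝ) : Prop :=
  ∀ x u v, ω x (J x u) (J x v) = ω x u v

namespace Main

/-- A degenerate two-form has a kernel, so a taming form has nonzero square. -/
lemma q_self_ne_zero {α : Form} {A : V → V} (h : ∀ u, u ≠ 0 → 0 < ev α u (A u)) : q α α ≠ 0 := by
  intro hq
  have hP : α 0 * α 3 + α 1 * α 4 + α 2 * α 5 = 0 := by simp only [q] at hq; linarith
  have key : ∀ v : V, (∀ w, ev α v w = 0) → v = 0 := fun v hv => by
    by_contra h0
    have := h v h0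
    rw [hv] at this
    exact lt_irrefl _ this
  have h0 : (![0, α 3, α 4, α 5] : V) = 0 := key _ fun w => by
    simp only [ev_def, Matrix.cons_val_zero, Matrix.cons_val_one, Matrix.cons_val]
    linear_combination (-w 0) * hP
  have h1 : (![α 3, 0, -α 2, α 1] : V) = 0 := key _ fun w => by
    simp only [ev_def, Matrix.cons_val_zero, Matrix.cons_val_one, Matrix.cons_val]
    linear_combination w 1 * hP
  have h2 : (![α 4, α 2, 0, -α 0] : V) = 0 := key _ fun w => by
    simp only [ev_def, Matrix.cons_val_zero, Matrix.cons_val_one, Matrix.cons_val]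
    linear_combination w 2 * hP
  have a3 : α 3 = 0 := by simpa using congrFun h0 1
  have a4 : α 4 = 0 := by simpa using congrFun h0 2
  have a5 : α 5 = 0 := by simpa using congrFun h0 3
  have a1 : α 1 = 0 := by simpa using congrFun h1 3
  have a2 : α 2 = 0 := by simpa using congrFun h2 1
  have a0 : α 0 = 0 := by simpa using congrFun h2 3
  have he : ev α (e 0) (A (e 0)) = 0 := by simp [ev_def, a0, a1, a2, a3, a4, a5]
  have := h (e 0) fun hh => by simpa [e] using congrFun hh 0
  linarith

/-- The reflection in the first coordinate. -/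
noncomputable def mirror : V →L[ℝ] V :=
  ContinuousLinearMap.pi fun i =>
    (if i = 0 then (-1 : ℝ) else 1) • ContinuousLinearMap.proj (R := ℝ) (φ := fun _ : Fin 4 => ℝ) i

lemma mirror_apply (u : V) (i : Fin 4) : mirror u i = (if i = 0 then (-1 : ℝ) else 1) * u i := rfl

lemma mirror_mirror (u : V) : mirror (mirror u) = u := by
  funext i
  rw [mirror_apply, mirror_apply]
  split_ifs <;> ring

lemma mirror_intVec (n : Fin 4 → ℤ) :
    mirror (intVec n) = intVec fun i => (if i = 0 then -1 else 1) * n i := by
  funext i
  rw [mirror_apply]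
  simp only [intVec]
  push_cast
  ring

lemma q_pull_refl (α : Form) : q (pull mirror α) (pull mirror α) = -q α α := by
  simp only [pull, q, ofSkew_apply, ev_def, mirror_apply, fi, se, e, Matrix.cons_val_zero,
    Matrix.cons_val_one, Matrix.cons_val]
  simp
  ring

/-- Pullback by the reflection of a field of two-forms. -/
noncomputable def reflForm (α : V → Form) (x : V) : Form := pull mirror (α (mirror x))

lemma ev_reflForm (α : V → Form) (x u v : V) :
    ev (reflForm α x) u v = ev (α (mirror x)) (mirror u) (mirror v) := ev_pull _ _ _ _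

lemma smooth_reflForm {α : V → Form} (h : Smooth α) : Smooth (reflForm α) :=
  ⟨contDiff_form.2 fun _ =>
      contDiff_ev (h.smooth.comp mirror.contDiff) contDiff_const contDiff_const,
    fun x n => by
      show pull mirror (α (mirror (x + intVec n))) = pull mirror (α (mirror x))
      rw [map_add, mirror_intVec, h.periodic]⟩

lemma fderiv_reflForm {α : V → Form} (h : Smooth α) (x u v w : V) :
    fderiv ℝ (fun y => ev (reflForm α y) v w) x u =
      ev (fderiv ℝ α (mirror x) (mirror u)) (mirror v) (mirror w) := by
  simp only [ev_reflForm]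
  have hd : DifferentiableAt ℝ (fun y => α (mirror y)) x :=
    (h.differentiableAt _).comp x mirror.differentiableAt
  rw [fderiv_ev hd (differentiableAt_const _) (differentiableAt_const _)]
  have hc : fderiv ℝ (fun y => α (mirror y)) x = (fderiv ℝ α (mirror x)).comp mirror :=
    ((h.differentiableAt _).hasFDerivAt.comp x mirror.hasFDerivAt).fderiv
  simp [hc, ev_def]

lemma fderiv_const_ev {α : V → Form} (h : Smooth α) (x u v w : V) :
    fderiv ℝ (fun y => ev (α y) v w) x u = ev (fderiv ℝ α x u) v w := by
  rw [fderiv_ev (h.differentiableAt x) (differentiableAt_const _) (differentiableAt_const _)]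
  simp [ev_def]

/-- Fields of two-forms as functions. -/
lemma twoForm_of_ev {α : V → Form} (h : Smooth α) (hc : Closed α) :
    TorusTwoForm fun x u v => ev (α x) u v where
  linear x v := ⟨fun a b => ev_add_left _ _ _ _, fun c a => ev_smul_left _ _ _ _⟩
  skew x u v := ev_skew _ _ _
  smooth u v := contDiff_ev h.smooth contDiff_const contDiff_const
  periodic x n u v := by rw [h.periodic]
  closed x u v w := by rw [fderiv_const_ev h, fderiv_const_ev h, fderiv_const_ev h]; exact hc x u v w

/-- The compatible form once the square of the taming form is positive. -/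
lemma of_oriented (main : ∀ S : Setup, Closed S.om → ∃ α, S.Compatible α) {J : V → V →L[ℝ] V} {om : V → Form}
    (hJ : Smooth J) (hJ2 : ∀ x u, J x (J x u) = -u) (hom : Smooth om) (hc : Closed om)
    (hT : ∀ x u, u ≠ 0 → 0 < ev (om x) u (J x u)) (ho : ∀ x, 0 < q (om x) (om x)) :
    ∃ α : V → Form, Smooth α ∧ Closed α ∧ (∀ x u, u ≠ 0 → 0 < ev (α x) u (J x u)) ∧
      ∀ x u v, ev (α x) (J x u) (J x v) = ev (α x) u v := by
  obtain ⟨α, ⟨⟨hs, hcl, hinv⟩, hpos⟩⟩ := main ⟨J, om, hJ, hJ2, hom, hT, ho⟩ hc
  refine ⟨α, hs, hcl, hpos, fun x u v => ?_⟩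
  have h : pull (J x) (α x) = α x := by
    have h2 := congrArg (fun β : Form => (2 : ℝ) • β) (hinv x)
    simp only [piM, smul_smul, smul_zero] at h2
    norm_num at h2
    exact (sub_eq_zero.1 h2).symm
  rw [← ev_pull, h]

end Main

open Main

/-- The theorem for plain functions follows from the one for a `Setup`. -/
theorem compatible_of_setup (main : ∀ S : Setup, Closed S.om → ∃ α, S.Compatible α) {J : V → V → V}
    {ω : V → V → V → ℝ} (hJ : TorusACS J) (hω : TorusTwoForm ω) (hT : Tames J ω) :
    ∃ ω', TorusTwoForm ω' ∧ Tames J ω' ∧ InvariantFun J ω' := by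
  set Jc : V → V →L[ℝ] V := fun x =>
    LinearMap.toContinuousLinearMap (IsLinearMap.mk' (J x) (hJ.linear x))
  have hJc : Smooth Jc :=
    ⟨contDiff_clm_apply_iff.2 fun u => hJ.smooth u,
      fun x n => ContinuousLinearMap.ext fun u => hJ.periodic x n u⟩
  set om : V → Form := fun x => ofSkew (ω x)
  have hev : ∀ x u v, ev (om x) u v = ω x u v := fun x =>
    ev_ofSkew (ω x) (hω.skew x) (fun u u' v => (hω.linear x v).map_add u u')
      (fun a u v => (hω.linear x v).map_smul a u)
  have hom : Smooth om :=
    ⟨contDiff_form.2 fun _ => hω.smooth _ _, fun x n => by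
      ext k
      exact hω.periodic x n _ _⟩
  have hcl : Closed om := fun x u v w => by
    have h := hω.closed x u v w
    simp only [← hev] at h
    rwa [fderiv_const_ev hom, fderiv_const_ev hom, fderiv_const_ev hom] at h
  have hTc : ∀ x u, u ≠ 0 → 0 < ev (om x) u (Jc x u) := fun x u hu => by
    rw [hev]; exact hT x u hu
  have hq : ∀ x, q (om x) (om x) ≠ 0 := fun x => q_self_ne_zero (hTc x)
  have hcont : Continuous fun x => q (om x) (om x) :=
    Setup.continuous_q hom.smooth.continuous hom.smooth.continuous
  rcases lt_or_gt_of_ne (hq 0) with hneg | hposq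
  · have ho : ∀ x, q (om x) (om x) < 0 := fun x => by
      by_contra hx
      obtain ⟨y, -, hy⟩ := isPreconnected_univ.intermediate_value (Set.mem_univ (0 : V))
        (Set.mem_univ x) hcont.continuousOn ⟨hneg.le, not_lt.1 hx⟩
      exact hq y hy
    set J' : V → V →L[ℝ] V := fun x => mirror.comp ((Jc (mirror x)).comp mirror)
    have hJ' : Smooth J' :=
      ⟨contDiff_const.clm_comp ((hJc.smooth.comp mirror.contDiff).clm_comp contDiff_const),
        fun x n => by
          show mirror.comp ((Jc (mirror (x + intVec n))).comp mirror) = _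
          rw [map_add, mirror_intVec, hJc.periodic]⟩
    have hJ2 : ∀ x u, J' x (J' x u) = -u := fun x u => by
      show mirror (Jc (mirror x) (mirror (mirror (Jc (mirror x) (mirror u))))) = -u
      rw [mirror_mirror, show Jc (mirror x) (Jc (mirror x) (mirror u)) = -mirror u from hJ.sq _ _, map_neg,
        mirror_mirror]
    have hcl' : Closed (reflForm om) := fun x u v w => by
      rw [← fderiv_const_ev (smooth_reflForm hom), ← fderiv_const_ev (smooth_reflForm hom),
        ← fderiv_const_ev (smooth_reflForm hom), fderiv_reflForm hom, fderiv_reflForm hom,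
        fderiv_reflForm hom]
      exact hcl _ _ _ _
    obtain ⟨α, hs, hc, hp, hi⟩ := of_oriented main hJ' hJ2 (smooth_reflForm hom) hcl'
      (fun x u hu => by
        have hne : mirror u ≠ 0 := fun h => hu (by rw [← mirror_mirror u, h, map_zero])
        have h := hTc (mirror x) (mirror u) hne
        rw [ev_reflForm]
        show 0 < ev _ _ (mirror (mirror (Jc (mirror x) (mirror u))))
        rw [mirror_mirror]
        exact h)
      fun x => by
        show 0 < q (pull mirror (om (mirror x))) (pull mirror (om (mirror x)))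
        rw [q_pull_refl]
        linarith [ho (mirror x)]
    have hcα : Closed (reflForm α) := fun x u v w => by
      rw [← fderiv_const_ev (smooth_reflForm hs), ← fderiv_const_ev (smooth_reflForm hs),
        ← fderiv_const_ev (smooth_reflForm hs), fderiv_reflForm hs, fderiv_reflForm hs,
        fderiv_reflForm hs]
      exact hc _ _ _ _
    have hJrefl : ∀ x u, J' (mirror x) (mirror u) = mirror (J x u) := fun x u => by
      show mirror (Jc (mirror (mirror x)) (mirror (mirror u))) = mirror (J x u)
      rw [mirror_mirror, mirror_mirror]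
      rfl
    refine ⟨_, twoForm_of_ev (smooth_reflForm hs) hcα, fun x u hu => ?_, fun x u v => ?_⟩
    · simp only [ev_reflForm]
      rw [← hJrefl]
      exact hp _ _ fun h => hu (by rw [← mirror_mirror u, h, map_zero])
    · simp only [ev_reflForm]
      rw [← hJrefl, ← hJrefl]
      exact hi _ _ _
  · have ho : ∀ x, 0 < q (om x) (om x) := fun x => by
      by_contra hx
      obtain ⟨y, -, hy⟩ := isPreconnected_univ.intermediate_value (Set.mem_univ x)
        (Set.mem_univ (0 : V)) hcont.continuousOn ⟨not_lt.1 hx, hposq.le⟩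
      exact hq y hy
    obtain ⟨α, hs, hc, hp, hi⟩ := of_oriented main hJc (fun x u => hJ.sq x u) hom hcl hTc ho
    exact ⟨_, twoForm_of_ev hs hc, hp, hi⟩

end Vale.Agent.P204.Torus
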