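import Vale.Agent.P204.Torus.Forms

/-!
P204 on the four-torus: an adapted frame at a point.
-/

namespace Vale.Agent.P204.Torus

open Module

lemma pull_add (A : V →L[ℝ] V) (α β : Form) : pull A (α + β) = pull A α + pull A β :=
  form_ext fun u v => by simp only [ev_add, ev_pull]

lemma pull_smul (A : V →L[ℝ] V) (a : ℝ) (α : Form) : pull A (a • α) = a • pull A α :=
  form_ext fun u v => by simp only [ev_smul, ev_pull]

lemma pull_sub (A : V →L[ℝ] V) (α β : Form) : pull A (α - β) = pull A α - pull A β :=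
  form_ext fun u v => by simp only [ev_sub, ev_pull]

lemma piP_add (A : V →L[ℝ] V) (α β : Form) : piP A (α + β) = piP A α + piP A β := by
  simp only [piP, pull_add]; module

lemma piM_add (A : V →L[ℝ] V) (α β : Form) : piM A (α + β) = piM A α + piM A β := by
  simp only [piM, pull_add]; module

lemma piP_sub (A : V →L[ℝ] V) (α β : Form) : piP A (α - β) = piP A α - piP A β := by
  simp only [piP, pull_sub]; module

lemma piM_sub (A : V →L[ℝ] V) (α β : Form) : piM A (α - β) = piM A α - piM A β := by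
  simp only [piM, pull_sub]; module

lemma piP_smul (A : V →L[ℝ] V) (a : ℝ) (α : Form) : piP A (a • α) = a • piP A α := by
  simp only [piP, pull_smul]; module

lemma piM_smul (A : V →L[ℝ] V) (a : ℝ) (α : Form) : piM A (a • α) = a • piM A α := by
  simp only [piM, pull_smul]; module

lemma piP_add_piM (A : V →L[ℝ] V) (α : Form) : piP A α + piM A α = α := by
  simp only [piP, piM]; module

lemma ev_piP (A : V →L[ℝ] V) (α : Form) (u v : V) :
    ev (piP A α) u v = (ev α u v + ev α (A u) (A v)) / 2 := by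
  simp only [piP, ev_smul, ev_add, ev_pull]; ring

lemma ev_piM (A : V →L[ℝ] V) (α : Form) (u v : V) :
    ev (piM A α) u v = (ev α u v - ev α (A u) (A v)) / 2 := by
  simp only [piM, ev_smul, ev_sub, ev_pull]; ring

namespace Setup

variable (S : Setup)

/-- The quadratic form of a two-form. -/
def B (x : V) (h : Form) (u v : V) : ℝ := ev h u (S.J x v)

/-- Half of the square of the invariant part of the taming form. -/
noncomputable def kap (x : V) : ℝ := q (S.Om x) (S.Om x) / 2

/-- The covector `g(u, ·)`. -/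
noncomputable def gcov (x : V) (u : V) : V := fun i => S.g x u (e i)

lemma J_neg (x : V) (u : V) : S.J x (-u) = -S.J x u := map_neg _ _

lemma ev_JJ (x : V) (α : Form) (u v : V) :
    ev α (S.J x (S.J x u)) (S.J x (S.J x v)) = ev α u v := by
  rw [S.J_sq, S.J_sq, ev_neg_left, ev_neg_right, neg_neg]

lemma pull_pull (x : V) (α : Form) : pull (S.J x) (pull (S.J x) α) = α :=
  form_ext fun u v => by rw [ev_pull, ev_pull, S.ev_JJ]

lemma piP_piP (x : V) (α : Form) : piP (S.J x) (piP (S.J x) α) = piP (S.J x) α := by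
  simp only [piP, pull_smul, pull_add, S.pull_pull]; module

lemma piM_piM (x : V) (α : Form) : piM (S.J x) (piM (S.J x) α) = piM (S.J x) α := by
  simp only [piM, pull_smul, pull_sub, S.pull_pull]; module

lemma piM_piP (x : V) (α : Form) : piM (S.J x) (piP (S.J x) α) = 0 := by
  simp only [piM, piP, pull_smul, pull_add, S.pull_pull]; module

lemma piP_piM (x : V) (α : Form) : piP (S.J x) (piM (S.J x) α) = 0 := by
  simp only [piM, piP, pull_smul, pull_sub, S.pull_pull]; module

lemma piP_eq_self {x : V} {α : Form} (h : piM (S.J x) α = 0) : piP (S.J x) α = α := by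
  have := piP_add_piM (S.J x) α
  rwa [h, add_zero] at this

lemma piM_eq_self {x : V} {α : Form} (h : piP (S.J x) α = 0) : piM (S.J x) α = α := by
  have := piP_add_piM (S.J x) α
  rwa [h, zero_add] at this

lemma ev_inv {x : V} {h : Form} (hh : piM (S.J x) h = 0) (u v : V) :
    ev h (S.J x u) (S.J x v) = ev h u v := by
  have h0 := ev_piM (S.J x) h u v
  rw [hh, ev_zero] at h0
  linarith

lemma piM_Om (x : V) : piM (S.J x) (S.Om x) = 0 := S.piM_piP x _

lemma B_symm {x : V} {h : Form} (hh : piM (S.J x) h = 0) (u v : V) :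
    S.B x h u v = S.B x h v u := by
  simp only [B]
  rw [← S.ev_inv hh u (S.J x v), S.J_sq, ev_neg_right, ← ev_skew]

lemma g_eq (x : V) (u v : V) : S.g x u v = S.B x (S.Om x) u v := rfl

lemma g_symm (x : V) (u v : V) : S.g x u v = S.g x v u := S.B_symm (S.piM_Om x) u v

lemma g_self (x : V) (u : V) : S.g x u u = ev (S.om x) u (S.J x u) := by
  simp only [g, Om, ev_piP]
  rw [S.J_sq, ev_neg_right, ← ev_skew]
  ring

lemma g_pos (x : V) {u : V} (hu : u ≠ 0) : 0 < S.g x u u := by
  rw [S.g_self]; exact S.tames x u hu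

lemma g_add_left (x : V) (u u' v : V) : S.g x (u + u') v = S.g x u v + S.g x u' v :=
  ev_add_left _ _ _ _

lemma g_smul_left (x : V) (a : ℝ) (u v : V) : S.g x (a • u) v = a * S.g x u v :=
  ev_smul_left _ _ _ _

lemma g_sub_left (x : V) (u u' v : V) : S.g x (u - u') v = S.g x u v - S.g x u' v := by
  rw [sub_eq_add_neg, g_add_left, ← neg_one_smul ℝ u', g_smul_left]; ring

lemma g_JJ (x : V) (u v : V) : S.g x (S.J x u) (S.J x v) = S.g x u v :=
  S.ev_inv (S.piM_Om x) u (S.J x v)

lemma g_J_self (x : V) (u : V) : S.g x u (S.J x u) = 0 := by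
  simp only [g, S.J_sq, ev_neg_right, ev_self, neg_zero]

lemma g_J_left (x : V) (u v : V) : S.g x (S.J x u) v = -S.g x u (S.J x v) := by
  have h := S.g_JJ x u (S.J x v)
  rw [S.J_sq] at h
  have h' : S.g x (S.J x u) (-v) = -S.g x (S.J x u) v := by
    rw [S.g_symm, ← neg_one_smul ℝ v, g_smul_left, S.g_symm x v]; ring
  linarith

/-- A frame adapted to `J` and orthonormal for the metric. -/
structure Frame (S : Setup) (x : V) where
  /-- The vectors. -/
  c : Fin 4 → V
  j0 : S.J x (c 0) = c 1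
  j2 : S.J x (c 2) = c 3
  o00 : S.g x (c 0) (c 0) = 1
  o22 : S.g x (c 2) (c 2) = 1
  o02 : S.g x (c 0) (c 2) = 0
  o03 : S.g x (c 0) (c 3) = 0

lemma exists_frame (x : V) {u : V} (hu : u ≠ 0) :
    ∃ F : Frame S x, u = Real.sqrt (S.g x u u) • F.c 0 := by
  classical
  have hs : 0 < Real.sqrt (S.g x u u) := Real.sqrt_pos.2 (S.g_pos x hu)
  set c0 := (Real.sqrt (S.g x u u))⁻¹ • u with hc0
  have h00 : S.g x c0 c0 = 1 := by
    rw [hc0, S.g_smul_left, S.g_symm x u (_ • u), S.g_smul_left, ← mul_assoc, ← mul_inv,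
      Real.mul_self_sqrt (S.g_pos x hu).le, inv_mul_cancel₀ (S.g_pos x hu).ne']
  set c1 := S.J x c0 with hc1
  have h11 : S.g x c1 c1 = 1 := by rw [hc1, S.g_JJ, h00]
  have h01 : S.g x c0 c1 = 0 := S.g_J_self x c0
  set P : V → V := fun w => w - S.g x w c0 • c0 - S.g x w c1 • c1 with hP
  obtain ⟨w, hw⟩ : ∃ w, P w ≠ 0 := by
    by_contra hne
    push Not at hne
    have hspan : (⊤ : Submodule ℝ V) ≤ Submodule.span ℝ (Set.range ![c0, c1]) := by
      intro w _
      have h := hne w
      simp only [hP, sub_sub, sub_eq_zero] at h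
      rw [h]
      exact Submodule.add_mem _ (Submodule.smul_mem _ _ (Submodule.subset_span ⟨0, rfl⟩))
        (Submodule.smul_mem _ _ (Submodule.subset_span ⟨1, rfl⟩))
    have h2 : finrank ℝ (⊤ : Submodule ℝ V) ≤ 2 :=
      (Submodule.finrank_mono hspan).trans
        ((finrank_range_le_card ![c0, c1]).trans (by simp))
    simp at h2
  set z := P w with hz
  have hz0 : S.g x z c0 = 0 := by
    simp only [hz, hP, S.g_sub_left, S.g_smul_left]
    rw [h00, S.g_symm x c1 c0, h01]; ring
  have hz1 : S.g x z c1 = 0 := by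
    simp only [hz, hP, S.g_sub_left, S.g_smul_left]
    rw [h01, h11]; ring
  have hsz : 0 < Real.sqrt (S.g x z z) := Real.sqrt_pos.2 (S.g_pos x hw)
  set c2 := (Real.sqrt (S.g x z z))⁻¹ • z with hc2
  have h22 : S.g x c2 c2 = 1 := by
    rw [hc2, S.g_smul_left, S.g_symm x z (_ • z), S.g_smul_left, ← mul_assoc, ← mul_inv,
      Real.mul_self_sqrt (S.g_pos x hw).le, inv_mul_cancel₀ (S.g_pos x hw).ne']
  have h02 : S.g x c0 c2 = 0 := by
    rw [S.g_symm, hc2, S.g_smul_left, hz0, mul_zero]
  have h03 : S.g x c0 (S.J x c2) = 0 := by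
    have h := S.g_J_left x c0 c2
    rw [← hc1, S.g_symm x c1 c2, hc2, S.g_smul_left, hz1, mul_zero] at h
    rw [hc2]; linarith
  refine ⟨⟨![c0, c1, c2, S.J x c2], rfl, rfl, by simpa using h00, by simpa using h22,
    by simpa using h02, by simpa using h03⟩, ?_⟩
  simp [hc0, smul_smul, mul_inv_cancel₀ hs.ne']

namespace Frame

variable {S} {x : V} (F : Frame S x)

lemma j1 : S.J x (F.c 1) = -F.c 0 := by rw [← F.j0, S.J_sq]

lemma j3 : S.J x (F.c 3) = -F.c 2 := by rw [← F.j2, S.J_sq]

lemma o11 : S.g x (F.c 1) (F.c 1) = 1 := by rw [← F.j0, S.g_JJ, F.o00]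

lemma o33 : S.g x (F.c 3) (F.c 3) = 1 := by rw [← F.j2, S.g_JJ, F.o22]

lemma o01 : S.g x (F.c 0) (F.c 1) = 0 := by rw [← F.j0]; exact S.g_J_self x _

lemma o23 : S.g x (F.c 2) (F.c 3) = 0 := by rw [← F.j2]; exact S.g_J_self x _

lemma o13 : S.g x (F.c 1) (F.c 3) = 0 := by rw [← F.j0, ← F.j2, S.g_JJ, F.o02]

lemma o12 : S.g x (F.c 1) (F.c 2) = 0 := by
  rw [← F.j0, S.g_J_left, F.j2, F.o03, neg_zero]

lemma orth (i j : Fin 4) : S.g x (F.c i) (F.c j) = if i = j then 1 else 0 := by
  fin_cases i <;> fin_cases j <;>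
    simp [F.o00, F.o01, F.o02, F.o03, F.o11, F.o12, F.o13, F.o22, F.o23, F.o33,
      S.g_symm x (F.c 1) (F.c 0), S.g_symm x (F.c 2) (F.c 0), S.g_symm x (F.c 3) (F.c 0),
      S.g_symm x (F.c 2) (F.c 1), S.g_symm x (F.c 3) (F.c 1), S.g_symm x (F.c 3) (F.c 2)]

lemma g_sum (t : Fin 4 → ℝ) (j : Fin 4) : S.g x (∑ i, t i • F.c i) (F.c j) = t j := by
  simp only [Fin.sum_univ_four, S.g_add_left, S.g_smul_left, F.orth]
  fin_cases j <;> simp

/-- The coordinates of a vector. -/
noncomputable def t (u : V) : V := fun i => S.g x u (F.c i)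

lemma sum_t (u : V) : ∑ i, F.t u i • F.c i = u := by
  have hind : LinearIndependent ℝ F.c := by
    rw [Fintype.linearIndependent_iff]
    intro t ht i
    have h := F.g_sum t i
    rw [ht] at h
    rw [← h, ← zero_smul ℝ (0 : V), S.g_smul_left, zero_mul]
  set b := basisOfLinearIndependentOfCardEqFinrank hind (by simp) with hb
  have hu : ∑ i, b.repr u i • F.c i = u := by
    conv_rhs => rw [← b.sum_repr u]
    simp [hb]
  have : F.t u = fun i => b.repr u i := by
    funext i
    simp only [t]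
    conv_lhs => rw [← hu]
    exact F.g_sum _ i
  rw [this]; exact hu

lemma ev_eq (α : Form) (u v : V) : ev α u v = ev (co F.c α) (F.t u) (F.t v) := by
  conv_lhs => rw [← F.sum_t u, ← F.sum_t v]
  exact ev_co _ _ _ _

lemma co_inj {α β : Form} (h : co F.c α = co F.c β) : α = β :=
  form_ext fun u v => by rw [F.ev_eq, h, ← F.ev_eq]

lemma t_add (u v : V) : F.t (u + v) = F.t u + F.t v := by
  funext i; simp [t, S.g_add_left]

lemma t_J (u : V) : F.t (S.J x u) = ![-F.t u 1, F.t u 0, -F.t u 3, F.t u 2] := by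
  have hn : ∀ v, S.g x u (-v) = -S.g x u v := fun v => by
    simp only [g, map_neg, ev_neg_right]
  funext i
  fin_cases i <;> simp [t, S.g_J_left, F.j0, F.j1, F.j2, F.j3, hn]

lemma g_eq (u v : V) : S.g x u v =
    F.t u 0 * F.t v 0 + F.t u 1 * F.t v 1 + F.t u 2 * F.t v 2 + F.t u 3 * F.t v 3 := by
  conv_lhs => rw [← F.sum_t u]
  simp only [Fin.sum_univ_four, S.g_add_left, S.g_smul_left]
  simp only [t, S.g_symm x (F.c _) v]

lemma co_Om : co F.c (S.Om x) = WithLp.toLp 2 ![1, 0, 0, 1, 0, 0] := by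
  have key : ∀ i j, ev (S.Om x) (F.c i) (S.J x (F.c j)) = if i = j then 1 else 0 := F.orth
  have a00 := key 0 0
  have a22 := key 2 2
  have a03 := key 0 3
  have a02 := key 0 2
  have a30 := key 3 0
  have a12 := key 1 2
  have a13 := key 1 3
  rw [F.j0] at a00
  rw [F.j2] at a22 a02 a12
  rw [F.j3, ev_neg_right] at a03 a13
  rw [F.j0] at a30
  simp at a00 a22 a03 a02 a30 a12 a13
  ext k
  fin_cases k <;> simp [co_apply, fi, se, a00, a22, a03, a02, a30, a13]

lemma co_pull (α : Form) : co F.c (pull (S.J x) α) = WithLp.toLp 2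
    ![co F.c α 0, -co F.c α 4, -co F.c α 5, co F.c α 3, -co F.c α 1, -co F.c α 2] := by
  ext k
  fin_cases k <;>
    simp [co_apply, fi, se, ev_pull, F.j0, F.j1, F.j2, F.j3, ev_neg_left, ev_neg_right,
      ← ev_skew α]

lemma co_add (α β : Form) : co F.c (α + β) = co F.c α + co F.c β := by
  ext k; simp [co_apply, ev_add]

lemma co_smul (a : ℝ) (α : Form) : co F.c (a • α) = a • co F.c α := by
  ext k; simp [co_apply, ev_smul]

lemma co_sub (α β : Form) : co F.c (α - β) = co F.c α - co F.c β := by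
  ext k; simp [co_apply, ev_sub]

/-- The frame scale. -/
noncomputable def dt : ℝ := det4 (F.c 0) (F.c 1) (F.c 2) (F.c 3)

lemma dt_pos : 0 < F.dt := by
  have hP : co F.c (S.Om x) = (1 / 2 : ℝ) • (co F.c (S.om x) + co F.c (pull (S.J x) (S.om x))) := by
    rw [Setup.Om, piP, F.co_smul, F.co_add]
  rw [F.co_Om, F.co_pull] at hP
  have e0 := congrArg (fun v : Form => v 0) hP
  have e1 := congrArg (fun v : Form => v 1) hP
  have e2 := congrArg (fun v : Form => v 2) hP
  have e3 := congrArg (fun v : Form => v 3) hP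
  simp at e0 e1 e2 e3
  have h := q_co F.c (S.om x) (S.om x)
  have hq : 0 < q (co F.c (S.om x)) (co F.c (S.om x)) := by
    simp only [q]
    have h4 : co F.c (S.om x) 4 = co F.c (S.om x) 1 := by linarith
    have h5 : co F.c (S.om x) 5 = co F.c (S.om x) 2 := by linarith
    have h0 : co F.c (S.om x) 0 = 1 := by linarith
    have h3 : co F.c (S.om x) 3 = 1 := by linarith
    rw [h0, h3, h4, h5]
    nlinarith [sq_nonneg (co F.c (S.om x) 1), sq_nonneg (co F.c (S.om x) 2)]
  rw [h] at hq
  exact (mul_pos_iff_of_pos_right (S.orient x)).1 hq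

lemma dt_kap : F.dt * S.kap x = 1 := by
  have h := q_co F.c (S.Om x) (S.Om x)
  rw [F.co_Om] at h
  have h2 : q (WithLp.toLp 2 ![1, 0, 0, 1, 0, 0] : Form) (WithLp.toLp 2 ![1, 0, 0, 1, 0, 0]) = 2 := by
    simp [q, Matrix.cons_val]
    norm_num
  rw [h2] at h
  simp only [Setup.kap, dt]
  linarith

lemma q_eq (α β : Form) : q α β = S.kap x * q (co F.c α) (co F.c β) := by
  rw [q_co, ← mul_assoc, mul_comm (S.kap x)]
  exact (by rw [show det4 (F.c 0) (F.c 1) (F.c 2) (F.c 3) = F.dt from rfl, F.dt_kap, one_mul])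

/-- An invariant form in the frame. -/
lemma co_inv {α : Form} (h : piM (S.J x) α = 0) :
    co F.c α 4 = -co F.c α 1 ∧ co F.c α 5 = -co F.c α 2 := by
  have h' : co F.c α - co F.c (pull (S.J x) α) = 0 := by
    have := congrArg (fun v : Form => co F.c ((2 : ℝ) • v)) h
    simp only [piM, smul_smul, ← F.co_sub] at this ⊢
    rw [show (2 : ℝ) * (1 / 2) = 1 by norm_num, one_smul, smul_zero] at this
    rw [this]
    ext k; simp [co_apply, ev_zero]
  rw [F.co_pull] at h'
  have e1 := congrArg (fun v : Form => v 1) h'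
  have e2 := congrArg (fun v : Form => v 2) h'
  simp at e1 e2
  constructor <;> linarith

end Frame

end Setup

end Vale.Agent.P204.Torus
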