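import Vale.Agent.P204.Torus.Frame

/-!
P204 on the four-torus: the pointwise algebra of positive invariant forms.
-/

namespace Vale.Agent.P204.Torus

namespace Setup

variable (S : Setup)

/-- The invariant form `g(u,u) Ω - g u ∧ ι_u Ω`. -/
noncomputable def line (x : V) (u : V) : Form :=
  S.g x u u • S.Om x - wedge (S.gcov x u) (iota u (S.Om x))

/-- The vector of the linear function `ξ ↦ q(h, ξ ∧ η)`. -/
noncomputable def vec (h : Form) (η : V) : V := fun i => q h (wedge (e i) η)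

lemma pair_gcov (x : V) (u v : V) : pair (S.gcov x u) v = S.g x u v := by
  conv_rhs => rw [sum_e v]
  simp only [pair, gcov, g, map_sum, map_smul, ev_sum_right, ev_smul_right]
  exact Finset.sum_congr rfl fun i _ => mul_comm _ _

lemma pair_vec (h : Form) (ξ η : V) : pair ξ (vec h η) = q h (wedge ξ η) := by
  simp only [pair_def, vec, q, wedge, ofSkew_apply, fi, se, Matrix.cons_val_zero,
    Matrix.cons_val_one, Matrix.cons_val]
  simp [e]
  ring

lemma g_eq_sum (x : V) (F : Frame S x) (u v : V) :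
    S.g x u v = F.t u 0 * F.t v 0 + F.t u 1 * F.t v 1 + F.t u 2 * F.t v 2 + F.t u 3 * F.t v 3 :=
  F.g_eq u v

namespace Frame

variable {S} {x : V} (F : Frame S x)

lemma q_inv {α β : Form} (hα : piM (S.J x) α = 0) (hβ : piM (S.J x) β = 0) :
    q α β = S.kap x * (co F.c α 0 * co F.c β 3 + co F.c α 3 * co F.c β 0
      - 2 * (co F.c α 1 * co F.c β 1 + co F.c α 2 * co F.c β 2)) := by
  rw [F.q_eq]
  simp only [q]
  rw [(F.co_inv hα).1, (F.co_inv hα).2, (F.co_inv hβ).1, (F.co_inv hβ).2]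
  ring

lemma q_Om (α : Form) : q α (S.Om x) = S.kap x * (co F.c α 0 + co F.c α 3) := by
  rw [F.q_eq, F.co_Om]
  simp [q, Matrix.cons_val]

lemma B_eq {h : Form} (hh : piM (S.J x) h = 0) (u : V) : S.B x h u u =
    co F.c h 0 * (F.t u 0 ^ 2 + F.t u 1 ^ 2) + co F.c h 3 * (F.t u 2 ^ 2 + F.t u 3 ^ 2)
      + 2 * co F.c h 1 * (F.t u 1 * F.t u 2 - F.t u 0 * F.t u 3)
      + 2 * co F.c h 2 * (F.t u 0 * F.t u 2 + F.t u 1 * F.t u 3) := by
  simp only [Setup.B]
  rw [F.ev_eq, F.t_J, ev_def, (F.co_inv hh).1, (F.co_inv hh).2]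
  simp [Matrix.cons_val]
  ring

end Frame

lemma exists_frame' (x : V) : Nonempty (Frame S x) := by
  obtain ⟨F, -⟩ := S.exists_frame x (u := e 0) (fun h => by
    simpa [e] using congrFun h 0)
  exact ⟨F⟩

lemma kap_pos (x : V) : 0 < S.kap x := by
  obtain ⟨F⟩ := S.exists_frame' x
  have h := F.dt_kap
  by_contra hle
  have : F.dt * S.kap x ≤ 0 := mul_nonpos_of_nonneg_of_nonpos F.dt_pos.le (not_lt.1 hle)
  linarith

lemma q_piP_piM (x : V) (α β : Form) : q (piP (S.J x) α) (piM (S.J x) β) = 0 := by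
  obtain ⟨F⟩ := S.exists_frame' x
  rw [F.q_eq]
  simp only [piP, piM, F.co_smul, F.co_add, F.co_sub, F.co_pull]
  simp [q, Matrix.cons_val]
  ring_nf
  simp

lemma q_piM_piP (x : V) (α β : Form) : q (piM (S.J x) α) (piP (S.J x) β) = 0 := by
  rw [q_comm]; exact S.q_piP_piM x β α

lemma q_piP_left (x : V) (α β : Form) : q (piP (S.J x) α) β = q α (piP (S.J x) β) := by
  conv_lhs => rw [← piP_add_piM (S.J x) β]
  conv_rhs => rw [← piP_add_piM (S.J x) α]
  rw [q_add_right, q_add_left, q_piP_piM, q_piM_piP]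

lemma q_decomp (x : V) (α β : Form) : q α β =
    q (piP (S.J x) α) (piP (S.J x) β) + q (piM (S.J x) α) (piM (S.J x) β) := by
  conv_lhs => rw [← piP_add_piM (S.J x) α, ← piP_add_piM (S.J x) β]
  rw [q_add_left, q_add_right, q_add_right, q_piP_piM, q_piM_piP]
  ring

lemma q_inv_piP {x : V} {h : Form} (hh : piM (S.J x) h = 0) (β : Form) :
    q h β = q h (piP (S.J x) β) := by
  conv_lhs => rw [← S.piP_eq_self hh]
  exact S.q_piP_left x h β

lemma q_anti_pos {x : V} {n : Form} (hn : piP (S.J x) n = 0) (h0 : n ≠ 0) : 0 < q n n := by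
  obtain ⟨F⟩ := S.exists_frame' x
  have h : co F.c (piP (S.J x) n) = 0 := by
    rw [hn]; ext k; simp [co_apply, ev_zero]
  simp only [piP, F.co_smul, F.co_add, F.co_pull] at h
  have e0 := congrArg (fun v : Form => v 0) h
  have e1 := congrArg (fun v : Form => v 1) h
  have e2 := congrArg (fun v : Form => v 2) h
  have e3 := congrArg (fun v : Form => v 3) h
  simp at e0 e1 e2 e3
  have hne : co F.c n 1 ≠ 0 ∨ co F.c n 2 ≠ 0 := by
    by_contra hc
    push Not at hc
    refine h0 (F.co_inj ?_)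
    ext k
    simp only [co_apply, ev_zero]
    have hk : ∀ k, co F.c n k = 0 := by
      intro k
      fin_cases k <;> simp <;> linarith [hc.1, hc.2]
    simpa [co_apply] using hk k
  rw [F.q_eq]
  refine mul_pos (S.kap_pos x) ?_
  simp only [q]
  have h4 : co F.c n 4 = co F.c n 1 := by linarith
  have h5 : co F.c n 5 = co F.c n 2 := by linarith
  have h00 : co F.c n 0 = 0 := by linarith
  rw [h00, h4, h5]
  rcases hne with hc | hc <;>
    nlinarith [mul_self_pos.2 hc, mul_self_nonneg (co F.c n 1), mul_self_nonneg (co F.c n 2)]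

lemma B_nonneg {x : V} {h : Form} (hh : S.Psd x h) (u : V) : 0 ≤ S.B x h u u := hh.2 u

lemma B_add_left (x : V) (h : Form) (u u' v : V) :
    S.B x h (u + u') v = S.B x h u v + S.B x h u' v := ev_add_left _ _ _ _

lemma B_smul_left (x : V) (h : Form) (a : ℝ) (u v : V) :
    S.B x h (a • u) v = a * S.B x h u v := ev_smul_left _ _ _ _

lemma B_add_right (x : V) (h : Form) (u v v' : V) :
    S.B x h u (v + v') = S.B x h u v + S.B x h u v' := by
  simp only [B, map_add, ev_add_right]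

lemma B_smul_right (x : V) (h : Form) (a : ℝ) (u v : V) :
    S.B x h u (a • v) = a * S.B x h u v := by
  simp only [B, map_smul, ev_smul_right]

lemma B_cs {x : V} {h : Form} (hh : S.Psd x h) (u v : V) :
    S.B x h u v ^ 2 ≤ S.B x h u u * S.B x h v v := by
  have key : ∀ s : ℝ, 0 ≤ S.B x h v v * (s * s) + 2 * S.B x h u v * s + S.B x h u u := fun s => by
    have := hh.2 (u + s • v)
    have h' : 0 ≤ S.B x h (u + s • v) (u + s • v) := this
    simp only [B_add_left, B_add_right, B_smul_left, B_smul_right] at h'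
    rw [S.B_symm hh.1 v u] at h'
    linarith
  have := discrim_le_zero key
  simp only [discrim] at this
  nlinarith

lemma coord_psd {x : V} {h : Form} (hh : S.Psd x h) (F : Frame S x) :
    0 ≤ co F.c h 0 ∧ 0 ≤ co F.c h 3 ∧
      co F.c h 1 ^ 2 + co F.c h 2 ^ 2 ≤ co F.c h 0 * co F.c h 3 := by
  have hv : ∀ s : Fin 4 → ℝ, 0 ≤ co F.c h 0 * (s 0 ^ 2 + s 1 ^ 2)
      + co F.c h 3 * (s 2 ^ 2 + s 3 ^ 2) + 2 * co F.c h 1 * (s 1 * s 2 - s 0 * s 3)
      + 2 * co F.c h 2 * (s 0 * s 2 + s 1 * s 3) := by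
    intro s
    have h' : 0 ≤ S.B x h (∑ i, s i • F.c i) (∑ i, s i • F.c i) := hh.2 _
    rw [F.B_eq hh.1, show F.t (∑ i, s i • F.c i) = s from funext fun i => F.g_sum s i] at h'
    exact h'
  set p := co F.c h 0
  set a := co F.c h 1
  set b := co F.c h 2
  set r := co F.c h 3
  have hp : 0 ≤ p := by simpa using hv ![1, 0, 0, 0]
  have hr : 0 ≤ r := by simpa using hv ![0, 0, 1, 0]
  refine ⟨hp, hr, ?_⟩
  have key : ∀ s : ℝ, 0 ≤ r * (a ^ 2 + b ^ 2) * (s * s) + 2 * (a ^ 2 + b ^ 2) * s + p := by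
    intro s
    have := hv ![1, 0, b * s, -(a * s)]
    simp [Matrix.cons_val] at this
    linarith
  have hd := discrim_le_zero key
  simp only [discrim] at hd
  rcases eq_or_lt_of_le (add_nonneg (sq_nonneg a) (sq_nonneg b)) with h0 | h0
  · rw [← h0]; positivity
  · by_contra hlt
    push Not at hlt
    nlinarith [mul_pos h0 (sub_pos.2 hlt)]

lemma q_Om_nonneg {x : V} {h : Form} (hh : S.Psd x h) : 0 ≤ q h (S.Om x) := by
  obtain ⟨F⟩ := S.exists_frame' x
  rw [F.q_Om]
  exact mul_nonneg (S.kap_pos x).le (add_nonneg (S.coord_psd hh F).1 (S.coord_psd hh F).2.1)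

lemma psd_eq_zero {x : V} {h : Form} (hh : S.Psd x h) (h0 : q h (S.Om x) = 0) : h = 0 := by
  obtain ⟨F⟩ := S.exists_frame' x
  rw [F.q_Om, mul_eq_zero] at h0
  obtain ⟨hp, hr, hab⟩ := S.coord_psd hh F
  have h' : co F.c h 0 + co F.c h 3 = 0 := h0.resolve_left (S.kap_pos x).ne'
  have e0 : co F.c h 0 = 0 := by linarith
  have e3 : co F.c h 3 = 0 := by linarith
  rw [e0, zero_mul] at hab
  have e1 : co F.c h 1 = 0 := by nlinarith [sq_nonneg (co F.c h 2)]
  have e2 : co F.c h 2 = 0 := by nlinarith [sq_nonneg (co F.c h 1)]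
  refine F.co_inj ?_
  have h4 := (F.co_inv hh.1).1
  have h5 := (F.co_inv hh.1).2
  ext k
  have hk : co F.c h k = 0 := by
    fin_cases k <;> first | assumption | (simp only [e1, e2, neg_zero] at h4 h5; assumption)
  simpa [co_apply, ev_zero] using hk

lemma q_psd_psd {x : V} {a b : Form} (ha : S.Psd x a) (hb : S.Psd x b) : 0 ≤ q a b := by
  obtain ⟨F⟩ := S.exists_frame' x
  rw [F.q_inv ha.1 hb.1]
  obtain ⟨hp, hr, hab⟩ := S.coord_psd ha F
  obtain ⟨hp', hr', hab'⟩ := S.coord_psd hb F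
  refine mul_nonneg (S.kap_pos x).le ?_
  set p := co F.c a 0
  set a1 := co F.c a 1
  set a2 := co F.c a 2
  set r := co F.c a 3
  set p' := co F.c b 0
  set b1 := co F.c b 1
  set b2 := co F.c b 2
  set r' := co F.c b 3
  have hcs : (a1 * b1 + a2 * b2) ^ 2 ≤ (p * r) * (p' * r') :=
    calc (a1 * b1 + a2 * b2) ^ 2 ≤ (a1 ^ 2 + a2 ^ 2) * (b1 ^ 2 + b2 ^ 2) := by
          nlinarith [sq_nonneg (a1 * b2 - a2 * b1)]
      _ ≤ _ := mul_le_mul hab hab' (by positivity) (by positivity)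
  nlinarith [sq_nonneg (p * r' - r * p'), mul_nonneg hp hr', mul_nonneg hr hp']

lemma q_wedge_gcov {x : V} {h : Form} (hh : piM (S.J x) h = 0) (u v : V) :
    q h (wedge (S.gcov x u) (iota v (S.Om x))) =
      S.g x u v * q h (S.Om x) - S.kap x * S.B x h u v := by
  obtain ⟨F⟩ := S.exists_frame' x
  have hB : S.B x h u v = ev (co F.c h) (F.t u) (F.t (S.J x v)) := F.ev_eq h u (S.J x v)
  have hO : ∀ w, ev (S.Om x) v w = ev (co F.c (S.Om x)) (F.t v) (F.t w) := fun w => F.ev_eq _ v w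
  have ht : ∀ i, F.t (F.c i) = fun j => if i = j then 1 else 0 := fun i => funext (F.orth i)
  have hw : co F.c (wedge (S.gcov x u) (iota v (S.Om x))) = WithLp.toLp 2 fun k =>
      F.t u (fi k) * ev (co F.c (S.Om x)) (F.t v) (F.t (F.c (se k)))
        - ev (co F.c (S.Om x)) (F.t v) (F.t (F.c (fi k))) * F.t u (se k) := by
    ext k
    simp only [co_apply, ev_wedge, S.pair_gcov, pair_iota, hO]
    rfl
  rw [F.q_eq, F.q_Om, hB, F.g_eq, F.t_J, hw, F.co_Om]
  simp only [q, ev_def, fi, se, ht, Matrix.cons_val_zero, Matrix.cons_val_one, Matrix.cons_val,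
    (F.co_inv hh).1, (F.co_inv hh).2]
  simp
  ring

lemma q_line {x : V} {h : Form} (hh : piM (S.J x) h = 0) (u : V) :
    q h (S.line x u) = S.kap x * S.B x h u u := by
  rw [line, q_sub_right, q_smul_right, S.q_wedge_gcov hh]
  ring

lemma line_psd (x : V) (u : V) : S.Psd x (S.line x u) := by
  have hJ : ∀ w, ev (S.Om x) u (S.J x w) = S.g x u w := fun w => rfl
  have hev : ∀ a b, ev (S.line x u) a b = S.g x u u * ev (S.Om x) a b -
      (S.g x u a * ev (S.Om x) u b - ev (S.Om x) u a * S.g x u b) := fun a b => by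
    simp only [line, ev_sub, ev_smul, ev_wedge, S.pair_gcov, pair_iota]
  have hgJ : ∀ w, S.g x u (S.J x w) = -ev (S.Om x) u w := fun w => by
    simp only [g, S.J_sq, ev_neg_right]
  refine ⟨form_ext fun a b => ?_, fun w => ?_⟩
  · rw [ev_piM, ev_zero, hev, hev, hJ, hJ, hgJ, hgJ, S.ev_inv (S.piM_Om x)]
    ring
  · have hcs : S.g x u w ^ 2 + ev (S.Om x) u w ^ 2 ≤ S.g x u u * S.g x w w := by
      rcases eq_or_ne u 0 with rfl | hu
      · simp [g, ev_def]
      obtain ⟨F, hF⟩ := S.exists_frame x hu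
      set s := Real.sqrt (S.g x u u)
      have hs : s ^ 2 = S.g x u u := Real.sq_sqrt (S.g_pos x hu).le
      have hw : S.g x w w = F.t w 0 ^ 2 + F.t w 1 ^ 2 + F.t w 2 ^ 2 + F.t w 3 ^ 2 := by
        rw [F.g_eq]; ring
      have h1 : S.g x u w = s * F.t w 0 := by
        rw [hF, S.g_smul_left, S.g_symm]; rfl
      have h2 : ev (S.Om x) u w = s * F.t w 1 := by
        have : ev (S.Om x) u w = S.g x (S.J x u) w := by
          rw [S.g_J_left, hgJ, neg_neg]
        rw [this, hF, map_smul, F.j0, S.g_smul_left, S.g_symm]; rfl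
      rw [h1, h2, hw, ← hs]
      nlinarith [sq_nonneg (s * F.t w 2), sq_nonneg (s * F.t w 3)]
    rw [hev, hJ, hgJ]
    have hOw : ev (S.Om x) w (S.J x w) = S.g x w w := rfl
    rw [hOw]
    nlinarith

lemma psd_of_dual {x : V} {h : Form} (hh : piM (S.J x) h = 0)
    (hd : ∀ b, S.Psd x b → 0 ≤ q h b) : S.Psd x h :=
  ⟨hh, fun u => by
    have h1 := hd _ (S.line_psd x u)
    rw [S.q_line hh] at h1
    exact (mul_nonneg_iff_of_pos_left (S.kap_pos x)).1 h1⟩

lemma psd_Om (x : V) : S.Psd x (S.Om x) :=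
  ⟨S.piM_Om x, fun u => by
    rcases eq_or_ne u 0 with rfl | hu
    · simp [ev_def]
    · exact (S.g_pos x hu).le⟩

lemma psd_add {x : V} {a b : Form} (ha : S.Psd x a) (hb : S.Psd x b) : S.Psd x (a + b) :=
  ⟨by rw [piM_add, ha.1, hb.1, add_zero], fun u => by
    rw [ev_add]; exact add_nonneg (ha.2 u) (hb.2 u)⟩

lemma psd_smul {x : V} {a : Form} {s : ℝ} (hs : 0 ≤ s) (ha : S.Psd x a) : S.Psd x (s • a) :=
  ⟨by rw [piM_smul, ha.1, smul_zero], fun u => by
    rw [ev_smul]; exact mul_nonneg hs (ha.2 u)⟩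

lemma B_vec_le {x : V} {h h' : Form} (hh : S.Psd x h) (hh' : S.Psd x h') (w : V) :
    S.B x h' (vec h (iota w (S.Om x))) (vec h (iota w (S.Om x)))
      ≤ S.g x w w * q h (S.Om x) * q h h' := by
  rcases eq_or_ne w 0 with rfl | hw
  · have : iota (0 : V) (S.Om x) = 0 := funext fun j => by simp [iota, ev_def]
    have hv : vec h (0 : V) = 0 := funext fun j => by
      simp [vec, q, wedge, ofSkew_apply, pair]
    simp [this, hv, B, g, ev_def]
  obtain ⟨F, hF⟩ := S.exists_frame x hw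
  set s := Real.sqrt (S.g x w w) with hs
  set v := vec h (iota w (S.Om x)) with hv
  have hpos : 0 < S.g x w w := S.g_pos x hw
  have hs2 : S.g x w w = s ^ 2 := (Real.sq_sqrt hpos.le).symm
  have hsum : ∀ i, F.t v i =
      s * ((if i = 0 then 1 else 0) * q h (S.Om x) - S.kap x * S.B x h (F.c i) (F.c 0)) := by
    intro i
    rw [Frame.t, S.g_symm, ← S.pair_gcov, hv, pair_vec, S.q_wedge_gcov hh.1]
    rw [show S.g x (F.c i) w = s * (if i = 0 then 1 else 0) by
      rw [S.g_symm, hF, S.g_smul_left, F.orth]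
      rcases eq_or_ne i 0 with rfl | hi
      · simp
      · simp [hi, Ne.symm hi]]
    rw [show S.B x h (F.c i) w = s * S.B x h (F.c i) (F.c 0) by rw [hF, S.B_smul_right]]
    ring
  have hB : ∀ i, S.B x h (F.c i) (F.c 0) = co F.c h 0 * (if i = 0 then 1 else 0)
      + co F.c h 1 * (if i = 3 then -1 else 0) + co F.c h 2 * (if i = 2 then 1 else 0) := by
    intro i
    simp only [Setup.B, F.j0]
    have h4 := (F.co_inv hh.1).1
    have h5 := (F.co_inv hh.1).2
    simp only [co_apply, fi, se, Matrix.cons_val] at h4 h5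
    fin_cases i <;> simp [co_apply, fi, se, ev_self, h4, h5, ev_skew h (F.c 2) (F.c 1)]
  rw [F.B_eq hh'.1, hsum 0, hsum 1, hsum 2, hsum 3, hB 0, hB 1, hB 2, hB 3, hs2, F.q_Om,
    F.q_inv hh.1 hh'.1]
  obtain ⟨hp, hr, hab⟩ := S.coord_psd hh F
  obtain ⟨hp', hr', hab'⟩ := S.coord_psd hh' F
  have hkey := S.q_psd_psd hh hh'
  rw [F.q_inv hh.1 hh'.1] at hkey
  set k := S.kap x
  have hk : 0 < k := S.kap_pos x
  have hkey' : 0 ≤ co F.c h 0 * co F.c h' 3 + co F.c h 3 * co F.c h' 0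
      - 2 * (co F.c h 1 * co F.c h' 1 + co F.c h 2 * co F.c h' 2) :=
    (mul_nonneg_iff_of_pos_left hk).1 hkey
  set p := co F.c h 0
  set a := co F.c h 1
  set b := co F.c h 2
  set r := co F.c h 3
  set p' := co F.c h' 0
  set a' := co F.c h' 1
  set b' := co F.c h' 2
  set r' := co F.c h' 3
  simp
  nlinarith [mul_nonneg (mul_nonneg hp hkey') (mul_nonneg (sq_nonneg s) (sq_nonneg k)),
    mul_nonneg (mul_nonneg hr' (sub_nonneg.2 hab)) (mul_nonneg (sq_nonneg s) (sq_nonneg k))]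

end Setup

end Vale.Agent.P204.Torus
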