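import Vale.Agent.P204.Torus.Char

/-!
P204 on the four-torus: integrals over the cube of periodic functions and scalar Fourier series.
-/

open MeasureTheory Set Filter Topology UnitAddTorus
open scoped BigOperators ComplexConjugate ENNReal

namespace Vale.Agent.P204.Torus

noncomputable local instance circleSpace : MeasureSpace UnitAddCircle :=
  ⟨AddCircle.haarAddCircle⟩

local instance circleHaar : Measure.IsAddHaarMeasure (volume : Measure UnitAddCircle) :=
  inferInstanceAs (Measure.IsAddHaarMeasure AddCircle.haarAddCircle)

local instance circleProb : IsProbabilityMeasure (volume : Measure UnitAddCircle) :=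
  inferInstanceAs (IsProbabilityMeasure AddCircle.haarAddCircle)

/-- The torus. -/
abbrev TT := UnitAddTorus (Fin 4)

/-- The class of a point. -/
noncomputable def proj (x : V) : TT := Pi.map (fun _ => (QuotientAddGroup.mk : ℝ → UnitAddCircle)) x

lemma proj_openQuotient : IsOpenQuotientMap proj :=
  IsOpenQuotientMap.piMap fun _ => QuotientAddGroup.isOpenQuotientMap_mk

lemma continuous_proj : Continuous proj := proj_openQuotient.continuous

lemma proj_add (x y : V) : proj (x + y) = proj x + proj y := rfl

lemma proj_eq_proj {x y : V} (h : proj x = proj y) : ∃ n : Freq, y = x + intVec n := by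
  have h' : ∀ i, ∃ k : ℤ, (k : ℝ) = y i - x i := fun i => by
    have := congrFun h i
    change (x i : UnitAddCircle) = (y i : UnitAddCircle) at this
    rw [eq_comm, ← sub_eq_zero, ← AddCircle.coe_sub, AddCircle.coe_eq_zero_iff] at this
    obtain ⟨k, hk⟩ := this
    exact ⟨k, by rw [zsmul_eq_mul, mul_one] at hk; exact hk⟩
  choose k hk using h'
  exact ⟨k, funext fun i => by simp [intVec, hk i]⟩

lemma mFourier_proj (ξ : Freq) (x : V) : mFourier ξ (proj x) = chr ξ x := by
  simp only [mFourier, ContinuousMap.coe_mk, chr, Complex.ofReal_sum, Finset.mul_sum,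
    Complex.exp_sum]
  refine Finset.prod_congr rfl fun i _ => ?_
  change fourier (ξ i) ((x i : UnitAddCircle)) = _
  rw [fourier_coe_apply]
  congr 1
  push_cast
  ring

/-- The descent of a periodic function. -/
noncomputable def lift' {α : Type*} (f : V → α) (t : TT) : α :=
  f fun i => (AddCircle.equivIoc 1 (0 : ℝ) (t i)).1

lemma lift'_proj {α : Type*} {f : V → α} (hf : Periodic f) (x : V) : lift' f (proj x) = f x := by
  have h : proj (fun i => (AddCircle.equivIoc 1 (0 : ℝ) (proj x i)).1) = proj x :=
    funext fun i => AddCircle.coe_equivIoc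
  obtain ⟨n, hn⟩ := proj_eq_proj h
  conv_rhs => rw [hn, hf]
  rfl

lemma continuous_lift' {α : Type*} [TopologicalSpace α] {f : V → α} (hf : Periodic f)
    (hc : Continuous f) : Continuous (lift' f) :=
  proj_openQuotient.continuous_comp_iff.1 (by
    rw [show lift' f ∘ proj = f from funext (lift'_proj hf)]; exact hc)

lemma measurable_lift' {α : Type*} [MeasurableSpace α] {f : V → α} (hf : Measurable f) :
    Measurable (lift' f) :=
  hf.comp (measurable_pi_lambda _ fun i =>
    measurable_subtype_coe.comp ((AddCircle.measurableEquivIoc 1 (0 : ℝ)).measurable.comp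
      (measurable_pi_apply i)))

lemma cube_ae : cube =ᵐ[volume] {x : V | ∀ i, x i ∈ Ioc (0 : ℝ) (0 + 1)} := by
  have : {x : V | ∀ i, x i ∈ Ioc (0 : ℝ) (0 + 1)} = Set.pi univ fun _ : Fin 4 => Ioc (0 : ℝ) 1 := by
    ext x; simp
  rw [this, cube, volume_pi]
  exact (Measure.univ_pi_Ico_ae_eq_Icc (f := fun _ : Fin 4 => (0 : ℝ)) (g := fun _ => (1 : ℝ))).trans
    (Measure.univ_pi_Ioc_ae_eq_Icc (f := fun _ : Fin 4 => (0 : ℝ)) (g := fun _ => (1 : ℝ))).symm

lemma measurableSet_cube : MeasurableSet cube := MeasurableSet.univ_pi fun _ => measurableSet_Ico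

lemma volume_cube : volume cube = 1 := by simp [cube, Real.volume_Ico, volume_pi_pi]

instance probability_cube : IsProbabilityMeasure (volume.restrict cube) :=
  ⟨by rw [Measure.restrict_apply_univ, volume_cube]⟩

lemma proj_mem_ae {α : Type*} (f : V → α) :
    ∀ᵐ x ∂volume.restrict cube, lift' f (proj x) = f x := by
  rw [Measure.restrict_congr_set cube_ae]
  refine (ae_restrict_iff' ?_).2 (Eventually.of_forall fun x hx => ?_)
  · exact MeasurableSet.univ_pi' fun _ => measurableSet_Ioc
  · simp only [lift']
    congr 1
    funext i
    exact AddCircle.equivIoc_coe_of_mem (p := (1 : ℝ)) (a := 0) (hx i)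

lemma integral_torus {α : Type*} [NormedAddCommGroup α] [NormedSpace ℝ α] (f : V → α) :
    ∫ t : TT, lift' f t = ∫ x in cube, f x := by
  rw [UnitAddTorus.integral_preimage (lift' f) (fun _ : Fin 4 => (0 : ℝ)),
    setIntegral_congr_set cube_ae.symm]
  exact integral_congr_ae (proj_mem_ae f)

lemma lintegral_torus (f : V → ℝ≥0∞) : ∫⁻ t : TT, lift' f t = ∫⁻ x in cube, f x := by
  rw [UnitAddTorus.lintegral_preimage (lift' f) (fun _ : Fin 4 => (0 : ℝ)),
    setLIntegral_congr cube_ae.symm]
  exact lintegral_congr_ae (proj_mem_ae f)

lemma measurePreserving_proj : MeasurePreserving proj (volume.restrict cube) (volume : Measure TT) :=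
  ⟨continuous_proj.measurable, Measure.ext fun s hs => by
    rw [Measure.map_apply continuous_proj.measurable hs, ← lintegral_indicator_one hs]
    have h := lintegral_torus (fun x => s.indicator (1 : TT → ℝ≥0∞) (proj x))
    have e : lift' (fun x => s.indicator (1 : TT → ℝ≥0∞) (proj x)) = s.indicator 1 :=
      funext fun t => congrArg _ (funext fun i => AddCircle.coe_equivIoc)
    rw [e] at h
    rw [h, ← lintegral_indicator_one (continuous_proj.measurable hs)]
    rfl⟩

lemma integral_cube_add {α : Type*} [NormedAddCommGroup α] [NormedSpace ℝ α] {f : V → α}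
    (hf : Periodic f) (v : V) : ∫ x in cube, f (x + v) = ∫ x in cube, f x := by
  rw [← integral_torus, ← integral_torus]
  have h := integral_add_right_eq_self (μ := (volume : Measure TT)) (lift' f) (proj v)
  refine (integral_congr_ae (Eventually.of_forall fun t => ?_)).trans h
  obtain ⟨x, rfl⟩ := proj_openQuotient.surjective t
  rw [← proj_add, lift'_proj hf]
  exact lift'_proj (f := fun y => f (y + v))
    (fun y n => by show f (y + intVec n + v) = f (y + v); rw [add_right_comm]; exact hf _ n) x

lemma integral_cube_sub {α : Type*} [NormedAddCommGroup α] [NormedSpace ℝ α] {f : V → α}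
    (hf : Periodic f) (v : V) : ∫ x in cube, f (x - v) = ∫ x in cube, f x := by
  simpa only [sub_eq_add_neg] using integral_cube_add hf (-v)

instance negInvariant_TT : (volume : Measure TT).IsNegInvariant := by
  have h : Measure.IsAddHaarMeasure (volume : Measure TT) :=
    inferInstanceAs (Measure.IsAddHaarMeasure (Measure.pi fun _ : Fin 4 => (volume : Measure UnitAddCircle)))
  have : Measure.Regular (volume : Measure TT) := inferInstance
  exact Measure.IsAddHaarMeasure.isNegInvariant_of_regular _

lemma integral_cube_neg {α : Type*} [NormedAddCommGroup α] [NormedSpace ℝ α] {f : V → α}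
    (hf : Periodic f) : ∫ x in cube, f (-x) = ∫ x in cube, f x := by
  have hg : Periodic fun x => f (-x) := fun x n => by
    show f (-(x + intVec n)) = f (-x)
    rw [neg_add, show -intVec n = intVec (-n) by funext i; simp [intVec]]; exact hf _ _
  rw [← integral_torus, ← integral_torus]
  refine (integral_congr_ae (Eventually.of_forall fun t => ?_)).trans
    (integral_neg_eq_self (lift' f) (volume : Measure TT))
  obtain ⟨x, rfl⟩ := proj_openQuotient.surjective t
  rw [lift'_proj hg, show -proj x = proj (-x) from rfl, lift'_proj hf]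

lemma integrableOn_cube {α : Type*} [NormedAddCommGroup α] {f : V → α} (hf : Continuous f) :
    IntegrableOn f cube :=
  (hf.continuousOn.integrableOn_compact (isCompact_univ_pi fun _ => isCompact_Icc)).mono_set
    (Set.pi_mono fun _ _ => Ico_subset_Icc_self)

lemma memLp_cube {α : Type*} [NormedAddCommGroup α] {f : V → α} (hf : Continuous f)
    (hp : Periodic f) (p : ℝ≥0∞) : MemLp f p (volume.restrict cube) := by
  obtain ⟨C, hC⟩ := isCompact_univ.exists_bound_of_continuousOn (continuous_lift' hp hf).continuousOn
  exact MemLp.of_bound hf.aestronglyMeasurable C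
    (Eventually.of_forall fun x => by simpa [lift'_proj hp] using hC (proj x) (mem_univ _))

lemma coefS_eq (f : V → ℂ) (ξ : Freq) : coefS f ξ = mFourierCoeff (lift' f) ξ := by
  rw [coefS, mFourierCoeff, ← integral_torus]
  refine integral_congr_ae (Eventually.of_forall fun t => ?_)
  simp only [lift', smul_eq_mul]
  congr 1
  rw [← mFourier_proj]
  congr 1
  funext i
  exact AddCircle.coe_equivIoc

/-- The section of `proj` with values in the shifted cube. -/
noncomputable def sec (t : TT) : V := lift' id t

lemma lift'_eq_sec {α : Type*} (f : V → α) : lift' f = f ∘ sec := rfl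

lemma measurePreserving_sec : MeasurePreserving sec (volume : Measure TT) (volume.restrict cube) := by
  have hm : Measurable sec := measurable_lift' measurable_id
  refine ⟨hm, Measure.ext fun s hs => ?_⟩
  rw [Measure.map_apply hm hs, ← lintegral_indicator_one (hm hs), ← lintegral_indicator_one hs]
  exact lintegral_torus (s.indicator 1)

lemma memLp_lift {α : Type*} [NormedAddCommGroup α] {f : V → α} {p : ℝ≥0∞}
    (hf : MemLp f p (volume.restrict cube)) : MemLp (lift' f) p (volume : Measure TT) :=
  hf.comp_measurePreserving measurePreserving_sec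

end Vale.Agent.P204.Torus
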