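import Mathlib

/-!
P204, torus: a linear space of continuous functions without a positive element is annihilated by a
finite positive measure; a barycentre of a finite measure supported in convex fibres.
-/

namespace Vale.Agent.P204.Torus

open MeasureTheory Set
open scoped CompactlySupported

variable {X : Type*} [TopologicalSpace X] [CompactSpace X] [T2Space X] [MeasurableSpace X]
  [BorelSpace X]

lemma exists_annihilating_measure (W : Submodule ℝ C(X, ℝ))
    (h : ∀ f ∈ W, ¬ ∀ x, 0 < f x) :
    ∃ μ : Measure X, IsFiniteMeasure μ ∧ μ ≠ 0 ∧ ∀ f ∈ W, ∫ x, f x ∂μ = 0 := by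
  have : Nonempty X := by
    by_contra hX
    exact h 0 W.zero_mem fun x => (hX ⟨x⟩).elim
  set O : Set C(X, ℝ) := {f | ∀ x, 0 < f x}
  have hOopen : IsOpen O := by
    refine Metric.isOpen_iff.2 fun f hf => ?_
    obtain ⟨x0, -, hx0⟩ := isCompact_univ.exists_isMinOn univ_nonempty f.continuous.continuousOn
    refine ⟨f x0, hf x0, fun g hg x => ?_⟩
    have h1 := (ContinuousMap.dist_apply_le_dist (f := g) (g := f) x).trans_lt hg
    rw [Real.dist_eq] at h1
    have h2 : f x0 ≤ f x := hx0 (mem_univ x)
    linarith [(abs_lt.1 h1).1]
  have hOconv : Convex ℝ O := by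
    intro f hf g hg a b ha hb hab x
    simp only [ContinuousMap.add_apply, ContinuousMap.smul_apply, smul_eq_mul]
    rcases ha.eq_or_lt with rfl | ha'
    · rw [zero_add] at hab; subst hab; simpa using hg x
    · exact add_pos_of_pos_of_nonneg (mul_pos ha' (hf x)) (mul_nonneg hb (hg x).le)
  obtain ⟨Lam, c, hlt, hge⟩ := geometric_hahn_banach_open hOconv hOopen W.convex
    (Set.disjoint_left.2 fun f hf hfW => h f hfW hf)
  have hc : c ≤ 0 := by simpa using hge 0 W.zero_mem
  have hW : ∀ f ∈ W, Lam f = 0 := by
    intro f hf
    by_contra hne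
    have := hge (((c - 1) / Lam f) • f) (W.smul_mem _ hf)
    rw [map_smul, smul_eq_mul, div_mul_cancel₀ _ hne] at this
    linarith
  set one : C(X, ℝ) := ContinuousMap.const X 1
  have hone : Lam one < c := hlt one fun x => one_pos
  have hneg : ∀ f : C(X, ℝ), (∀ x, 0 ≤ f x) → Lam f ≤ 0 := by
    intro f hf
    by_contra hp
    push Not at hp
    set t : ℝ := -Lam one / Lam f + 1
    have hlam1 : Lam one < 0 := hone.trans_le hc
    have ht : 0 < t := by
      have : 0 < -Lam one / Lam f := div_pos (by linarith) hp
      simp only [t]; linarith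
    have h1 := hlt (t • f + one) fun x => by
      simp only [ContinuousMap.add_apply, ContinuousMap.smul_apply, smul_eq_mul, one,
        ContinuousMap.const_apply]
      have := mul_nonneg ht.le (hf x)
      linarith
    rw [map_add, map_smul, smul_eq_mul] at h1
    have : t * Lam f = -Lam one + Lam f := by simp only [t]; field_simp
    linarith
  let P : C_c(X, ℝ) →ₗ[ℝ] ℝ :=
    { toFun := fun f => -Lam f.toContinuousMap
      map_add' := fun f g => by
        rw [show (f + g).toContinuousMap = f.toContinuousMap + g.toContinuousMap from rfl,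
          map_add]
        ring
      map_smul' := fun r f => by
        rw [show (r • f).toContinuousMap = r • f.toContinuousMap from rfl, map_smul]
        simp }
  let Λ : C_c(X, ℝ) →ₚ[ℝ] ℝ := PositiveLinearMap.mk₀ P fun f hf => by
    have := hneg f.toContinuousMap fun x => hf x
    simp only [P, LinearMap.coe_mk, AddHom.coe_mk]
    linarith
  refine ⟨RealRMK.rieszMeasure Λ, inferInstance, fun h0 => ?_, fun f hf => ?_⟩
  · have h1 := RealRMK.integral_rieszMeasure Λ (CompactlySupportedContinuousMap.continuousMapEquiv one)
    rw [h0] at h1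
    simp only [integral_zero_measure] at h1
    have h2 : (0 : ℝ) = -Lam one := h1
    linarith
  · have h1 := RealRMK.integral_rieszMeasure Λ (CompactlySupportedContinuousMap.continuousMapEquiv f)
    refine h1.trans ?_
    change -Lam f = 0
    rw [hW f hf, neg_zero]

end Vale.Agent.P204.Torus
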