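import Vale.Agent.P204.Torus.Alg
import Vale.Agent.P204.Torus.SepRiesz

/-!
P204, torus, step 1: if no compatible form exists, a positive invariant current annihilates every
closed invariant form.
-/

namespace Vale.Agent.P204.Torus

open MeasureTheory ProbabilityTheory Set
open scoped BigOperators

lemma continuous_coord (k : Fin 6) : Continuous fun α : Form => α k :=
  (continuous_apply k).comp (PiLp.continuous_ofLp 2 fun _ : Fin 6 => ℝ)

lemma continuous_q_comp {X : Type*} [TopologicalSpace X] {a b : X → Form} (ha : Continuous a)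
    (hb : Continuous b) : Continuous fun x => q (a x) (b x) := by
  have h : ∀ k, Continuous fun x => a x k := fun k => (continuous_coord k).comp ha
  have h' : ∀ k, Continuous fun x => b x k := fun k => (continuous_coord k).comp hb
  unfold q
  fun_prop

lemma continuous_ev_comp {X : Type*} [TopologicalSpace X] {a : X → Form} {u v : X → V}
    (ha : Continuous a) (hu : Continuous u) (hv : Continuous v) :
    Continuous fun x => ev (a x) (u x) (v x) := by
  have h : ∀ k, Continuous fun x => a x k := fun k => (continuous_coord k).comp ha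
  unfold ev
  fun_prop

/-- `h ↦ q h α` as a continuous linear map. -/
noncomputable def qLeft (α : Form) : Form →L[ℝ] ℝ :=
  LinearMap.toContinuousLinearMap
    { toFun := fun h => q h α
      map_add' := fun a b => q_add_left a b α
      map_smul' := fun r a => q_smul_left r a α }

/-- `h ↦ ev h u v` as a continuous linear map. -/
noncomputable def evLeft (u v : V) : Form →L[ℝ] ℝ :=
  LinearMap.toContinuousLinearMap
    { toFun := fun h => ev h u v
      map_add' := fun a b => ev_add a b u v
      map_smul' := fun r a => ev_smul r a u v }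

/-- Reduction to the fundamental cube. -/
noncomputable def red (y : V) : V := fun i => Int.fract (y i)

lemma red_mem (y : V) : red y ∈ cube := fun i _ => ⟨Int.fract_nonneg _, Int.fract_lt_one _⟩

lemma periodic_red {α : Type*} {f : V → α} (hf : Periodic f) (y : V) : f (red y) = f y := by
  have h : red y + intVec (fun i => ⌊y i⌋) = y := funext fun i => Int.fract_add_floor (y i)
  conv_rhs => rw [← h]
  rw [hf]

lemma measurable_red : Measurable red :=
  measurable_pi_lambda _ fun i => measurable_fract.comp (measurable_pi_apply i)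

namespace Setup

variable (S : Setup)

lemma inv_iff (y : V) (h : Form) :
    piM (S.J y) h = 0 ↔ ∀ u v, ev h (S.J y u) (S.J y v) = ev h u v :=
  ⟨fun h0 u v => S.ev_inv h0 u v, fun h0 => form_ext fun u v => by
    rw [ev_piM, h0, ev_zero, sub_self, zero_div]⟩

lemma q_Om_self_pos (y : V) : 0 < q (S.Om y) (S.Om y) := by
  have := S.kap_pos y
  simp only [kap] at this
  linarith

lemma periodic_Om : Periodic S.Om := fun x n => by
  simp only [Om, S.J_smooth.periodic x n, S.om_smooth.periodic x n]

lemma periodic_psd {y : V} {h : Form} (hh : S.Psd y h) : S.Psd (red y) h := by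
  simpa only [Psd, periodic_red S.J_smooth.periodic y] using hh

lemma continuous_J_apply {X : Type*} [TopologicalSpace X] {a : X → V} {u : X → V}
    (ha : Continuous a) (hu : Continuous u) : Continuous fun x => S.J (a x) (u x) :=
  (S.J_smooth.smooth.continuous.comp ha).clm_apply hu

lemma continuous_Om : Continuous S.Om := by
  have h : ∀ k, Continuous fun y => pull (S.J y) (S.om y) k := fun k =>
    continuous_ev_comp S.om_smooth.smooth.continuous
      (S.continuous_J_apply continuous_id continuous_const)
      (S.continuous_J_apply continuous_id continuous_const)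
  have h2 : Continuous fun y => pull (S.J y) (S.om y) :=
    (PiLp.continuous_toLp 2 _).comp (continuous_pi h)
  exact (S.om_smooth.smooth.continuous.add h2).const_smul (1 / 2 : ℝ)

lemma isClosed_psd : IsClosed {p : V × Form | S.Psd p.1 p.2} := by
  simp only [Psd, inv_iff, setOf_and, setOf_forall]
  refine (isClosed_iInter fun u => isClosed_iInter fun v => isClosed_eq ?_ ?_).inter
    (isClosed_iInter fun u => isClosed_le continuous_const ?_)
  · exact continuous_ev_comp continuous_snd (S.continuous_J_apply continuous_fst continuous_const)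
      (S.continuous_J_apply continuous_fst continuous_const)
  · exact continuous_ev_comp continuous_snd continuous_const continuous_const
  · exact continuous_ev_comp continuous_snd continuous_const
      (S.continuous_J_apply continuous_fst continuous_const)

/-- Normalised positive forms. -/
def Unit1 : Set (V × Form) := {p | S.Psd p.1 p.2 ∧ q p.2 (S.Om p.1) = 1}

lemma isClosed_unit1 : IsClosed S.Unit1 :=
  S.isClosed_psd.inter (isClosed_eq
    (continuous_q_comp continuous_snd (S.continuous_Om.comp continuous_fst)) continuous_const)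

lemma exists_bound : ∃ R : ℝ, ∀ p ∈ S.Unit1, ‖p.2‖ ≤ R := by
  have hQ : IsCompact ((Icc (0 : V) 1 ×ˢ Metric.sphere (0 : Form) 1) ∩ {p | S.Psd p.1 p.2}) :=
    ((isCompact_Icc).prod (isCompact_sphere 0 1)).inter_right S.isClosed_psd
  obtain ⟨c, hc, hle⟩ := hQ.exists_forall_le'
    (continuous_q_comp continuous_snd (S.continuous_Om.comp continuous_fst)).continuousOn
    (a := 0) fun p hp => lt_of_le_of_ne (S.q_Om_nonneg hp.2) fun h0 => by
      have := hp.1.2
      simp [S.psd_eq_zero hp.2 h0.symm] at this
  refine ⟨1 / c, fun p hp => ?_⟩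
  have h0 : p.2 ≠ 0 := fun h0 => by
    have := hp.2
    simp [q, h0] at this
  have hn : 0 < ‖p.2‖ := norm_pos_iff.2 h0
  have hmem : (red p.1, ‖p.2‖⁻¹ • p.2) ∈
      (Icc (0 : V) 1 ×ˢ Metric.sphere (0 : Form) 1) ∩ {p | S.Psd p.1 p.2} := by
    refine ⟨⟨⟨fun i => (red_mem p.1 i trivial).1, fun i => (red_mem p.1 i trivial).2.le⟩, ?_⟩,
      S.psd_smul (inv_nonneg.2 hn.le) (S.periodic_psd hp.1)⟩
    simp [norm_smul, hn.ne']
  have h1 := hle _ hmem
  simp only [Function.comp_apply, periodic_red S.periodic_Om, q_smul_left, hp.2, mul_one] at h1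
  rw [le_div_iff₀ hc, mul_comm, ← le_div_iff₀ hn, one_div]
  exact h1

/-- A fixed normalised positive form. -/
noncomputable def unitForm (y : V) : Form := (q (S.Om y) (S.Om y))⁻¹ • S.Om y

lemma unitForm_mem (y : V) : (y, S.unitForm y) ∈ S.Unit1 := by
  have := S.q_Om_self_pos y
  refine ⟨S.psd_smul (inv_nonneg.2 this.le) (S.psd_Om y), ?_⟩
  simp only [unitForm, q_smul_left]
  exact inv_mul_cancel₀ this.ne'

/-- The compact set of normalised positive forms over the closed cube. -/
def Base : Set (V × Form) := (Icc (0 : V) 1 ×ˢ univ) ∩ S.Unit1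

lemma isCompact_base : IsCompact S.Base := by
  obtain ⟨R, hR⟩ := S.exists_bound
  refine ((isCompact_Icc (a := (0 : V)) (b := 1)).prod
    (isCompact_closedBall (0 : Form) R)).of_isClosed_subset
    ((isClosed_Icc.prod isClosed_univ).inter S.isClosed_unit1) fun p hp => ⟨hp.1.1, ?_⟩
  exact mem_closedBall_zero_iff.2 (hR p hp.2)

lemma closedInv_add {α β : V → Form} (hα : S.ClosedInv α) (hβ : S.ClosedInv β) :
    S.ClosedInv fun x => α x + β x := by
  refine ⟨⟨hα.1.smooth.add hβ.1.smooth, fun x n => by
    simp only [hα.1.periodic x n, hβ.1.periodic x n]⟩, fun x u v w => ?_, fun x => ?_⟩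
  · have hd := ((hα.1.smooth.differentiable (by simp) x).hasFDerivAt.add
      (hβ.1.smooth.differentiable (by simp) x).hasFDerivAt).fderiv
    have e : fderiv ℝ (fun x => α x + β x) x = fderiv ℝ α x + fderiv ℝ β x := hd
    simp only [e, add_apply, ev_add]
    linarith [hα.2.1 x u v w, hβ.2.1 x u v w]
  · refine (S.inv_iff x _).2 fun u v => ?_
    simp only [ev_add, (S.inv_iff x _).1 (hα.2.2 x) u v,
      (S.inv_iff x _).1 (hβ.2.2 x) u v]

lemma closedInv_smul {α : V → Form} (hα : S.ClosedInv α) (c : ℝ) :
    S.ClosedInv fun x => c • α x := by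
  refine ⟨⟨hα.1.smooth.const_smul c, fun x n => by simp only [hα.1.periodic x n]⟩,
    fun x u v w => ?_, fun x => ?_⟩
  · have e : fderiv ℝ (fun x => c • α x) x = c • fderiv ℝ α x :=
      ((hα.1.smooth.differentiable (by simp) x).hasFDerivAt.const_smul c).fderiv
    simp only [e, smul_apply, ev_smul]
    linear_combination c * hα.2.1 x u v w
  · refine (S.inv_iff x _).2 fun u v => ?_
    simp only [ev_smul, (S.inv_iff x _).1 (hα.2.2 x) u v]

lemma closedInv_zero : S.ClosedInv fun _ => 0 := by
  refine ⟨⟨contDiff_const, fun _ _ => rfl⟩, fun x u v w => ?_, fun x => ?_⟩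
  · simp [ev]
  · exact (S.inv_iff x _).2 fun u v => by simp [ev]

/-- The pairings with closed invariant forms. -/
noncomputable def pairings : Submodule ℝ C(S.Base, ℝ) where
  carrier := {f | ∃ α, S.ClosedInv α ∧ ∀ p : S.Base, f p = q p.1.2 (α p.1.1)}
  add_mem' := by
    rintro f g ⟨α, hα, hf⟩ ⟨β, hβ, hg⟩
    exact ⟨_, S.closedInv_add hα hβ, fun p => by
      rw [ContinuousMap.add_apply, hf p, hg p, q_add_right]⟩
  zero_mem' := ⟨_, S.closedInv_zero, fun p => by simp [q]⟩
  smul_mem' := by
    rintro c f ⟨α, hα, hf⟩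
    exact ⟨_, S.closedInv_smul hα c, fun p => by
      rw [ContinuousMap.smul_apply, hf p, q_smul_right, smul_eq_mul]⟩

lemma compatible_of_pos {α : V → Form} (hα : S.ClosedInv α)
    (h : ∀ p ∈ S.Base, 0 < q p.2 (α p.1)) : S.Compatible α := by
  refine ⟨hα, fun x u hu => ?_⟩
  set y := red x
  have hc : 0 < q (S.line y u) (S.Om y) := by
    rw [q_comm, S.q_line (S.piM_Om y)]
    exact mul_pos (S.kap_pos y) (S.g_pos y hu)
  have hmem : (y, (q (S.line y u) (S.Om y))⁻¹ • S.line y u) ∈ S.Base := by
    refine ⟨⟨⟨fun i => (red_mem x i trivial).1, fun i => (red_mem x i trivial).2.le⟩, trivial⟩,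
      S.psd_smul (inv_nonneg.2 hc.le) (S.line_psd y u), ?_⟩
    simp only [q_smul_left]
    exact inv_mul_cancel₀ hc.ne'
  have h1 := h _ hmem
  simp only [q_smul_left] at h1
  rw [q_comm (S.line y u) (α y), S.q_line (hα.2.2 y)] at h1
  have h2 := pos_of_mul_pos_right (pos_of_mul_pos_right h1 (inv_nonneg.2 hc.le)) (S.kap_pos y).le
  simpa only [B, y, periodic_red hα.1.periodic, periodic_red S.J_smooth.periodic] using h2

/-- A finite measure on pairs of a point and a normalised positive form. -/
lemma exists_pair_measure (hno : ¬ ∃ α, S.Compatible α) :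
    ∃ ρ : Measure (V × Form), IsFiniteMeasure ρ ∧ ρ ≠ 0 ∧
      (∀ᵐ p ∂ρ, p.1 ∈ cube ∧ p ∈ S.Unit1) ∧
      ∀ α, S.ClosedInv α → ∫ p, q p.2 (α p.1) ∂ρ = 0 := by
  have : CompactSpace S.Base := isCompact_iff_compactSpace.1 S.isCompact_base
  obtain ⟨μ, hμ, hμ0, hμW⟩ := exists_annihilating_measure S.pairings fun f hf hpos => by
    obtain ⟨α, hα, hfα⟩ := hf
    exact hno ⟨α, S.compatible_of_pos hα fun p hp => by
      simpa only [hfα ⟨p, hp⟩] using hpos ⟨p, hp⟩⟩
  set T : S.Base → V × Form := fun p => (red p.1.1, p.1.2)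
  have hT : Measurable T :=
    (measurable_red.comp (measurable_fst.comp measurable_subtype_coe)).prodMk
      (measurable_snd.comp measurable_subtype_coe)
  refine ⟨μ.map T, Measure.isFiniteMeasure_map _ _, ?_, ?_, fun α hα => ?_⟩
  · exact fun h => hμ0 ((Measure.map_eq_zero_iff hT.aemeasurable).1 h)
  · have hcube : MeasurableSet cube :=
      MeasurableSet.univ_pi fun _ => measurableSet_Ico
    refine (ae_map_iff hT.aemeasurable ((measurable_fst hcube).inter
      S.isClosed_unit1.measurableSet)).2 (.of_forall fun p => ⟨red_mem _, ?_, ?_⟩)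
    · exact S.periodic_psd p.2.2.1
    · simp only [T, periodic_red S.periodic_Om]
      exact p.2.2.2
  · have hc : Continuous fun p : V × Form => q p.2 (α p.1) :=
      continuous_q_comp continuous_snd (hα.1.smooth.continuous.comp continuous_fst)
    rw [integral_map hT.aemeasurable hc.aestronglyMeasurable]
    have := hμW ⟨fun p => q p.1.2 (α p.1.1), hc.comp continuous_subtype_val⟩ ⟨α, hα, fun p => rfl⟩
    simpa only [T, periodic_red hα.1.periodic, ContinuousMap.coe_mk] using this

end Setup

/-- If no compatible form exists, a positive invariant current annihilates the closed invariant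
forms. -/
theorem exists_current (S : Setup) (hno : ¬ ∃ α, S.Compatible α) : ∃ T : Current S, T.Separating := by
  obtain ⟨ρ, hρ, hρ0, hρm, hρa⟩ := S.exists_pair_measure hno
  obtain ⟨R, hR⟩ := S.exists_bound
  classical
  set κ := ρ.condKernel
  set m : V → Form := fun y => ∫ w, w ∂κ y
  have hm : Measurable m :=
    (StronglyMeasurable.integral_kernel_prod_right' (κ := κ) (f := fun p : V × Form => p.2)
      measurable_snd.stronglyMeasurable).measurable
  set G : Set V := {y | (y, m y) ∈ S.Unit1}
  have hG : MeasurableSet G := (measurable_id.prodMk hm) S.isClosed_unit1.measurableSet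
  set h : V → Form := fun y => if y ∈ G then m y else S.unitForm y
  have hh : ∀ y, (y, h y) ∈ S.Unit1 := fun y => by
    by_cases hy : y ∈ G
    · simp only [h, if_pos hy]; exact hy
    · simp only [h, if_neg hy]; exact S.unitForm_mem y
  have hκ : ∀ᵐ y ∂ρ.fst, ∀ᵐ w ∂κ y, y ∈ cube ∧ (y, w) ∈ S.Unit1 := by
    refine Measure.ae_ae_of_ae_compProd (μ := ρ.fst) (κ := κ)
      (p := fun p : V × Form => p.1 ∈ cube ∧ p ∈ S.Unit1) ?_
    rw [ρ.disintegrate ρ.condKernel]
    exact hρm
  have hint : ∀ᵐ y ∂ρ.fst, Integrable (fun w : Form => w) (κ y) := by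
    filter_upwards [hκ] with y hy
    exact Integrable.of_bound aestronglyMeasurable_id R (hy.mono fun w hw => hR (y, w) hw.2)
  have hmG : ∀ᵐ y ∂ρ.fst, y ∈ G := by
    filter_upwards [hκ, hint] with y hy hi
    refine ⟨⟨(S.inv_iff y _).2 fun u v => ?_, fun u => ?_⟩, ?_⟩
    · have e1 := (evLeft (S.J y u) (S.J y v)).integral_comp_comm hi
      have e2 := (evLeft u v).integral_comp_comm hi
      refine (e1.symm.trans (integral_congr_ae ?_)).trans e2
      filter_upwards [hy] with w hw
      exact (S.inv_iff y w).1 hw.2.1.1 u v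
    · refine le_trans ?_ ((evLeft u (S.J y u)).integral_comp_comm hi).le
      exact integral_nonneg_of_ae (hy.mono fun w hw => hw.2.1.2 u)
    · refine ((qLeft (S.Om y)).integral_comp_comm hi).symm.trans ?_
      refine (integral_congr_ae (g := fun _ => (1 : ℝ)) (hy.mono fun w hw => hw.2.2)).trans ?_
      simp
  refine ⟨⟨ρ.fst, h, inferInstance, ?supp, Measurable.ite hG hm ?meas, fun y => (hh y).1,
    fun y => (hh y).2⟩, ⟨?ne, fun α hα => ?ann⟩⟩
  case' ne => skip
  · intro h0
    have := congrArg (fun μ => μ univ) h0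
    simp only [Measure.fst_univ, Measure.coe_zero, Pi.zero_apply] at this
    exact hρ0 (Measure.measure_univ_eq_zero.1 this)
  · have hsub : ∀ᵐ y ∂ρ.fst, y ∈ cube := by
      filter_upwards [hκ] with y hy
      exact (hy.exists).choose_spec.1
    exact ae_iff.1 hsub
  · exact ((continuous_q_comp S.continuous_Om S.continuous_Om).measurable.inv).smul
      S.continuous_Om.measurable
  · have hc : Continuous fun p : V × Form => q p.2 (α p.1) :=
      continuous_q_comp continuous_snd (hα.1.smooth.continuous.comp continuous_fst)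
    obtain ⟨C, hC⟩ := S.isCompact_base.exists_bound_of_continuousOn hc.continuousOn
    have hi : Integrable (fun p : V × Form => q p.2 (α p.1)) ρ :=
      Integrable.of_bound hc.aestronglyMeasurable C (hρm.mono fun p hp => hC p
        ⟨⟨⟨fun i => (hp.1 i trivial).1, fun i => (hp.1 i trivial).2.le⟩, trivial⟩, hp.2⟩)
    rw [← hρa α hα, ← Measure.integral_condKernel hi]
    refine integral_congr_ae ?_
    filter_upwards [hmG, hint] with y hy hyi
    simp only [h, if_pos hy]
    exact ((qLeft (α y)).integral_comp_comm hyi).symm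

end Vale.Agent.P204.Torus
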