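import Vale.Agent.P204.Torus.Phase2Defs
import Vale.Agent.P204.Torus.Integrals

/-!
P204 on the four-torus: integrals against a current of bounded density.
-/

open MeasureTheory
open scoped BigOperators ENNReal

namespace Vale.Agent.P204.Torus

namespace Mass

/-- The weight `r² / (r² + d²)²`. -/
noncomputable def w (r d : ℝ) : ℝ := r ^ 2 / (r ^ 2 + d ^ 2) ^ 2

/-- The weight `r² d / (r² + d²)³`. -/
noncomputable def w' (r d : ℝ) : ℝ := r ^ 2 * d / (r ^ 2 + d ^ 2) ^ 3

lemma w_nonneg (r d : ℝ) : 0 ≤ w r d := by unfold w; positivity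

lemma w'_nonneg (r : ℝ) {d : ℝ} (hd : 0 ≤ d) : 0 ≤ w' r d := by unfold w'; positivity

lemma scale_pos (k : ℕ) : 0 < scale k := by unfold scale; positivity

lemma scale_le_one (k : ℕ) : scale k ≤ 1 := inv_le_one_of_one_le₀ (one_le_pow₀ one_le_two)

lemma scale_succ (k : ℕ) : scale k = 2 * scale (k + 1) := by
  simp only [scale, pow_succ]
  field_simp

lemma sqrt_scale_le (k : ℕ) : Real.sqrt (scale k) ≤ (3 / 4 : ℝ) ^ k := by
  rw [Real.sqrt_le_iff]
  refine ⟨by positivity, ?_⟩
  rw [← pow_mul, mul_comm, pow_mul, scale, ← inv_pow]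
  exact pow_le_pow_left₀ (by norm_num) (by norm_num) k

lemma continuous_w {r : ℝ} (hr : 0 < r) (y : V) : Continuous fun z => w r (dist0 (z - y)) := by
  unfold w
  refine continuous_const.div ((continuous_const.add ?_).pow 2) fun z => by positivity
  exact (continuous_dist0.comp (continuous_id.sub continuous_const)).pow 2

lemma w_le {r : ℝ} (hr : 0 < r) (d : ℝ) : w r d ≤ 1 / r ^ 2 := by
  unfold w
  rw [div_le_div_iff₀ (by positivity) (by positivity)]
  nlinarith [sq_nonneg d, mul_nonneg (sq_nonneg r) (sq_nonneg d), sq_nonneg (d ^ 2)]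

lemma integrable_w (ν : Measure V) [IsFiniteMeasure ν] {r : ℝ} (hr : 0 < r) (y : V) :
    Integrable (fun z => w r (dist0 (z - y))) ν :=
  Integrable.of_bound (continuous_w hr y).aestronglyMeasurable (1 / r ^ 2)
    (.of_forall fun z => by rw [Real.norm_eq_abs, abs_of_nonneg (w_nonneg r _)]; exact w_le hr _)

lemma w'_le {r : ℝ} (hr : 0 < r) (d : ℝ) : w' r d ≤ 1 / (2 * r) * w r d := by
  unfold w w'
  rw [div_mul_div_comm, div_le_div_iff₀ (by positivity) (by positivity), one_mul,
    show (r ^ 2 + d ^ 2) ^ 3 = (r ^ 2 + d ^ 2) ^ 2 * (r ^ 2 + d ^ 2) by ring]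
  have h : 2 * r * d ≤ r ^ 2 + d ^ 2 := two_mul_le_add_sq r d
  have := mul_le_mul_of_nonneg_left h (by positivity : 0 ≤ r ^ 2 * (r ^ 2 + d ^ 2) ^ 2)
  linarith

/-- The integrand of the majorant is bounded by a multiple of the density weight. -/
lemma sum_le {r : ℝ} (hr : 0 < r) (hr1 : r ≤ 1) (d : ℝ) : w r d + w' r d ≤ 2 / r * w r d := by
  have h1 : w r d ≤ 1 / r * w r d :=
    le_mul_of_one_le_left (w_nonneg r d) ((one_le_div hr).2 hr1)
  have h2 := w'_le hr d
  have h3 : 1 / (2 * r) * w r d ≤ 1 / r * w r d :=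
    mul_le_mul_of_nonneg_right (one_div_le_one_div_of_le hr (by linarith)) (w_nonneg r d)
  have e : 2 / r * w r d = 1 / r * w r d + 1 / r * w r d := by ring
  linarith

end Mass

open Mass

/-- A dyadic scale comparable to `r + d`. -/
lemma exists_scale (k : ℕ) {d : ℝ} (_hd : 0 ≤ d) (hd1 : d ≤ 1) :
    ∃ i, i ≤ k ∧ d ≤ scale i ∧ scale i ^ 2 ≤ 4 * (scale k ^ 2 + d ^ 2) := by
  classical
  rcases le_or_gt d (scale k) with h | h
  · exact ⟨k, le_rfl, h, by nlinarith [sq_nonneg d, sq_nonneg (scale k)]⟩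
  have hex : ∃ j, scale j < d := ⟨k, h⟩
  have h0 : Nat.find hex ≠ 0 := fun h0 => by
    have := Nat.find_spec hex
    rw [h0] at this
    simp [scale] at this
    linarith
  obtain ⟨i, hi⟩ := Nat.exists_eq_succ_of_ne_zero h0
  have hlt : scale (i + 1) < d := by
    have := Nat.find_spec hex
    rwa [hi] at this
  refine ⟨i, ?_, not_lt.1 (Nat.find_min hex (by omega)), ?_⟩
  · have := Nat.find_min' hex h
    omega
  · rw [scale_succ i]
    nlinarith [scale_pos (i + 1), sq_nonneg (scale k)]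

namespace Mass

/-- The singularity is bounded by the dyadic density weights. -/
lemma three_halves_le {d : ℝ} (hd : 0 ≤ d) (hd1 : d ≤ 1) :
    ENNReal.ofReal (d * Real.sqrt d)⁻¹ ≤
      ∑' k, ENNReal.ofReal (24 * (3 / 4 : ℝ) ^ k * w (scale k) d) := by
  classical
  rcases hd.eq_or_lt with h | h
  · subst h; simp
  obtain ⟨n, hn⟩ := exists_pow_lt_of_lt_one h (by norm_num : (1 / 2 : ℝ) < 1)
  obtain ⟨i, -, hi, hi'⟩ := exists_scale n hd hd1
  refine le_trans ?_ (ENNReal.le_tsum i)
  refine ENNReal.ofReal_le_ofReal ?_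
  set R := scale i
  have hR : 0 < R := scale_pos i
  have hsn : scale n < d := by rwa [scale, ← inv_pow, ← one_div]
  have hRd : R ≤ 3 * d := by nlinarith [scale_pos n]
  have hsR : 0 < Real.sqrt R := Real.sqrt_pos.2 hR
  have hsd : 0 < Real.sqrt d := Real.sqrt_pos.2 h
  have h1 : 1 / (4 * R ^ 2) ≤ w R d := by
    unfold w
    rw [div_le_div_iff₀ (by positivity) (by positivity)]
    have h2 : R ^ 2 + d ^ 2 ≤ 2 * R ^ 2 := by nlinarith
    nlinarith [pow_le_pow_left₀ (by positivity) h2 2]
  refine le_trans ?_ (mul_le_mul (mul_le_mul_of_nonneg_left (sqrt_scale_le i)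
    (by norm_num : (0 : ℝ) ≤ 24)) h1 (by positivity) (by positivity))
  have h2 : Real.sqrt R ≤ 2 * Real.sqrt d := by
    rw [show (2 : ℝ) * Real.sqrt d = Real.sqrt (4 * d) by
      rw [Real.sqrt_mul (by norm_num), show (4 : ℝ) = 2 ^ 2 by norm_num,
        Real.sqrt_sq (by norm_num)]]
    refine Real.sqrt_le_sqrt ?_
    linarith
  rw [inv_eq_one_div, mul_one_div, div_le_div_iff₀ (by positivity) (by positivity), one_mul]
  have e : Real.sqrt R * Real.sqrt R = R := Real.mul_self_sqrt hR.le
  calc 4 * R ^ 2 = 4 * (Real.sqrt R * R) * Real.sqrt R := by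
        rw [mul_assoc, mul_right_comm, e]; ring
    _ ≤ 4 * (Real.sqrt R * (3 * d)) * (2 * Real.sqrt d) :=
        mul_le_mul (mul_le_mul_of_nonneg_left (mul_le_mul_of_nonneg_left hRd hsR.le) (by norm_num))
          h2 hsR.le (by positivity)
    _ = 24 * Real.sqrt R * (d * Real.sqrt d) := by ring

lemma continuous_weights {r : ℝ} (hr : 0 < r) :
    Continuous fun p : V × V => w r (dist0 (p.2 - p.1)) + w' r (dist0 (p.2 - p.1)) := by
  have hd : Continuous fun p : V × V => dist0 (p.2 - p.1) :=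
    continuous_dist0.comp (continuous_snd.sub continuous_fst)
  unfold w w'
  exact (continuous_const.div ((continuous_const.add (hd.pow 2)).pow 2)
    fun p => (pow_pos (add_pos_of_pos_of_nonneg (pow_pos hr 2) (sq_nonneg _)) 2).ne').add
    ((continuous_const.mul hd).div ((continuous_const.add (hd.pow 2)).pow 3)
      fun p => (pow_pos (add_pos_of_pos_of_nonneg (pow_pos hr 2) (sq_nonneg _)) 3).ne')

lemma norm_weights_le {r : ℝ} (hr : 0 < r) (hr1 : r ≤ 1) (x z : V) :
    ‖w r (dist0 (z - x)) + w' r (dist0 (z - x))‖ ≤ 2 / r * (1 / r ^ 2) := by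
  rw [Real.norm_of_nonneg (add_nonneg (w_nonneg _ _) (w'_nonneg r (dist0_nonneg _)))]
  exact (sum_le hr hr1 _).trans (mul_le_mul_of_nonneg_left (w_le hr _) (by positivity))

/-- The weights integrate over the cube to a multiple of the scale. -/
lemma cell_le (k : ℕ) (z : V) :
    ∫ x, (w (scale k) (dist0 (z - x)) + w' (scale k) (dist0 (z - x))) ∂cubeVol ≤
      2560 * phiMass * scale k := by
  set r := scale k
  have hr : 0 < r := scale_pos k
  have hr1 : r ≤ 1 := scale_le_one k
  have hpt : ∀ x, w r (dist0 (z - x)) + w' r (dist0 (z - x)) ≤ ∑ i ∈ Finset.range (k + 1),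
      1280 * r ^ 2 / scale i ^ 5 * phi (scale i) (x - z) ^ 4 := fun x => by
    obtain ⟨i, hik, hdi, hi⟩ := exists_scale k (dist0_nonneg (z - x)) (dist0_le_one _)
    refine le_trans ?_ (Finset.single_le_sum (fun i _ => by
      have := scale_pos i
      have := phi_nonneg (scale i) (x - z)
      positivity) (Finset.mem_range.2 (Nat.lt_succ_of_le hik)))
    simp only [w, w', phi]
    rw [dist0_sub_comm x z]
    have hd0 := dist0_nonneg (z - x)
    have hR := scale_pos i
    have hR1 := scale_le_one i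
    generalize dist0 (z - x) = d at hdi hi hd0 ⊢
    generalize scale i = R at hdi hi hR hR1 ⊢
    have hhalf : (1 / 2 : ℝ) ≤ R ^ 2 / (R ^ 2 + d ^ 2) := by
      rw [le_div_iff₀ (by positivity)]; nlinarith
    have h4 : (1 / 16 : ℝ) ≤ (R ^ 2 / (R ^ 2 + d ^ 2)) ^ 4 :=
      le_of_eq_of_le (by norm_num) (pow_le_pow_left₀ (by norm_num) hhalf 4)
    have hA : R ^ 2 / 4 ≤ r ^ 2 + d ^ 2 := by linarith
    have e1 : r ^ 2 / (r ^ 2 + d ^ 2) ^ 2 ≤ 16 * r ^ 2 / R ^ 5 := by
      refine (div_le_div_of_nonneg_left (by positivity) (by positivity)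
        (pow_le_pow_left₀ (by positivity) hA 2)).trans ?_
      rw [div_le_div_iff₀ (by positivity) (by positivity)]
      linarith [mul_le_mul_of_nonneg_left hR1 (by positivity : 0 ≤ r ^ 2 * R ^ 4)]
    have e2 : r ^ 2 * d / (r ^ 2 + d ^ 2) ^ 3 ≤ 64 * r ^ 2 / R ^ 5 := by
      refine (div_le_div_of_nonneg_left (by positivity) (by positivity)
        (pow_le_pow_left₀ (by positivity) hA 3)).trans ?_
      rw [div_le_div_iff₀ (by positivity) (by positivity)]
      linarith [mul_le_mul_of_nonneg_left hdi (by positivity : 0 ≤ r ^ 2 * R ^ 5)]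
    have h5 := mul_le_mul_of_nonneg_left h4 (by positivity : 0 ≤ 1280 * r ^ 2 / R ^ 5)
    have e3 : 1280 * r ^ 2 / R ^ 5 * (1 / 16) = 16 * r ^ 2 / R ^ 5 + 64 * r ^ 2 / R ^ 5 := by
      ring
    linarith
  have hsum : Integrable (fun x => ∑ i ∈ Finset.range (k + 1),
      1280 * r ^ 2 / scale i ^ 5 * phi (scale i) (x - z) ^ 4) cubeVol :=
    integrable_finsetSum _ fun i _ => (integrable_phi_pow (scale_pos i) z 4).const_mul _
  refine (integral_mono_of_nonneg (.of_forall fun x =>
    add_nonneg (w_nonneg _ _) (w'_nonneg r (dist0_nonneg _))) hsum (.of_forall hpt)).trans ?_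
  rw [integral_finsetSum _ fun i _ => (integrable_phi_pow (scale_pos i) z 4).const_mul _]
  simp only [integral_const_mul]
  refine (Finset.sum_le_sum fun i _ => mul_le_mul_of_nonneg_left
    (integral_phi_pow_le (scale_pos i) z le_rfl) (by have := scale_pos i; positivity)).trans ?_
  have e : ∀ i, 1280 * r ^ 2 / scale i ^ 5 * (phiMass * scale i ^ 4) =
      1280 * phiMass * r ^ 2 * 2 ^ i := fun i => by
    simp only [scale, inv_pow]
    field_simp
  simp only [e, ← Finset.mul_sum]
  have h2 : ∑ i ∈ Finset.range (k + 1), (2 : ℝ) ^ i ≤ 2 * 2 ^ k := by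
    rw [geom_sum_eq (by norm_num), show (2 : ℝ) - 1 = 1 by norm_num, div_one, pow_succ]
    linarith
  have h3 : r * 2 ^ k = 1 := inv_mul_cancel₀ (by positivity)
  refine (mul_le_mul_of_nonneg_left h2 (by have := phiMass_pos; positivity)).trans_eq ?_
  calc 1280 * phiMass * r ^ 2 * (2 * 2 ^ k) = 2560 * phiMass * r * (r * 2 ^ k) := by ring
    _ = _ := by rw [h3, mul_one]

end Mass

namespace Current

variable {S : Setup} (T : Current S)

lemma exists_int_three_halves (hd : T.DensBound) : ∃ C, ∀ y,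
    Integrable (fun z => (dist0 (z - y) * Real.sqrt (dist0 (z - y)))⁻¹) T.ν ∧
      ∫ z, (dist0 (z - y) * Real.sqrt (dist0 (z - y)))⁻¹ ∂T.ν ≤ C := by
  have := T.finite
  obtain ⟨D, hD⟩ := hd
  set B := max D 0
  have hB : 0 ≤ B := le_max_right _ _
  refine ⟨96 * B, fun y => ?_⟩
  have hm : Measurable fun z => (dist0 (z - y) * Real.sqrt (dist0 (z - y)))⁻¹ := by
    have := continuous_dist0
    exact (Continuous.measurable (by fun_prop)).inv
  have h0 : ∀ z, 0 ≤ (dist0 (z - y) * Real.sqrt (dist0 (z - y)))⁻¹ := fun z => by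
    have := dist0_nonneg (z - y)
    positivity
  have hterm : ∀ k, ∫⁻ z, ENNReal.ofReal (24 * (3 / 4 : ℝ) ^ k * w (scale k) (dist0 (z - y))) ∂T.ν
      ≤ ENNReal.ofReal (24 * B * (3 / 4 : ℝ) ^ k) := fun k => by
    rw [← ofReal_integral_eq_lintegral_ofReal ((integrable_w T.ν (scale_pos k) y).const_mul _)
      (.of_forall fun z => mul_nonneg (by positivity) (w_nonneg _ _)), integral_const_mul]
    refine ENNReal.ofReal_le_ofReal ?_
    rw [mul_right_comm (24 : ℝ) B]
    exact mul_le_mul_of_nonneg_left ((hD _ (scale_pos k) (scale_le_one k) y).trans (le_max_left _ _))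
      (by positivity)
  have hsum : HasSum (fun k : ℕ => 24 * B * (3 / 4 : ℝ) ^ k) (96 * B) := by
    have := (hasSum_geometric_of_lt_one (by norm_num : (0 : ℝ) ≤ 3 / 4) (by norm_num)).mul_left
      (24 * B)
    rw [show 96 * B = 24 * B * (1 - 3 / 4)⁻¹ by norm_num; ring]
    exact this
  have hl : ∫⁻ z, ENNReal.ofReal ((dist0 (z - y) * Real.sqrt (dist0 (z - y)))⁻¹) ∂T.ν ≤
      ENNReal.ofReal (96 * B) := by
    refine (lintegral_mono fun z => three_halves_le (dist0_nonneg _) (dist0_le_one _)).trans ?_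
    rw [lintegral_tsum fun k => ?_]
    · refine (ENNReal.tsum_le_tsum hterm).trans_eq ?_
      rw [← ENNReal.ofReal_tsum_of_nonneg (fun k => by positivity) hsum.summable, hsum.tsum_eq]
    · exact (((continuous_w (scale_pos k) y).const_mul _).measurable.ennreal_ofReal).aemeasurable
  have hi : Integrable (fun z => (dist0 (z - y) * Real.sqrt (dist0 (z - y)))⁻¹) T.ν :=
    ⟨hm.aestronglyMeasurable, by
      rw [hasFiniteIntegral_iff_ofReal (.of_forall h0)]
      exact hl.trans_lt ENNReal.ofReal_lt_top⟩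
  refine ⟨hi, ?_⟩
  rw [integral_eq_lintegral_of_nonneg_ae (.of_forall h0) hm.aestronglyMeasurable]
  exact ENNReal.toReal_le_of_le_ofReal (by positivity) hl

lemma exists_int_phi (hd : T.DensBound) : ∃ C, ∀ r, 0 < r → r ≤ 1 → ∀ y,
    ∫ z, phi r (z - y) ∂T.ν ≤ C * r := by
  have := T.finite
  obtain ⟨C, hC⟩ := T.exists_int_three_halves hd
  obtain ⟨D, hD⟩ := hd
  refine ⟨C + D, fun r hr hr1 y => ?_⟩
  obtain ⟨hi, hle⟩ := hC y
  have hpt : ∀ z, phi r (z - y) ≤ r * (dist0 (z - y) * Real.sqrt (dist0 (z - y)))⁻¹ +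
      r ^ 2 * w r (dist0 (z - y)) := fun z => by
    have hd0 := dist0_nonneg (z - y)
    have hd1 := dist0_le_one (z - y)
    unfold phi w
    set d := dist0 (z - y)
    rcases hd0.eq_or_lt with h | h
    · rw [← h]; simp [hr.ne']; field_simp; norm_num
    · refine le_add_of_le_of_nonneg ?_ (by positivity)
      have hs : Real.sqrt d ≤ 1 := Real.sqrt_le_one.2 hd1
      rw [← div_eq_mul_inv, div_le_div_iff₀ (by positivity) (by positivity)]
      have h1 : r ^ 2 * (d * Real.sqrt d) ≤ r * (r * d) := by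
        rw [sq, mul_assoc]
        exact mul_le_mul_of_nonneg_left
          (mul_le_mul_of_nonneg_left (mul_le_of_le_one_right hd0 hs) hr.le) hr.le
      nlinarith [two_mul_le_add_sq r d]
  have hphi : Integrable (fun z => phi r (z - y)) T.ν :=
    Integrable.of_bound (((continuous_phi hr).comp (continuous_id.sub continuous_const)
      ).aestronglyMeasurable) 1 (.of_forall fun z => by
        rw [Real.norm_eq_abs, abs_of_nonneg (phi_nonneg _ _)]; exact phi_le_one _ _)
  refine (integral_mono hphi ((hi.const_mul r).add ((integrable_w T.ν hr y).const_mul (r ^ 2)))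
    hpt).trans ?_
  simp only [Pi.add_apply]
  rw [integral_add (hi.const_mul r) ((integrable_w T.ν hr y).const_mul (r ^ 2)),
    integral_const_mul, integral_const_mul]
  have h1 := mul_le_mul_of_nonneg_left hle hr.le
  have h2 := mul_le_mul_of_nonneg_left (hD r hr hr1 y) (sq_nonneg r)
  have h3 : 0 ≤ D := le_trans (integral_nonneg fun z => w_nonneg _ _) (hD r hr hr1 y)
  have h4 : r ^ 2 * D ≤ r * D := mul_le_mul_of_nonneg_right (by nlinarith) h3
  simp only [dens] at h2
  simp only [w] at *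
  linarith

lemma continuous_rad {r : ℝ} (hr : 0 < r) (hr1 : r ≤ 1) :
    Continuous (T.rad r) ∧ ∀ x, Integrable
      (fun z => w r (dist0 (z - x)) + w' r (dist0 (z - x))) T.ν := by
  have := T.finite
  have hc : Continuous fun p : V × V => w r (dist0 (p.2 - p.1)) + w' r (dist0 (p.2 - p.1)) :=
    continuous_weights hr
  have hb : ∀ x z, ‖w r (dist0 (z - x)) + w' r (dist0 (z - x))‖ ≤ 2 / r * (1 / r ^ 2) :=
    fun x z => norm_weights_le hr hr1 _ _
  have hx : ∀ x, Continuous fun z => w r (dist0 (z - x)) + w' r (dist0 (z - x)) := fun x =>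
    Continuous.comp (g := fun p : V × V => w r (dist0 (p.2 - p.1)) + w' r (dist0 (p.2 - p.1)))
      (f := fun z : V => (x, z)) hc (continuous_const.prodMk continuous_id)
  refine ⟨?_, fun x => Integrable.of_bound (hx x).aestronglyMeasurable _ (.of_forall (hb x))⟩
  have h := continuous_of_dominated (μ := T.ν)
    (F := fun (x : V) (z : V) => w r (dist0 (z - x)) + w' r (dist0 (z - x)))
    (bound := fun _ => 2 / r * (1 / r ^ 2)) (fun x => (hx x).aestronglyMeasurable)
    (fun x => .of_forall (hb x)) (integrable_const _)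
    (.of_forall fun z => Continuous.comp (g := fun p : V × V =>
      w r (dist0 (p.2 - p.1)) + w' r (dist0 (p.2 - p.1))) (f := fun x : V => (x, z)) hc
      (continuous_id.prodMk continuous_const))
  exact h

lemma rad_le {D r : ℝ} (hr : 0 < r) (hr1 : r ≤ 1) (hD : ∀ y, T.dens r y ≤ D) (x : V) :
    T.rad r x ≤ 2 * D / r := by
  have := T.finite
  refine (integral_mono ((T.continuous_rad hr hr1).2 x)
    ((integrable_w T.ν hr x).const_mul (2 / r)) fun z => sum_le hr hr1 _).trans ?_
  rw [integral_const_mul, div_mul_eq_mul_div]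
  exact div_le_div_of_nonneg_right (mul_le_mul_of_nonneg_left (hD x) zero_le_two) hr.le

lemma rad_nonneg (r : ℝ) (x : V) : 0 ≤ T.rad r x :=
  integral_nonneg fun z => add_nonneg (w_nonneg r (dist0 (z - x))) (w'_nonneg r (dist0_nonneg _))

lemma l1_rad_le (k : ℕ) : l1 (T.rad (scale k)) ≤ 2560 * phiMass * T.ν.real Set.univ * scale k := by
  have := T.finite
  set r := scale k
  have hr : 0 < r := scale_pos k
  have hint : Integrable (Function.uncurry fun x z => w r (dist0 (z - x)) + w' r (dist0 (z - x)))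
      (cubeVol.prod T.ν) :=
    Integrable.of_bound (continuous_weights hr).aestronglyMeasurable (2 / r * (1 / r ^ 2))
      (.of_forall fun p => norm_weights_le hr (scale_le_one k) p.1 p.2)
  have e : l1 (T.rad r) =
      ∫ x, ∫ z, (w r (dist0 (z - x)) + w' r (dist0 (z - x))) ∂T.ν ∂cubeVol :=
    integral_congr_ae (.of_forall fun x => Real.norm_of_nonneg (T.rad_nonneg r x))
  rw [e, integral_integral_swap hint]
  refine (integral_mono hint.integral_prod_right (integrable_const _) (cell_le k)).trans_eq ?_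
  rw [integral_const, smul_eq_mul]
  ring

lemma exists_rad_bound (hd : T.DensBound) : ∃ C, ∀ k,
    Continuous (T.rad (scale k)) ∧ (∀ x, 0 ≤ T.rad (scale k) x) ∧
      (∀ x, T.rad (scale k) x ≤ C / scale k) ∧ l1 (T.rad (scale k)) ≤ C * scale k ∧
        l2 (T.rad (scale k)) ≤ C := by
  obtain ⟨D, hD⟩ := hd
  set C := max (2 * D) (2560 * phiMass * T.ν.real Set.univ)
  have hC : 0 ≤ C := le_max_of_le_right (by have := phiMass_pos; positivity)
  refine ⟨C, fun k => ?_⟩
  set r := scale k
  have hr : 0 < r := scale_pos k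
  have hcont := (T.continuous_rad hr (scale_le_one k)).1
  have h0 : ∀ x, 0 ≤ T.rad r x := T.rad_nonneg r
  have hsup : ∀ x, T.rad r x ≤ C / r := fun x =>
    (T.rad_le hr (scale_le_one k) (hD r hr (scale_le_one k)) x).trans
      (div_le_div_of_nonneg_right (le_max_left _ _) hr.le)
  have hl1 : l1 (T.rad r) ≤ C * r :=
    (T.l1_rad_le k).trans (mul_le_mul_of_nonneg_right (le_max_right _ _) hr.le)
  refine ⟨hcont, h0, hsup, hl1, ?_⟩
  have hnorm : ∀ x, ‖T.rad r x‖ = T.rad r x := fun x => Real.norm_of_nonneg (h0 x)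
  have hb : Integrable (fun x => ‖T.rad r x‖) cubeVol :=
    Integrable.of_bound hcont.norm.aestronglyMeasurable (C / r)
      (.of_forall fun x => by rw [norm_norm, hnorm]; exact hsup x)
  refine Real.sqrt_le_iff.2 ⟨hC, ?_⟩
  show ∫ x, ‖T.rad r x‖ ^ 2 ∂cubeVol ≤ C ^ 2
  refine (integral_mono_of_nonneg (.of_forall fun x => sq_nonneg _) (hb.const_mul (C / r))
    (.of_forall fun x => ?_)).trans ?_
  · simp only [hnorm, sq]
    exact mul_le_mul_of_nonneg_right (hsup x) (h0 x)
  · rw [integral_const_mul]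
    refine (mul_le_mul_of_nonneg_left hl1 (by positivity)).trans_eq ?_
    field_simp

end Current

end Vale.Agent.P204.Torus
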