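import Vale.Agent.P204.Torus.Calculus

/-!
P204 on the four-torus: integrals depending on a parameter.
-/

open MeasureTheory

namespace Vale.Agent.P204.Torus

namespace Param

/-- A compact set containing the fundamental cube. -/
def K : Set V := Set.Icc 0 1

lemma ae_mem_K {ν : Measure V} (hν : ν cubeᶜ = 0) : ∀ᵐ y ∂ν, y ∈ K := by
  have h : cube ⊆ K := fun y hy =>
    ⟨fun i => (hy i (Set.mem_univ i)).1, fun i => (hy i (Set.mem_univ i)).2.le⟩
  exact ae_iff.2 (measure_mono_null (fun y hy hc => hy (h hc)) hν)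

lemma integrable_smul {F : Type*} [NormedAddCommGroup F] [NormedSpace ℝ F]
    [FiniteDimensional ℝ F] {ν : Measure V} [IsFiniteMeasure ν] (hν : ν cubeᶜ = 0) {g : V → F}
    (hg : Continuous g) {c : V → ℝ} {M : ℝ} (hc : Measurable c) (hM : ∀ y, |c y| ≤ M) :
    Integrable (fun y => c y • g y) ν := by
  obtain ⟨C, hC⟩ := (isCompact_Icc (a := (0 : V)) (b := 1)).exists_bound_of_continuousOn hg.continuousOn
  refine Integrable.of_bound (hc.aestronglyMeasurable.smul hg.aestronglyMeasurable) (M * C) ?_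
  filter_upwards [ae_mem_K hν] with y hy
  rw [norm_smul]
  exact mul_le_mul (hM y) (hC y hy) (norm_nonneg _) ((abs_nonneg _).trans (hM y))

/-- The partial derivative in the parameter. -/
noncomputable def D1 {F : Type*} [NormedAddCommGroup F] [NormedSpace ℝ F] (b : V → V → F)
    (x y : V) : V →L[ℝ] F :=
  (fderiv ℝ (fun p : V × V => b p.1 p.2) (x, y)).comp (ContinuousLinearMap.inl ℝ V V)

lemma hasFDerivAt_D1 {F : Type*} [NormedAddCommGroup F] [NormedSpace ℝ F] {b : V → V → F}
    (hb : ContDiff ℝ (⊤ : ℕ∞) fun p : V × V => b p.1 p.2) (x y : V) :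
    HasFDerivAt (fun x => b x y) (D1 b x y) x :=
  HasFDerivAt.comp x (g := fun p : V × V => b p.1 p.2) (f := fun x => (x, y))
    ((hb.differentiable (by simp)) (x, y)).hasFDerivAt (hasFDerivAt_prodMk_left x y)

lemma contDiff_D1 {F : Type*} [NormedAddCommGroup F] [NormedSpace ℝ F] {b : V → V → F}
    (hb : ContDiff ℝ (⊤ : ℕ∞) fun p : V × V => b p.1 p.2) :
    ContDiff ℝ (⊤ : ℕ∞) fun p : V × V => D1 b p.1 p.2 :=
  (hb.fderiv_right (m := ((⊤ : ℕ∞) : WithTop ℕ∞)) (by simp)).clm_comp contDiff_const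

lemma hasFDerivAt_integral {F : Type*} [NormedAddCommGroup F] [NormedSpace ℝ F]
    [FiniteDimensional ℝ F] {ν : Measure V} [IsFiniteMeasure ν] (hν : ν cubeᶜ = 0)
    {b : V → V → F} (hb : ContDiff ℝ (⊤ : ℕ∞) fun p : V × V => b p.1 p.2) {c : V → ℝ} {M : ℝ}
    (hc : Measurable c) (hM : ∀ y, |c y| ≤ M) (x₀ : V) :
    HasFDerivAt (fun x => ∫ y, c y • b x y ∂ν) (∫ y, c y • D1 b x₀ y ∂ν) x₀ := by
  have hcb : ∀ x, Continuous fun y => b x y := fun x =>
    hb.continuous.comp (continuous_const.prodMk continuous_id)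
  have hcD : Continuous fun p : V × V => D1 b p.1 p.2 := (contDiff_D1 hb).continuous
  obtain ⟨C, hC⟩ := ((isCompact_closedBall x₀ 1).prod (isCompact_Icc (a := (0 : V)) (b := 1))
    ).exists_bound_of_continuousOn hcD.continuousOn
  refine hasFDerivAt_integral_of_dominated_of_fderiv_le (Metric.closedBall_mem_nhds x₀ one_pos)
    (F' := fun x y => c y • D1 b x y) (bound := fun _ => M * C)
    (.of_forall fun x => hc.aestronglyMeasurable.smul (hcb x).aestronglyMeasurable)
    (integrable_smul hν (hcb x₀) hc hM)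
    (hc.aestronglyMeasurable.smul
      (hcD.comp (continuous_const.prodMk continuous_id)).aestronglyMeasurable)
    ?_ (integrable_const _)
    (.of_forall fun y x _ => (hasFDerivAt_D1 hb x y).const_smul (c y))
  filter_upwards [ae_mem_K hν] with y hy x hx
  rw [norm_smul]
  exact mul_le_mul (hM y) (hC (x, y) ⟨hx, hy⟩) (norm_nonneg _) ((abs_nonneg _).trans (hM y))

lemma contDiff_nat {ν : Measure V} [IsFiniteMeasure ν] (hν : ν cubeᶜ = 0) {c : V → ℝ} {M : ℝ}
    (hc : Measurable c) (hM : ∀ y, |c y| ≤ M) (n : ℕ) :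
    ∀ {F : Type*} [NormedAddCommGroup F] [NormedSpace ℝ F] [FiniteDimensional ℝ F]
      {b : V → V → F}, (ContDiff ℝ (⊤ : ℕ∞) fun p : V × V => b p.1 p.2) →
      ContDiff ℝ n fun x => ∫ y, c y • b x y ∂ν := by
  induction n with
  | zero =>
    intro F _ _ _ b hb
    exact contDiff_zero.2 (continuous_iff_continuousAt.2 fun x =>
      (hasFDerivAt_integral hν hb hc hM x).continuousAt)
  | succ n ih =>
    intro F _ _ _ b hb
    have h : fderiv ℝ (fun x => ∫ y, c y • b x y ∂ν) = fun x => ∫ y, c y • D1 b x y ∂ν :=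
      funext fun x => (hasFDerivAt_integral hν hb hc hM x).fderiv
    push_cast
    rw [contDiff_succ_iff_fderiv, h]
    exact ⟨fun x => (hasFDerivAt_integral hν hb hc hM x).differentiableAt, by simp,
      ih (contDiff_D1 hb)⟩

end Param

open Param

lemma contDiff_integral_param {F : Type*} [NormedAddCommGroup F] [NormedSpace ℝ F]
    [FiniteDimensional ℝ F] (ν : Measure V) [IsFiniteMeasure ν] (hν : ν cubeᶜ = 0)
    {b : V → V → F} (hb : ContDiff ℝ (⊤ : ℕ∞) fun p : V × V => b p.1 p.2) {c : V → ℝ} {M : ℝ}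
    (hc : Measurable c) (hM : ∀ y, |c y| ≤ M) :
    ContDiff ℝ (⊤ : ℕ∞) (fun x => ∫ y, c y • b x y ∂ν) ∧
      ∀ x u, Integrable (fun y => c y • fderiv ℝ (fun x => b x y) x u) ν ∧
        fderiv ℝ (fun x => ∫ y, c y • b x y ∂ν) x u =
          ∫ y, c y • fderiv ℝ (fun x => b x y) x u ∂ν := by
  refine ⟨contDiff_infty.2 fun n => contDiff_nat hν hc hM n hb, fun x u => ?_⟩
  have hcD : Continuous fun y => D1 b x y :=
    (contDiff_D1 hb).continuous.comp (continuous_const.prodMk continuous_id)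
  simp only [fun y => (hasFDerivAt_D1 hb x y).fderiv]
  refine ⟨integrable_smul hν (hcD.clm_apply continuous_const) hc hM, ?_⟩
  rw [(hasFDerivAt_integral hν hb hc hM x).fderiv,
    ContinuousLinearMap.integral_apply (integrable_smul hν hcD hc hM)]
  rfl

lemma d1_integral (ν : Measure V) [IsFiniteMeasure ν] (hν : ν cubeᶜ = 0)
    {b : V → V → V} (hb : ContDiff ℝ (⊤ : ℕ∞) fun p : V × V => b p.1 p.2) {c : V → ℝ} {M : ℝ}
    (hc : Measurable c) (hM : ∀ y, |c y| ≤ M) (x : V) :
    Integrable (fun y => c y • d1 (fun x => b x y) x) ν ∧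
      d1 (fun x => ∫ y, c y • b x y ∂ν) x = ∫ y, c y • d1 (fun x => b x y) x ∂ν := by
  set L : (V →L[ℝ] V) →L[ℝ] Form := LinearMap.toContinuousLinearMap
    { toFun := fun A => ofSkew fun u v => pair (A u) v - pair (A v) u
      map_add' := fun A B => by
        ext k
        simp only [ofSkew_apply, pair, add_apply, Pi.add_apply, PiLp.add_apply, add_mul,
          Finset.sum_add_distrib]
        ring
      map_smul' := fun r A => by
        ext k
        simp only [ofSkew_apply, pair, smul_apply, Pi.smul_apply, PiLp.smul_apply, smul_eq_mul,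
          mul_assoc, ← Finset.mul_sum, RingHom.id_apply]
        ring }
  have hL : ∀ y, c y • d1 (fun x => b x y) x = L (c y • D1 b x y) := fun y => by
    rw [map_smul, d1, (hasFDerivAt_D1 hb x y).fderiv]
    rfl
  have hcD : Continuous fun y => D1 b x y :=
    (contDiff_D1 hb).continuous.comp (continuous_const.prodMk continuous_id)
  have hi := integrable_smul hν hcD hc hM
  simp only [hL]
  refine ⟨L.integrable_comp hi, ?_⟩
  rw [L.integral_comp_comm hi, d1, (hasFDerivAt_integral hν hb hc hM x).fderiv]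
  rfl

end Vale.Agent.P204.Torus
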