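import Vale.Agent.P204.Torus.Point
import Vale.Agent.P204.Torus.Mass
import Vale.Agent.P204.Torus.Param
import Vale.Agent.P204.Torus.Phase1Aux

/-!
P204 on the four-torus: almost monotonicity of the density and what follows from it.
-/

open MeasureTheory Filter Topology
open scoped BigOperators

namespace Vale.Agent.P204.Torus

lemma scale_pos' (k : ℕ) : 0 < scale k := Mass.scale_pos k

lemma tendsto_scale : Tendsto scale atTop (𝓝 0) := by
  have h : scale = fun k => ((1 : ℝ) / 2) ^ k := funext fun k => by simp [scale]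
  rw [h]
  exact tendsto_pow_atTop_nhds_zero_of_lt_one (by norm_num) (by norm_num)

lemma scale_antitone : Antitone scale := fun _ _ h =>
  inv_anti₀ (by positivity) (pow_le_pow_right₀ one_le_two h)

/-- One step of the telescoping bound for the dyadic sum of `r²/(r²+ρ)³`. -/
lemma telescope_step {r ρ : ℝ} (hr : 0 < r) (hρ : 0 ≤ ρ) :
    r ^ 2 / (r ^ 2 + ρ) ^ 3 ≤ 4 / 3 * (1 / ((r / 2) ^ 2 + ρ) ^ 2 - 1 / (r ^ 2 + ρ) ^ 2) := by
  have hu' : 0 < (r / 2) ^ 2 + ρ := by positivity
  have hu : 0 < r ^ 2 + ρ := by positivity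
  set u := r ^ 2 + ρ with hud
  set u' := (r / 2) ^ 2 + ρ with hud'
  have hle : u' ≤ u := by
    simp only [hud, hud']
    nlinarith [sq_nonneg r]
  have hdiff : u - u' = 3 / 4 * r ^ 2 := by simp only [hud, hud']; ring
  have e : 1 / u' ^ 2 - 1 / u ^ 2 = (u - u') * (u + u') / (u' ^ 2 * u ^ 2) := by
    field_simp
    ring
  rw [e, hdiff]
  calc r ^ 2 / u ^ 3 = r ^ 2 * u / (u ^ 2 * u ^ 2) := by field_simp
    _ ≤ r ^ 2 * (u + u') / (u' ^ 2 * u ^ 2) := by
        gcongr
        exact le_add_of_nonneg_right hu'.le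
    _ = _ := by ring

namespace Setup

variable (S : Setup)

lemma th_nonneg (r : ℝ) (y z : V) : 0 ≤ S.th r y z := by rw [th]; positivity

lemma th3_nonneg (r : ℝ) (y z : V) : 0 ≤ S.th3 r y z := by
  have := S.rho2_nonneg z (z - y)
  rw [th3]; positivity

lemma th_le {r : ℝ} (hr : 0 < r) (y z : V) : S.th r y z ≤ 1 / r ^ 2 := by
  have := S.rho2_nonneg z (z - y)
  rw [th]
  calc r ^ 2 / (r ^ 2 + S.rho2 z (z - y)) ^ 2 ≤ r ^ 2 / (r ^ 2) ^ 2 := by
        gcongr
        linarith
    _ = _ := by field_simp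

lemma th3_le {r : ℝ} (hr : 0 < r) (y z : V) : S.th3 r y z ≤ 1 / r ^ 4 := by
  have := S.rho2_nonneg z (z - y)
  rw [th3]
  calc r ^ 2 / (r ^ 2 + S.rho2 z (z - y)) ^ 3 ≤ r ^ 2 / (r ^ 2) ^ 3 := by
        gcongr
        linarith
    _ = _ := by field_simp

/-- The adapted weight and the periodic one are comparable. -/
lemma exists_th_compare : ∃ C, 0 < C ∧ ∀ r, 0 < r → ∀ y z,
    S.th r y z ≤ C * (r ^ 2 / (r ^ 2 + dist0 (z - y) ^ 2) ^ 2) ∧
      r ^ 2 / (r ^ 2 + dist0 (z - y) ^ 2) ^ 2 ≤ C * S.th r y z := by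
  obtain ⟨c', C', hc', hC', hρ⟩ := S.exists_rho2_bounds
  set c := min c' 1
  have hc : 0 < c := lt_min hc' one_pos
  refine ⟨1 / c ^ 2 + (C' + 1) ^ 2, by positivity, fun r hr y z => ?_⟩
  set d := dist0 (z - y)
  obtain ⟨hl, hu⟩ := hρ z (z - y)
  have hρ0 := S.rho2_nonneg z (z - y)
  have hp : 0 < r ^ 2 + d ^ 2 := by positivity
  have hD : c * (r ^ 2 + d ^ 2) ≤ r ^ 2 + S.rho2 z (z - y) := by
    nlinarith [min_le_right c' 1, mul_le_mul_of_nonneg_right (min_le_left c' 1) (sq_nonneg d),
      sq_nonneg r]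
  constructor
  · rw [th]
    calc r ^ 2 / (r ^ 2 + S.rho2 z (z - y)) ^ 2 ≤ r ^ 2 / (c * (r ^ 2 + d ^ 2)) ^ 2 := by gcongr
      _ = 1 / c ^ 2 * (r ^ 2 / (r ^ 2 + d ^ 2) ^ 2) := by field_simp
      _ ≤ _ := mul_le_mul_of_nonneg_right (le_add_of_nonneg_right (by positivity)) (by positivity)
  · have hU : r ^ 2 + S.rho2 z (z - y) ≤ (C' + 1) * (r ^ 2 + d ^ 2) := by
      nlinarith [sq_nonneg d, sq_nonneg r]
    calc r ^ 2 / (r ^ 2 + d ^ 2) ^ 2
        = (C' + 1) ^ 2 * (r ^ 2 / ((C' + 1) * (r ^ 2 + d ^ 2)) ^ 2) := by field_simp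
      _ ≤ (C' + 1) ^ 2 * S.th r y z := by
          rw [th]
          gcongr
      _ ≤ _ := mul_le_mul_of_nonneg_right (le_add_of_nonneg_left (by positivity))
          (S.th_nonneg r y z)

lemma continuous_th₂ {r : ℝ} (hr : 0 < r) : Continuous fun p : V × V => S.th r p.1 p.2 :=
  Continuous.comp (g := fun p : V × V => S.th r p.2 p.1) (f := fun p : V × V => (p.2, p.1))
    (S.contDiff_th₂ hr).continuous (continuous_snd.prodMk continuous_fst)

lemma continuous_th3₂ {r : ℝ} (hr : 0 < r) : Continuous fun p : V × V => S.th3 r p.1 p.2 := by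
  have h : Continuous fun p : V × V => S.rho2 p.2 (p.2 - p.1) :=
    Continuous.comp (g := fun p : V × V => S.rho2 p.1 (p.1 - p.2))
      (f := fun p : V × V => (p.2, p.1)) S.contDiff_rho2₂.continuous
      (continuous_snd.prodMk continuous_fst)
  refine continuous_const.div ((continuous_const.add h).pow 3) fun p => ?_
  have := S.rho2_nonneg p.2 (p.2 - p.1)
  positivity

lemma continuous_B₃ : Continuous fun p : V × Form × V => S.B p.1 p.2.1 p.2.2 p.2.2 := by
  have hc : ∀ i, Continuous fun p : V × Form × V => p.2.2 i := fun i =>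
    (continuous_apply i).comp (continuous_snd.comp continuous_snd)
  have hj : ∀ i, Continuous fun p : V × Form × V => S.J p.1 p.2.2 i := fun i =>
    (continuous_apply i).comp (S.continuous_J_apply₂.comp
      (continuous_fst.prodMk (continuous_snd.comp continuous_snd)))
  simp only [B, ev]
  exact continuous_finsetSum _ fun k _ => ((PiLp.continuous_apply 2 _ k).comp
    (continuous_fst.comp continuous_snd)).mul (((hc _).mul (hj _)).sub ((hj _).mul (hc _)))

end Setup

namespace Current

variable {S : Setup} (T : Current S)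

/-- The transverse part at the scale `r`, with the factor `κ`. -/
noncomputable def Kk (r : ℝ) (y : V) : ℝ :=
  ∫ z, S.kap z * S.B z (T.h z) (sv (z - y)) (sv (z - y)) / (r ^ 2 + S.rho2 z (z - y)) ^ 2 ∂T.ν

lemma measurable_B {X : Type*} [MeasurableSpace X] {z : X → V} {v : X → V} (hz : Measurable z)
    (hv : Measurable v) : Measurable fun p => S.B (z p) (T.h (z p)) (v p) (v p) :=
  S.continuous_B₃.measurable.comp (hz.prodMk ((T.meas.comp hz).prodMk hv))

lemma exists_B_bound : ∃ C, 0 < C ∧ ∀ z v, 0 ≤ S.B z (T.h z) v v ∧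
    S.B z (T.h z) v v ≤ C * ‖v‖ ^ 2 := by
  obtain ⟨N, hN0, hN⟩ := T.exists_h_bound
  obtain ⟨K, hK0, hK⟩ := exists_bound S.J_smooth.smooth.continuous S.J_smooth.periodic
  refine ⟨12 * (N * K), by positivity, fun z v => ⟨S.B_nonneg (T.psd z) v,
    (le_abs_self _).trans ((abs_ev_le _ _ _).trans ?_)⟩⟩
  calc 12 * (‖T.h z‖ * (‖v‖ * ‖S.J z v‖)) ≤ 12 * (N * (‖v‖ * (K * ‖v‖))) := by
        gcongr
        · exact hN z
        · exact ((S.J z).le_opNorm v).trans (by gcongr; exact hK z)
    _ = _ := by ring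

lemma exists_Bs_bound : ∃ C, 0 < C ∧ ∀ y z, 0 ≤ S.B z (T.h z) (sv (z - y)) (sv (z - y)) ∧
    S.B z (T.h z) (sv (z - y)) (sv (z - y)) ≤ C := by
  obtain ⟨C, hC, h⟩ := T.exists_B_bound
  refine ⟨C, hC, fun y z => ⟨(h z _).1, (h z _).2.trans (mul_le_of_le_one_right hC.le ?_)⟩⟩
  exact pow_le_one₀ (norm_nonneg _) ((norm_sv_le _).trans (dist0_le_one _))

lemma integrable_th {r : ℝ} (hr : 0 < r) (y : V) : Integrable (fun z => S.th r y z) T.ν :=
  T.integrable_bounded ((S.continuous_th₂ hr).comp (continuous_const.prodMk continuous_id)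
    ).aestronglyMeasurable (C := 1 / r ^ 2) fun z => by
      rw [Real.norm_eq_abs, abs_of_nonneg (S.th_nonneg r y z)]
      exact S.th_le hr y z

lemma Th_nonneg (r : ℝ) (y : V) : 0 ≤ T.Th r y := integral_nonneg fun z => S.th_nonneg r y z

/-- The integrand of `Kk`. -/
lemma integrable_Kk {r : ℝ} (hr : 0 < r) (y : V) : Integrable (fun z =>
    S.kap z * S.B z (T.h z) (sv (z - y)) (sv (z - y)) / (r ^ 2 + S.rho2 z (z - y)) ^ 2) T.ν := by
  obtain ⟨c, C, hc, hC, hg⟩ := S.Om_bounds
  obtain ⟨K, hK, hB⟩ := T.exists_Bs_bound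
  have hm : Measurable fun z =>
      S.kap z * S.B z (T.h z) (sv (z - y)) (sv (z - y)) / (r ^ 2 + S.rho2 z (z - y)) ^ 2 := by
    refine ((Continuous.measurable ?_).mul (T.measurable_B measurable_id
      (Continuous.measurable (contDiff_sv.continuous.comp
        (continuous_id.sub continuous_const))))).div ?_
    · have h := fun k => (contDiff_form.1 S.smooth_Om.smooth k).continuous
      unfold Setup.kap
      exact (Setup.continuous_q S.smooth_Om.smooth.continuous S.smooth_Om.smooth.continuous).div_const 2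
    · exact ((continuous_const.add (S.contDiff_rho2_sub y).continuous).pow 2).measurable
  refine T.integrable_bounded hm.aestronglyMeasurable (C := C * K / (r ^ 2) ^ 2) fun z => ?_
  obtain ⟨h0, h1⟩ := hB y z
  have := S.rho2_nonneg z (z - y)
  have hk := (S.kap_pos z).le
  rw [Real.norm_eq_abs, abs_of_nonneg (by positivity)]
  gcongr
  · exact (hg z z).2.2.2
  · linarith

lemma Kk_nonneg (r : ℝ) (y : V) : 0 ≤ T.Kk r y := integral_nonneg fun z => by
  have := (S.kap_pos z).le
  have := S.B_nonneg (T.psd z) (sv (z - y))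
  positivity

lemma Kk_anti {r R : ℝ} (hr : 0 < r) (hrR : r ≤ R) (y : V) : T.Kk R y ≤ T.Kk r y := by
  refine integral_mono (T.integrable_Kk (hr.trans_le hrR) y) (T.integrable_Kk hr y) fun z => ?_
  have := (S.kap_pos z).le
  have := S.B_nonneg (T.psd z) (sv (z - y))
  have := S.rho2_nonneg z (z - y)
  refine div_le_div_of_nonneg_left (by positivity) (by positivity) ?_
  gcongr

lemma measurable_alErr {r : ℝ} (hr : 0 < r) (y : V) :
    Measurable fun z => S.alErr r y z (T.h z) := by
  unfold Setup.alErr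
  refine ((Setup.continuous_q continuous_fst continuous_snd).measurable.comp
    (T.meas.prodMk (S.smooth_al hr y).smooth.continuous.measurable)).sub ?_
  refine (measurable_const.add ((measurable_const.mul ?_).mul (T.measurable_B measurable_id
    (Continuous.measurable (contDiff_sv.continuous.comp
      (continuous_id.sub continuous_const)))))).div ?_
  · unfold Setup.kap
    exact ((Setup.continuous_q S.smooth_Om.smooth.continuous
      S.smooth_Om.smooth.continuous).div_const 2).measurable
  · exact ((continuous_const.add (S.contDiff_rho2_sub y).continuous).pow 2).measurable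

/-- The test integral is the two monotone quantities up to the error. -/
lemma app_al {r : ℝ} (hr : 0 < r) (hr1 : r ≤ 1) (y : V) :
    Integrable (fun z => S.alErr r y z (T.h z)) T.ν ∧
    T.app (S.al r y) = 4 * T.Th r y + 4 * T.Kk r y + ∫ z, S.alErr r y z (T.h z) ∂T.ν := by
  obtain ⟨C, hC, hb⟩ := S.exists_al_bounds
  have he : Integrable (fun z => S.alErr r y z (T.h z)) T.ν :=
    T.integrable_bounded (T.measurable_alErr hr y).aestronglyMeasurable (C := C / r) fun z =>
      ((hb r hr hr1 y z).2.2 (T.h z) (T.psd z) (T.trace z)).trans (by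
        gcongr; exact le_add_of_nonneg_right (dist0_nonneg _))
  refine ⟨he, ?_⟩
  rw [Th, Kk, ← integral_const_mul, ← integral_const_mul,
    ← integral_add ((T.integrable_th hr y).const_mul 4) ((T.integrable_Kk hr y).const_mul 4),
    ← integral_add (((T.integrable_th hr y).const_mul 4).fun_add
      ((T.integrable_Kk hr y).const_mul 4)) he]
  refine integral_congr_ae (Filter.Eventually.of_forall fun z => ?_)
  simp only [Setup.th, Setup.alErr]
  ring

end Current

namespace Current

variable {S : Setup} (T : Current S)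

/-- Almost monotonicity of the two quantities of the test integral. -/
def Monotone2 : Prop := ∃ C, 0 < C ∧ ∀ r R, 0 < r → r ≤ R → R ≤ 1 → ∀ y,
  |(T.Th r y + T.Kk r y) - (T.Th R y + T.Kk R y)| ≤ C * Real.sqrt R

/-- The density has a limit and the transverse part is bounded. -/
lemma exists_limit_of_mono (hM : T.Monotone2) : ∃ C, 0 < C ∧
    (∀ r, 0 < r → r ≤ 1 → ∀ y, T.Th r y ≤ C ∧ T.Kk r y ≤ C) ∧
      ∀ y, ∃ l, Tendsto (fun k => T.Th (scale k) y) atTop (𝓝 l) := by
  obtain ⟨A, hA0, hA⟩ := hM
  obtain ⟨c, C, hc, hC, hg⟩ := S.Om_bounds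
  obtain ⟨K, hK, hB⟩ := T.exists_Bs_bound
  set m := T.ν.real Set.univ
  have hm : 0 ≤ m := measureReal_nonneg
  refine ⟨A + m + C * K * m + 1, by positivity, fun r hr hr1 y => ?_, fun y => ?_⟩
  · have h1 : T.Th 1 y ≤ m := by
      refine (integral_mono (T.integrable_th one_pos y) (integrable_const (1 : ℝ)) fun z => ?_).trans
        (le_of_eq (by simp [m]))
      simpa using S.th_le one_pos y z
    have h2 : T.Kk 1 y ≤ C * K * m := by
      refine (integral_mono (T.integrable_Kk one_pos y) (integrable_const (C * K)) fun z => ?_).trans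
        (le_of_eq (by rw [integral_const, smul_eq_mul]; ring))
      have := S.rho2_nonneg z (z - y)
      obtain ⟨b0, b1⟩ := hB y z
      have hk := (S.kap_pos z).le
      calc S.kap z * S.B z (T.h z) (sv (z - y)) (sv (z - y)) / (1 ^ 2 + S.rho2 z (z - y)) ^ 2
          ≤ S.kap z * S.B z (T.h z) (sv (z - y)) (sv (z - y)) / 1 := by
            gcongr
            nlinarith
        _ ≤ C * K := by
            rw [div_one]
            exact mul_le_mul (hg z z).2.2.2 b1 b0 hC.le
    have h3 := abs_le.1 (hA r 1 hr hr1 le_rfl y)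
    rw [Real.sqrt_one, mul_one] at h3
    have := T.Th_nonneg r y
    have := T.Kk_nonneg r y
    constructor <;> linarith
  · set a := fun k => T.Th (scale k) y + T.Kk (scale k) y
    have hcs : CauchySeq a := by
      refine cauchySeq_of_le_tendsto_0 (fun n => 2 * (A * Real.sqrt (scale n)))
        (fun n m N hn hm => ?_) ?_
      · rw [Real.dist_eq]
        have key : ∀ n, N ≤ n → |a n - a N| ≤ A * Real.sqrt (scale N) := fun n hn =>
          hA _ _ (scale_pos' n) (scale_antitone hn) (Mass.scale_le_one N) y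
        have e1 := abs_le.1 (key n hn)
        have e2 := abs_le.1 (key m hm)
        rw [abs_le]; constructor <;> linarith
      · have h := ((Real.continuous_sqrt.tendsto 0).comp tendsto_scale).const_mul A
        rw [Real.sqrt_zero, mul_zero] at h
        simpa using h.const_mul 2
    obtain ⟨la, hla⟩ := cauchySeq_tendsto_of_complete hcs
    have hmono : Monotone fun k => T.Kk (scale k) y := fun i j hij =>
      T.Kk_anti (scale_pos' j) (scale_antitone hij) y
    have hbdd : BddAbove (Set.range fun k => T.Kk (scale k) y) := by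
      refine ⟨A + m + C * K * m + 1, ?_⟩
      rintro x ⟨k, rfl⟩
      have h1 : T.Th 1 y ≤ m := by
        refine (integral_mono (T.integrable_th one_pos y) (integrable_const (1 : ℝ))
          fun z => ?_).trans (le_of_eq (by simp [m]))
        simpa using S.th_le one_pos y z
      have h2 : T.Kk 1 y ≤ C * K * m := by
        refine (integral_mono (T.integrable_Kk one_pos y) (integrable_const (C * K))
          fun z => ?_).trans (le_of_eq (by rw [integral_const, smul_eq_mul]; ring))
        have := S.rho2_nonneg z (z - y)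
        obtain ⟨b0, b1⟩ := hB y z
        have hk := (S.kap_pos z).le
        calc S.kap z * S.B z (T.h z) (sv (z - y)) (sv (z - y)) / (1 ^ 2 + S.rho2 z (z - y)) ^ 2
            ≤ S.kap z * S.B z (T.h z) (sv (z - y)) (sv (z - y)) / 1 := by
              gcongr
              nlinarith
          _ ≤ C * K := by
              rw [div_one]
              exact mul_le_mul (hg z z).2.2.2 b1 b0 hC.le
      have h3 := abs_le.1 (hA _ 1 (scale_pos' k) (Mass.scale_le_one k) le_rfl y)
      rw [Real.sqrt_one, mul_one] at h3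
      have := T.Th_nonneg (scale k) y
      linarith
    have hlk := tendsto_atTop_ciSup hmono hbdd
    exact ⟨_, (hla.sub hlk).congr fun k => by simp [a]⟩

/-- The transverse integrals at the dyadic scales are summable, hence vanish. -/
lemma tendsto_transverse_of_mono (hM : T.Monotone2) :
    Tendsto (fun k => ∫ y, ∫ z, S.th3 (scale k) y z *
      S.B z (T.h z) (sv (z - y)) (sv (z - y)) ∂T.ν ∂T.ν) atTop (𝓝 0) := by
  obtain ⟨A, hA0, hA, -⟩ := T.exists_limit_of_mono hM
  obtain ⟨c, C, hc, hC, hg⟩ := S.Om_bounds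
  obtain ⟨K, hK, hB⟩ := T.exists_Bs_bound
  set P : ℕ → V → V → ℝ := fun k y z =>
    S.th3 (scale k) y z * S.B z (T.h z) (sv (z - y)) (sv (z - y))
  have hmeas : ∀ k, Measurable fun p : V × V => P k p.1 p.2 := fun k =>
    (S.continuous_th3₂ (scale_pos' k)).measurable.mul (T.measurable_B measurable_snd
      (Continuous.measurable (contDiff_sv.continuous.comp (continuous_snd.sub continuous_fst))))
  have hP0 : ∀ k y z, 0 ≤ P k y z := fun k y z => mul_nonneg (S.th3_nonneg _ y z) (hB y z).1
  have hPle : ∀ k y z, P k y z ≤ 1 / scale k ^ 4 * K := fun k y z =>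
    mul_le_mul (S.th3_le (scale_pos' k) y z) (hB y z).2 (hB y z).1 (by positivity)
  have hiy : ∀ k y, Integrable (fun z => P k y z) T.ν := fun k y =>
    T.integrable_bounded ((hmeas k).comp measurable_prodMk_left).aestronglyMeasurable
      fun z => (Real.norm_of_nonneg (hP0 k y z)).trans_le (hPle k y z)
  have hip : ∀ k, Integrable (fun y => ∫ z, P k y z ∂T.ν) T.ν := fun k =>
    (Integrable.of_bound (μ := T.ν.prod T.ν) (hmeas k).aestronglyMeasurable (1 / scale k ^ 4 * K)
      (Filter.Eventually.of_forall fun p => (Real.norm_of_nonneg (hP0 k p.1 p.2)).trans_le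
        (hPle k p.1 p.2))).integral_prod_left
  have hsum : ∀ n y, ∑ k ∈ Finset.range n, ∫ z, P k y z ∂T.ν ≤ 4 / 3 / c * A := by
    intro n y
    rw [← integral_finsetSum _ fun k _ => hiy k y]
    have hKk := (hA (scale n) (scale_pos' n) (Mass.scale_le_one n) y).2
    refine le_trans ?_ (mul_le_mul_of_nonneg_left hKk (by positivity))
    rw [Current.Kk, ← integral_const_mul]
    refine integral_mono (integrable_finsetSum _ fun k _ => hiy k y)
      ((T.integrable_Kk (scale_pos' n) y).const_mul _) fun z => ?_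
    have hρ := S.rho2_nonneg z (z - y)
    obtain ⟨b0, -⟩ := hB y z
    set b := S.B z (T.h z) (sv (z - y)) (sv (z - y))
    set ρ := S.rho2 z (z - y)
    set G := fun k => 1 / (scale k ^ 2 + ρ) ^ 2
    have hstep : ∀ k, scale k ^ 2 / (scale k ^ 2 + ρ) ^ 3 ≤ 4 / 3 * (G (k + 1) - G k) := fun k => by
      have := telescope_step (scale_pos' k) hρ
      rwa [show scale k / 2 = scale (k + 1) by rw [Mass.scale_succ k]; ring] at this
    calc ∑ k ∈ Finset.range n, P k y z
        ≤ ∑ k ∈ Finset.range n, 4 / 3 * (G (k + 1) - G k) * b :=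
          Finset.sum_le_sum fun k _ => mul_le_mul_of_nonneg_right (hstep k) b0
      _ = 4 / 3 * (G n - G 0) * b := by
          rw [← Finset.sum_mul, ← Finset.mul_sum, Finset.sum_range_sub]
      _ ≤ 4 / 3 * G n * b := by
          have : 0 ≤ G 0 := by positivity
          gcongr
          linarith
      _ = 4 / 3 / c * (c * b / (scale n ^ 2 + ρ) ^ 2) := by simp only [G]; field_simp
      _ ≤ _ := by
          gcongr
          exact (hg z z).2.2.1
  have hnn : ∀ k, 0 ≤ ∫ y, ∫ z, P k y z ∂T.ν ∂T.ν := fun k =>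
    integral_nonneg fun y => integral_nonneg fun z => hP0 k y z
  refine (summable_of_sum_range_le (c := 4 / 3 / c * A * T.ν.real Set.univ) hnn
    fun n => ?_).tendsto_atTop_zero
  rw [← integral_finsetSum _ fun k _ => hip k]
  refine (integral_mono (integrable_finsetSum _ fun k _ => hip k) (integrable_const _)
    (hsum n)).trans_eq ?_
  rw [integral_const, smul_eq_mul, mul_comm]

end Current

namespace UData

variable {S : Setup} {T : Current S} (D : UData T)

lemma integrable_app {α : V → Form} (hα : Smooth α) :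
    Integrable (fun z => q (T.h z) (α z)) T.ν := by
  obtain ⟨N, hN0, hN⟩ := T.exists_h_bound
  obtain ⟨M, hM0, hM⟩ := exists_bound hα.smooth.continuous hα.periodic
  refine T.integrable_bounded ((Setup.continuous_q continuous_fst continuous_snd).measurable.comp
    (T.meas.prodMk hα.smooth.continuous.measurable)).aestronglyMeasurable
      (C := 6 * (N * M)) fun z => (abs_q_le _ _).trans ?_
  gcongr
  · exact hN z
  · exact hM z

lemma U_closed_diff {α β : V → Form} (hα : Smooth α) (hβ : Smooth β) (cα : Closed α)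
    (cβ : Closed β) :
    Smooth (fun x => α x - β x) ∧ D.Sf (fun x => α x - β x) = T.app β - T.app α := by
  have hs : Smooth ((-1 : ℝ) • β) := ⟨hβ.smooth.const_smul (-1 : ℝ), fun x n => by
    simp only [Pi.smul_apply, hβ.periodic x n]⟩
  have e : (fun x => α x - β x) = α + (-1 : ℝ) • β := funext fun x => by
    simp [sub_eq_add_neg]
  refine ⟨⟨hα.smooth.sub hβ.smooth, fun x n => by simp only [hα.periodic x n, hβ.periodic x n]⟩,
    ?_⟩
  have happ : T.app (fun x => α x - β x) = T.app α - T.app β := by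
    simp only [Current.app, q_sub_right]
    exact integral_sub (integrable_app hα) (integrable_app hβ)
  rw [Sf, happ, e, D.add α _ hα hs, D.smul _ β hβ, D.closed α hα cα, D.closed β hβ cβ]
  ring

/-- Almost monotonicity. -/
lemma exists_mono_two (hd : T.DensBound) (L : D.SLimit) : ∃ C, 0 < C ∧
    ∀ r R, 0 < r → r ≤ R → R ≤ 1 → ∀ y,
      |(T.Th r y + T.Kk r y) - (T.Th R y + T.Kk R y)| ≤ C * Real.sqrt R := by
  obtain ⟨A, hA0, hA⟩ := S.exists_al_diff
  obtain ⟨W, hW⟩ := T.exists_int_three_halves hd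
  obtain ⟨Cs, hCs⟩ := L.Sf_bound
  set P := sinPowMass ((3 : ℕ) / 4 : ℝ) ^ 4
  have hP0 : 0 ≤ P := le_trans (integral_nonneg fun x => by
    have := dist0_nonneg (x - 0)
    positivity) (integral_invPow_le (0 : V) (by norm_num : 3 < 4))
  have hW0 : 0 ≤ W := le_trans (integral_nonneg fun z => by
    have := dist0_nonneg (z - 0)
    positivity) (hW 0).2
  refine ⟨A * W + |Cs| * (A * Real.sqrt P) + 1, by positivity, fun r R hr hrR hR y => ?_⟩
  have hR0 : 0 < R := hr.trans_le hrR
  obtain ⟨hir, her⟩ := T.app_al hr (hrR.trans hR) y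
  obtain ⟨hiR, heR⟩ := T.app_al hR0 hR y
  obtain ⟨hsm, hSf⟩ := D.U_closed_diff (S.smooth_al hr y) (S.smooth_al hR0 y)
    (S.closed_al hr y) (S.closed_al hR0 y)
  have hX : ∀ z, Real.sqrt R / (dist0 (z - y) * Real.sqrt (dist0 (z - y))) =
      Real.sqrt R * (dist0 (z - y) * Real.sqrt (dist0 (z - y)))⁻¹ := fun z => div_eq_mul_inv _ _
  -- the error
  have h1 : |∫ z, S.alErr r y z (T.h z) ∂T.ν - ∫ z, S.alErr R y z (T.h z) ∂T.ν| ≤
      A * W * Real.sqrt R := by
    rw [← integral_sub hir hiR]
    refine (abs_integral_le_integral_abs).trans ?_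
    refine (integral_mono_of_nonneg (Filter.Eventually.of_forall fun z => abs_nonneg _)
      (((hW y).1.const_mul (Real.sqrt R)).const_mul A) (Filter.Eventually.of_forall fun z => ?_)).trans ?_
    · exact ((hA r R hr hrR hR y z).2 (T.h z) (T.psd z) (T.trace z)).trans_eq (by rw [hX])
    · rw [integral_const_mul, integral_const_mul]
      calc A * (Real.sqrt R * ∫ z, (dist0 (z - y) * Real.sqrt (dist0 (z - y)))⁻¹ ∂T.ν)
          ≤ A * (Real.sqrt R * W) := by gcongr; exact (hW y).2
        _ = _ := by ring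
  -- the anti-invariant part
  have h2 : |D.Sf (fun x => S.al r y x - S.al R y x)| ≤ |Cs| * (A * Real.sqrt P) * Real.sqrt R := by
    refine (hCs _ hsm).trans ((mul_le_mul_of_nonneg_right (le_abs_self Cs) (l2_nonneg _)).trans ?_)
    rw [mul_assoc]
    refine mul_le_mul_of_nonneg_left ?_ (abs_nonneg _)
    rw [l2, show A * Real.sqrt P * Real.sqrt R = Real.sqrt (A ^ 2 * R * P) by
      rw [Real.sqrt_mul (by positivity), Real.sqrt_mul (sq_nonneg A), Real.sqrt_sq hA0.le]; ring]
    refine Real.sqrt_le_sqrt ?_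
    refine (integral_mono_of_nonneg (Filter.Eventually.of_forall fun x => sq_nonneg _)
      ((integrable_invPow y (by norm_num : 3 < 4)).const_mul (A ^ 2 * R))
      (Filter.Eventually.of_forall fun x => ?_)).trans ?_
    · refine (pow_le_pow_left₀ (norm_nonneg _) (hA r R hr hrR hR y x).1 2).trans_eq ?_
      rw [mul_pow, div_pow, mul_pow, Real.sq_sqrt hR0.le, Real.sq_sqrt (dist0_nonneg _)]
      ring
    · rw [integral_const_mul]
      exact mul_le_mul_of_nonneg_left (integral_invPow_le y (by norm_num : 3 < 4)) (by positivity)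
  rw [hSf, her, heR] at h2
  have hs : 0 ≤ Real.sqrt R := Real.sqrt_nonneg R
  have k0 : 0 ≤ A * W * Real.sqrt R := by positivity
  have k1 : 0 ≤ |Cs| * (A * Real.sqrt P) * Real.sqrt R := by positivity
  rw [abs_le] at h1 h2 ⊢
  constructor <;> nlinarith

/-- The density has a limit and the transverse part is bounded. -/
lemma exists_limit (hd : T.DensBound) (L : D.SLimit) : ∃ C, 0 < C ∧
    (∀ r, 0 < r → r ≤ 1 → ∀ y, T.Th r y ≤ C ∧ T.Kk r y ≤ C) ∧
      ∀ y, ∃ l, Tendsto (fun k => T.Th (scale k) y) atTop (𝓝 l) :=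
  T.exists_limit_of_mono (D.exists_mono_two hd L)

/-- The transverse integrals at the dyadic scales are summable, hence vanish. -/
lemma tendsto_transverse (hd : T.DensBound) (L : D.SLimit) :
    Tendsto (fun k => ∫ y, ∫ z, S.th3 (scale k) y z *
      S.B z (T.h z) (sv (z - y)) (sv (z - y)) ∂T.ν ∂T.ν) atTop (𝓝 0) :=
  T.tendsto_transverse_of_mono (D.exists_mono_two hd L)

end UData

end Vale.Agent.P204.Torus
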