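import Vale.Agent.P204.Torus.Mult

/-!
P204 on the four-torus: the Lax-Milgram lemma on coefficients of real fields.
-/

open MeasureTheory Filter Topology
open scoped BigOperators ComplexConjugate ENNReal InnerProductSpace

namespace Vale.Agent.P204.Torus

/-- Square summable coefficients of a real field. -/
def Good (c : Freq → CForm) : Prop := Herm c ∧ Summable fun ξ => ‖c ξ‖ ^ 2

/-- The sum of squares of coefficients. -/
noncomputable def SQ (c : Freq → CForm) : ℝ := ∑' ξ, ‖c ξ‖ ^ 2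

/-- The pairing of coefficients. -/
noncomputable def PQ (a b : Freq → CForm) : ℝ := ∑' ξ, (qC (a ξ) (cconj (b ξ))).re

lemma SQ_nonneg (c : Freq → CForm) : 0 ≤ SQ c := tsum_nonneg fun _ => sq_nonneg _

/-- The swap of a coordinate with its partner under `q`. -/
def sw : Fin 6 → Fin 6 := ![3, 4, 5, 0, 1, 2]

lemma sw_sw (k : Fin 6) : sw (sw k) = k := by fin_cases k <;> rfl

lemma qC_eq_sum (a b : CForm) : qC a b = ∑ k, a k * b (sw k) := by
  simp [qC, sw, Fin.sum_univ_succ]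
  ring

lemma abs_qC_le (a b : CForm) : |(qC a (cconj b)).re| ≤ 6 * (‖a‖ * ‖b‖) := by
  refine (Complex.abs_re_le_norm _).trans ?_
  rw [qC_eq_sum]
  refine (norm_sum_le _ _).trans ((Finset.sum_le_card_nsmul _ _ (‖a‖ * ‖b‖) fun k _ => ?_).trans_eq
    (by simp))
  rw [norm_mul, cconj_apply, Complex.norm_conj]
  exact mul_le_mul (coord_le a k) (coord_le b _) (norm_nonneg _) (norm_nonneg _)

lemma summable_PQ {a b : Freq → CForm} (ha : Summable fun ξ => ‖a ξ‖ ^ 2)
    (hb : Summable fun ξ => ‖b ξ‖ ^ 2) :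
    Summable fun ξ => (qC (a ξ) (cconj (b ξ))).re :=
  Summable.of_norm_bounded
    ((cs_tsum (fun _ => norm_nonneg _) (fun _ => norm_nonneg _) ha hb).1.mul_left 6)
    fun _ => abs_qC_le _ _

lemma abs_PQ_le {a b : Freq → CForm} (ha : Summable fun ξ => ‖a ξ‖ ^ 2)
    (hb : Summable fun ξ => ‖b ξ‖ ^ 2) :
    |PQ a b| ≤ 6 * (Real.sqrt (SQ a) * Real.sqrt (SQ b)) := by
  obtain ⟨h1, h2⟩ := cs_tsum (fun _ => norm_nonneg _) (fun _ => norm_nonneg _) ha hb
  rw [← Real.norm_eq_abs]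
  refine (tsum_of_norm_bounded (f := fun ξ => (qC (a ξ) (cconj (b ξ))).re) (h1.mul_left 6).hasSum
    fun ξ => abs_qC_le (a ξ) (b ξ)).trans ?_
  rw [tsum_mul_left]
  exact mul_le_mul_of_nonneg_left h2 (by norm_num)

lemma qC_add_left (a a' b : CForm) : qC (a + a') b = qC a b + qC a' b := by
  simp only [qC, PiLp.add_apply]; ring

lemma qC_add_right (a b b' : CForm) : qC a (b + b') = qC a b + qC a b' := by
  simp only [qC, PiLp.add_apply]; ring

lemma qC_smul_left (r : ℂ) (a b : CForm) : qC (r • a) b = r * qC a b := by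
  simp only [qC, PiLp.smul_apply, smul_eq_mul]; ring

lemma qC_smul_right (r : ℂ) (a b : CForm) : qC a (r • b) = r * qC a b := by
  simp only [qC, PiLp.smul_apply, smul_eq_mul]; ring

lemma cconj_add (a b : CForm) : cconj (a + b) = cconj a + cconj b := by
  ext k; simp [cconj_apply]

lemma cconj_smul_real (r : ℝ) (a : CForm) : cconj ((r : ℂ) • a) = (r : ℂ) • cconj a := by
  ext k; simp [cconj_apply]

lemma Good.add {a b : Freq → CForm} (ha : Good a) (hb : Good b) : Good (a + b) := by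
  refine ⟨fun ξ => by simp [ha.1 ξ, hb.1 ξ, cconj_add],
    ((ha.2.mul_left 2).add (hb.2.mul_left 2)).of_nonneg_of_le (fun _ => sq_nonneg _) fun ξ => ?_⟩
  have := norm_add_le (a ξ) (b ξ)
  simp only [Pi.add_apply]
  nlinarith [norm_nonneg (a ξ + b ξ), sq_nonneg (‖a ξ‖ - ‖b ξ‖)]

lemma Good.smul {a : Freq → CForm} (ha : Good a) (r : ℝ) : Good ((r : ℂ) • a) := by
  refine ⟨fun ξ => by rw [Pi.smul_apply, Pi.smul_apply, ha.1 ξ, cconj_smul_real], (ha.2.mul_left (r ^ 2)).congr fun ξ => ?_⟩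
  simp [norm_smul, mul_pow]

lemma Good.neg {a : Freq → CForm} (ha : Good a) : Good (-a) := by
  simpa using ha.smul (-1)

lemma Good.sub {a b : Freq → CForm} (ha : Good a) (hb : Good b) : Good (a - b) := by
  simpa [sub_eq_add_neg] using ha.add hb.neg

lemma SQ_add_le {a b : Freq → CForm} (ha : Summable fun ξ => ‖a ξ‖ ^ 2)
    (hb : Summable fun ξ => ‖b ξ‖ ^ 2) :
    (Summable fun ξ => ‖a ξ + b ξ‖ ^ 2) ∧ SQ (a + b) ≤ 2 * SQ a + 2 * SQ b := by
  have h : ∀ ξ, ‖a ξ + b ξ‖ ^ 2 ≤ 2 * ‖a ξ‖ ^ 2 + 2 * ‖b ξ‖ ^ 2 := fun ξ => by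
    have := norm_add_le (a ξ) (b ξ)
    nlinarith [norm_nonneg (a ξ + b ξ), sq_nonneg (‖a ξ‖ - ‖b ξ‖)]
  have hs := ((ha.mul_left 2).add (hb.mul_left 2)).of_nonneg_of_le (fun _ => sq_nonneg _) h
  refine ⟨hs, (hs.tsum_le_tsum h ((ha.mul_left 2).add (hb.mul_left 2))).trans_eq ?_⟩
  rw [(ha.mul_left 2).tsum_add (hb.mul_left 2), tsum_mul_left, tsum_mul_left, SQ, SQ]

lemma SQ_smul (r : ℝ) (a : Freq → CForm) : SQ ((r : ℂ) • a) = r ^ 2 * SQ a := by
  simp [SQ, ← tsum_mul_left, norm_smul, mul_pow]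

lemma PQ_add_left {a a' b : Freq → CForm} (ha : Summable fun ξ => ‖a ξ‖ ^ 2)
    (ha' : Summable fun ξ => ‖a' ξ‖ ^ 2) (hb : Summable fun ξ => ‖b ξ‖ ^ 2) :
    PQ (a + a') b = PQ a b + PQ a' b := by
  simp only [PQ, Pi.add_apply, qC_add_left, Complex.add_re]
  exact (summable_PQ ha hb).tsum_add (summable_PQ ha' hb)

lemma PQ_add_right {a b b' : Freq → CForm} (ha : Summable fun ξ => ‖a ξ‖ ^ 2)
    (hb : Summable fun ξ => ‖b ξ‖ ^ 2) (hb' : Summable fun ξ => ‖b' ξ‖ ^ 2) :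
    PQ a (b + b') = PQ a b + PQ a b' := by
  simp only [PQ, Pi.add_apply, cconj_add, qC_add_right, Complex.add_re]
  exact (summable_PQ ha hb).tsum_add (summable_PQ ha hb')

lemma PQ_smul_left (r : ℝ) (a b : Freq → CForm) : PQ ((r : ℂ) • a) b = r * PQ a b := by
  simp only [PQ, Pi.smul_apply, qC_smul_left, Complex.re_ofReal_mul, tsum_mul_left]

lemma PQ_smul_right (r : ℝ) (a b : Freq → CForm) : PQ a ((r : ℂ) • b) = r * PQ a b := by
  simp only [PQ, Pi.smul_apply, cconj_smul_real, qC_smul_right, Complex.re_ofReal_mul, tsum_mul_left]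

/-! ### Real square integrable fields -/

/-- The real Hilbert space of fields. -/
noncomputable abbrev L2F := Lp Form 2 (volume.restrict cube)

/-- The coefficients of an element. -/
noncomputable def cE (f : L2F) : Freq → CForm := coef (f : V → Form)

lemma coef_congr {f g : V → Form} (h : f =ᵐ[volume.restrict cube] g) : coef f = coef g := by
  funext ξ; ext k
  exact coefS_congr (h.mono fun x hx => by simp [hx]) ξ

lemma cE_good (f : L2F) : Good (cE f) := ⟨coef_herm _, (parseval_norm (Lp.memLp f)).summable⟩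

lemma SQ_coef {f : V → Form} (hf : MemLp f 2 (volume.restrict cube)) :
    SQ (coef f) = ∫ x in cube, ‖f x‖ ^ 2 := (parseval_norm hf).tsum_eq

lemma PQ_coef {f g : V → Form} (hf : MemLp f 2 (volume.restrict cube))
    (hg : MemLp g 2 (volume.restrict cube)) :
    PQ (coef f) (coef g) = ∫ x in cube, q (f x) (g x) := (parseval_q hf hg).tsum_eq

lemma SQ_cE (f : L2F) : SQ (cE f) = ‖f‖ ^ 2 := by
  rw [cE, SQ_coef (Lp.memLp f), ← real_inner_self_eq_norm_sq f, MeasureTheory.L2.inner_def]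
  simp

lemma sqrt_SQ_cE (f : L2F) : Real.sqrt (SQ (cE f)) = ‖f‖ := by
  rw [SQ_cE, Real.sqrt_sq (norm_nonneg _)]

lemma coef_add {f g : V → Form} (hf : MemLp f 2 (volume.restrict cube))
    (hg : MemLp g 2 (volume.restrict cube)) :
    coef (fun x => f x + g x) = coef f + coef g := by
  funext ξ; ext k
  simp only [coef_apply, PiLp.add_apply, Pi.add_apply, Complex.ofReal_add]
  exact coefS_add ((memLp_coord hf k).integrable one_le_two)
    ((memLp_coord hg k).integrable one_le_two) ξ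

lemma coef_smul (r : ℝ) (f : V → Form) : coef (fun x => r • f x) = (r : ℂ) • coef f := by
  funext ξ; ext k
  simp only [coef_apply, PiLp.smul_apply, Pi.smul_apply, smul_eq_mul, Complex.ofReal_mul]
  exact coefS_const_mul _ _ ξ

lemma cE_add (f g : L2F) : cE (f + g) = cE f + cE g := by
  rw [cE, coef_congr (Lp.coeFn_add f g)]
  exact coef_add (Lp.memLp f) (Lp.memLp g)

lemma cE_smul (r : ℝ) (f : L2F) : cE (r • f) = (r : ℂ) • cE f := by
  rw [cE, coef_congr (Lp.coeFn_smul r f)]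
  exact coef_smul r _

lemma cE_surj {c : Freq → CForm} (hc : Good c) : ∃ f : L2F, cE f = c := by
  obtain ⟨f, -, -, hf, h⟩ := exists_L2 hc.2 hc.1
  exact ⟨hf.toLp f, by rw [cE, coef_congr hf.coeFn_toLp, h]⟩

/-- Bounded real linear operators on coefficients. -/
structure IsOp (L : (Freq → CForm) → Freq → CForm) : Prop where
  add : ∀ a b, Good a → Good b → L (a + b) = L a + L b
  smul : ∀ (r : ℝ) a, Good a → L ((r : ℂ) • a) = (r : ℂ) • L a
  good : ∀ a, Good a → Good (L a)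
  bound : ∃ C, 0 ≤ C ∧ ∀ a, Good a → SQ (L a) ≤ C * SQ a

lemma eq_zero_of_SQ {a : Freq → CForm} (ha : Summable fun ξ => ‖a ξ‖ ^ 2) (h : SQ a ≤ 0) :
    a = 0 := by
  funext ξ
  have := (ha.le_tsum ξ fun _ _ => sq_nonneg _).trans h
  simpa using le_antisymm this (sq_nonneg _)

lemma PQ_swap_self {a : Freq → CForm} :
    PQ (fun ξ => WithLp.toLp 2 fun k => a ξ (sw k)) a = SQ a := by
  refine tsum_congr fun ξ => ?_
  simp only [qC_eq_sum, Complex.re_sum, cconj_apply, Complex.mul_conj', norm_sq_CForm]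
  simp only [← Complex.ofReal_pow, Complex.ofReal_re]
  exact Equiv.sum_comp ⟨sw, sw, sw_sw, sw_sw⟩ fun k => ‖a ξ k‖ ^ 2

lemma Good.swap {a : Freq → CForm} (ha : Good a) :
    Good fun ξ => WithLp.toLp 2 fun k => a ξ (sw k) := by
  refine ⟨fun ξ => ?_, ha.2.congr fun ξ => ?_⟩
  · ext k; simp [ha.1 ξ, cconj_apply]
  · simp only [norm_sq_CForm]
    exact (Equiv.sum_comp ⟨sw, sw, sw_sw, sw_sw⟩ fun k => ‖a ξ k‖ ^ 2).symm

theorem coer_bound {L : (Freq → CForm) → Freq → CForm} (hL : IsOp L) {c0 : ℝ} (h0 : 0 < c0)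
    (hc : ∀ a, Good a → c0 * SQ a ≤ PQ a (L a)) {a : Freq → CForm} (ha : Good a) :
    SQ a ≤ (6 / c0) ^ 2 * SQ (L a) := by
  have h := (hc a ha).trans ((le_abs_self _).trans (abs_PQ_le ha.2 (hL.good a ha).2))
  rcases (SQ_nonneg a).eq_or_lt with h1 | h1
  · rw [← h1]; exact mul_nonneg (sq_nonneg _) (SQ_nonneg _)
  have h2 : c0 * Real.sqrt (SQ a) ≤ 6 * Real.sqrt (SQ (L a)) := by
    refine le_of_mul_le_mul_left ?_ (Real.sqrt_pos.2 h1)
    calc Real.sqrt (SQ a) * (c0 * Real.sqrt (SQ a))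
        = c0 * (Real.sqrt (SQ a) * Real.sqrt (SQ a)) := by ring
      _ = c0 * SQ a := by rw [Real.mul_self_sqrt h1.le]
      _ ≤ 6 * (Real.sqrt (SQ a) * Real.sqrt (SQ (L a))) := h
      _ = _ := by ring
  have h3 := pow_le_pow_left₀ (by positivity) h2 2
  rw [mul_pow, mul_pow, Real.sq_sqrt h1.le, Real.sq_sqrt (SQ_nonneg _)] at h3
  rw [div_pow, div_mul_eq_mul_div, le_div_iff₀ (by positivity)]
  linarith

theorem coer_inj {L : (Freq → CForm) → Freq → CForm} (hL : IsOp L) {c0 : ℝ} (h0 : 0 < c0)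
    (hc : ∀ a, Good a → c0 * SQ a ≤ PQ a (L a)) {a b : Freq → CForm} (ha : Good a) (hb : Good b)
    (h : L a = L b) : a = b := by
  have hd := ha.sub hb
  have hz : L (a - b) = 0 := by
    have := hL.add _ _ hd hb
    rw [sub_add_cancel, h] at this
    simpa using this
  have h2 : SQ (a - b) ≤ 0 := by
    have := coer_bound hL h0 hc hd
    rw [hz] at this
    simpa [SQ] using this
  exact sub_eq_zero.1 (eq_zero_of_SQ hd.2 h2)

theorem solve {L : (Freq → CForm) → Freq → CForm} (hL : IsOp L) {c0 : ℝ} (h0 : 0 < c0)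
    (hc : ∀ a, Good a → c0 * SQ a ≤ PQ a (L a)) {b : Freq → CForm} (hb : Good b) :
    ∃ v, Good v ∧ L v = b := by
  obtain ⟨C, hC0, hC⟩ := hL.bound
  have hg := fun f => hL.good _ (cE_good f)
  have hbd : ∀ v g : L2F, |PQ (cE g) (L (cE v))| ≤ 6 * Real.sqrt C * ‖v‖ * ‖g‖ := fun v g => by
    refine (abs_PQ_le (cE_good g).2 (hg v).2).trans ?_
    rw [sqrt_SQ_cE]
    have : Real.sqrt (SQ (L (cE v))) ≤ Real.sqrt C * ‖v‖ := by
      rw [← sqrt_SQ_cE v, ← Real.sqrt_mul hC0]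
      exact Real.sqrt_le_sqrt (hC _ (cE_good v))
    calc 6 * (‖g‖ * Real.sqrt (SQ (L (cE v)))) ≤ 6 * (‖g‖ * (Real.sqrt C * ‖v‖)) :=
          mul_le_mul_of_nonneg_left (mul_le_mul_of_nonneg_left this (norm_nonneg _)) (by norm_num)
      _ = _ := by ring
  let B : L2F →L[ℝ] L2F →L[ℝ] ℝ := LinearMap.mkContinuous₂
    (LinearMap.mk₂ ℝ (fun v g => PQ (cE g) (L (cE v)))
      (fun v v' g => by
        rw [cE_add, hL.add _ _ (cE_good v) (cE_good v'),
          PQ_add_right (cE_good g).2 (hg v).2 (hg v').2])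
      (fun r v g => by rw [cE_smul, hL.smul r _ (cE_good v), PQ_smul_right, smul_eq_mul])
      (fun v g g' => by rw [cE_add, PQ_add_left (cE_good g).2 (cE_good g').2 (hg v).2])
      (fun r v g => by rw [cE_smul, PQ_smul_left, smul_eq_mul]))
    (6 * Real.sqrt C) (fun v g => hbd v g)
  have hB : IsCoercive B := ⟨c0, h0, fun v => by
    calc c0 * ‖v‖ * ‖v‖ = c0 * SQ (cE v) := by rw [SQ_cE]; ring
      _ ≤ PQ (cE v) (L (cE v)) := hc _ (cE_good v)⟩
  let l : L2F →L[ℝ] ℝ := LinearMap.mkContinuous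
    { toFun := fun g => PQ (cE g) b
      map_add' := fun g g' => by rw [cE_add, PQ_add_left (cE_good g).2 (cE_good g').2 hb.2]
      map_smul' := fun r g => by rw [cE_smul, PQ_smul_left]; rfl }
    (6 * Real.sqrt (SQ b)) fun g => by
      refine (abs_PQ_le (cE_good g).2 hb.2).trans_eq ?_
      rw [sqrt_SQ_cE]
      ring
  let r := (InnerProductSpace.toDual ℝ L2F).symm l
  let v := hB.continuousLinearEquivOfBilin.symm r
  refine ⟨cE v, cE_good v, ?_⟩
  have heq : ∀ g, PQ (cE g) (L (cE v)) = PQ (cE g) b := fun g => by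
    have h1 := hB.continuousLinearEquivOfBilin_apply v g
    rw [ContinuousLinearEquiv.apply_symm_apply, InnerProductSpace.toDual_symm_apply] at h1
    exact h1.symm
  have hd : Good (L (cE v) - b) := (hg v).sub hb
  obtain ⟨g, hgd⟩ := cE_surj hd.swap
  have h2 := heq g
  rw [hgd] at h2
  have h3 : PQ (fun ξ => WithLp.toLp 2 fun k => (L (cE v) - b) ξ (sw k)) (L (cE v) - b) = 0 := by
    have := PQ_add_right hd.swap.2 hd.2 hb.2
    rw [sub_add_cancel] at this
    linarith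
  rw [PQ_swap_self] at h3
  exact sub_eq_zero.1 (eq_zero_of_SQ hd.2 h3.le)

end Vale.Agent.P204.Torus
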