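import Vale.Agent.P204.Torus.PiMul
import Vale.Agent.P204.Torus.Facts

/-!
P204 on the four-torus: the coercive operator and its twists by weights.
-/

open MeasureTheory Filter Topology
open scoped BigOperators ComplexConjugate ENNReal

namespace Vale.Agent.P204.Torus

lemma memLp_apply {A : V → Form →L[ℝ] Form} (hA : Smooth A) {f : V → Form}
    (hf : MemLp f 2 (volume.restrict cube)) :
    MemLp (fun x => A x (f x)) 2 (volume.restrict cube) := by
  obtain ⟨M, -, hM⟩ := bdd_periodic hA.smooth.continuous hA.periodic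
  refine hf.of_le_mul (c := M) ?_ (Eventually.of_forall fun x =>
    ((A x).le_opNorm (f x)).trans (mul_le_mul_of_nonneg_right (hM x) (norm_nonneg _)))
  exact (isBoundedBilinearMap_apply.continuous.comp_aestronglyMeasurable
    (hA.smooth.continuous.aestronglyMeasurable.prodMk hf.1))

lemma Good.cmul {A : V → Form →L[ℝ] Form} (hA : Smooth A) {c : Freq → CForm} (hc : Good c) :
    Good (Torus.cmul A c) := by
  obtain ⟨f, -, -, hf, rfl⟩ := exists_L2 hc.2 hc.1
  exact ⟨coef_mul hA hf ▸ coef_herm _, (cmul_l2 hA hc.2).1⟩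

lemma summable_amp_mul {A : V → Form →L[ℝ] Form} (hA : Smooth A) {c : Freq → CForm}
    (hc : Summable fun ξ => ‖c ξ‖ ^ 2) (ξ : Freq) :
    Summable fun l => amp A l * ‖c (ξ - l)‖ := by
  simpa using summable_conv_l2 (b := fun η => ‖c η‖) (amp_nonneg A)
    (by simpa using summable_amp hA 0) hc ξ

lemma cmul_add {A : V → Form →L[ℝ] Form} (hA : Smooth A) {a b : Freq → CForm}
    (ha : Summable fun ξ => ‖a ξ‖ ^ 2) (hb : Summable fun ξ => ‖b ξ‖ ^ 2) :
    cmul A (a + b) = cmul A a + cmul A b := by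
  funext ξ; ext k
  simp only [Pi.add_apply, PiLp.add_apply, cmul_apply]
  rw [← (summable_term (summable_amp_mul hA ha ξ) k).tsum_add
    (summable_term (summable_amp_mul hA hb ξ) k)]
  simp [mul_add, Finset.sum_add_distrib]

lemma cmul_smul (A : V → Form →L[ℝ] Form) (r : ℂ) (a : Freq → CForm) :
    cmul A (r • a) = r • cmul A a := by
  funext ξ; ext k
  simp only [Pi.smul_apply, PiLp.smul_apply, cmul_apply, smul_eq_mul, ← tsum_mul_left,
    Finset.mul_sum]
  exact tsum_congr fun l => Finset.sum_congr rfl fun m _ => by ring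

lemma Pic_add (a b : Freq → CForm) : Pic (a + b) = Pic a + Pic b := funext fun ξ => piC_add ξ _ _

lemma Pic_smul (r : ℝ) (a : Freq → CForm) : Pic ((r : ℂ) • a) = (r : ℂ) • Pic a :=
  funext fun ξ => piC_smul ξ r _

lemma q_eq_sum (a b : Form) : q a b = ∑ j, a (sw j) * b j := by
  simp [q, sw, Fin.sum_univ_succ]
  ring

lemma wgt_neg (e : ℝ) (j : ℤ) (ξ : Freq) : wgt e j (-ξ) = wgt e j ξ := by simp [wgt]

lemma wgt_mul_neg (e : ℝ) (j : ℤ) (ξ : Freq) : wgt e j ξ * wgt e (-j) ξ = 1 := by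
  rw [wgt, wgt, ← zpow_add₀ (wgt_base_pos e ξ).ne', add_neg_cancel, zpow_zero]

/-- Multiplication by a weight. -/
noncomputable def wm (e : ℝ) (j : ℤ) (c : Freq → CForm) : Freq → CForm :=
  fun ξ => (wgt e j ξ : ℂ) • c ξ

lemma wm_wm (e : ℝ) (j : ℤ) (c : Freq → CForm) : wm e j (wm e (-j) c) = c := by
  funext ξ
  simp only [wm, smul_smul, ← Complex.ofReal_mul, wgt_mul_neg, Complex.ofReal_one, one_smul]

lemma wm_wm' (e : ℝ) (j : ℤ) (c : Freq → CForm) : wm e (-j) (wm e j c) = c := by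
  simpa using wm_wm e (-j) c

lemma wm_add (e : ℝ) (j : ℤ) (a b : Freq → CForm) : wm e j (a + b) = wm e j a + wm e j b :=
  funext fun _ => smul_add _ _ _

lemma wm_smul (e : ℝ) (j : ℤ) (r : ℂ) (a : Freq → CForm) : wm e j (r • a) = r • wm e j a :=
  funext fun ξ => by simp only [wm, Pi.smul_apply, smul_smul, mul_comm]

lemma wm_Pic (e : ℝ) (j : ℤ) (a : Freq → CForm) : wm e j (Pic a) = Pic (wm e j a) :=
  funext fun ξ => (piC_smul ξ _ _).symm

lemma wm_herm (e : ℝ) (j : ℤ) {c : Freq → CForm} (hc : Herm c) : Herm (wm e j c) := fun ξ => by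
  simp only [wm, hc ξ, wgt_neg, cconj_smul_real]

lemma good_wm_nonpos (e : ℝ) (n : ℕ) {c : Freq → CForm} (hc : Good c) :
    Good (wm e (-(n : ℤ)) c) := by
  refine ⟨wm_herm e _ hc.1, hc.2.of_nonneg_of_le (fun _ => sq_nonneg _) fun ξ => ?_⟩
  refine pow_le_pow_left₀ (norm_nonneg _) ?_ 2
  rw [wm, norm_smul, Complex.norm_real, Real.norm_of_nonneg (wgt_pos e _ ξ).le]
  refine mul_le_of_le_one_left (norm_nonneg _) (zpow_le_one_of_nonpos₀ ?_ (by simp))
  exact Finset.one_le_prod fun i _ => le_add_of_nonneg_right (by positivity)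

/-- A smooth field almost commutes with a weight. -/
lemma exists_twist {A : V → Form →L[ℝ] Form} (hA : Smooth A) (j : ℤ) :
    ∃ C, 0 ≤ C ∧ ∀ e, 0 < e → e ≤ 1 → ∀ y : Freq → CForm,
      Summable (fun ξ => ‖wm e j y ξ‖ ^ 2) →
      ∃ r : Freq → CForm, Summable (fun ξ => ‖r ξ‖ ^ 2) ∧
        SQ r ≤ C * e ^ 2 * SQ (wm e j y) ∧ wm e j (cmul A y) = cmul A (wm e j y) + r := by
  obtain ⟨C, -, h⟩ := cmul_commutator hA j
  refine ⟨C ^ 2, sq_nonneg C, fun e he he1 y hy => ?_⟩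
  obtain ⟨h1, h2⟩ := h e he he1 y hy
  refine ⟨fun ξ => wm e j (cmul A y) ξ - cmul A (wm e j y) ξ, ?_, ?_, ?_⟩
  · refine h1.congr fun ξ => ?_
    rw [norm_sub_rev]; rfl
  · refine le_trans (le_of_eq ?_) (h2.trans_eq (by rw [mul_pow]; rfl))
    exact tsum_congr fun ξ => by rw [norm_sub_rev]; rfl
  · funext ξ; simp [Pi.add_apply]

namespace Setup

variable (S : Setup)

/-- The anti-invariant part as a field of linear maps. -/
noncomputable def PMf (x : V) : Form →L[ℝ] Form :=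
  LinearMap.toContinuousLinearMap
    { toFun := piM (S.J x)
      map_add' := piM_add _
      map_smul' := piM_smul _ }

lemma PMf_apply (x : V) (a : Form) : S.PMf x a = piM (S.J x) a := rfl

/-- `Q ∘ piPᵀ ∘ piP`. -/
noncomputable def WFf (x : V) : Form →L[ℝ] Form :=
  LinearMap.toContinuousLinearMap
    { toFun := fun a => WithLp.toLp 2 fun j =>
        ∑ k, piP (S.J x) a k * piP (S.J x) (EuclideanSpace.single (sw j) 1) k
      map_add' := fun a b => by ext j; simp [piP_add, add_mul, Finset.sum_add_distrib]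
      map_smul' := fun r a => by ext j; simp [piP_smul, Finset.mul_sum, mul_assoc] }

lemma WFf_apply (x : V) (a : Form) (j : Fin 6) :
    S.WFf x a j = ∑ k, piP (S.J x) a k * piP (S.J x) (EuclideanSpace.single (sw j) 1) k := rfl

lemma smooth_const (a : Form) : Smooth fun _ : V => a := ⟨contDiff_const, fun _ _ => rfl⟩

lemma smooth_PMf : Smooth S.PMf :=
  ⟨contDiff_clm_apply_iff.2 fun a => (S.smooth_piM (smooth_const a)).smooth,
    fun x n => ContinuousLinearMap.ext fun a => (S.smooth_piM (smooth_const a)).periodic x n⟩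

lemma smooth_WFf : Smooth S.WFf := by
  refine ⟨contDiff_clm_apply_iff.2 fun a => contDiff_form.2 fun j => ?_,
    fun x n => ContinuousLinearMap.ext fun a => ?_⟩
  · simp only [WFf_apply]
    exact ContDiff.sum fun k _ => (contDiff_form.1 (S.smooth_piP (smooth_const a)).smooth k).mul
      (contDiff_form.1 (S.smooth_piP (smooth_const _)).smooth k)
  · ext j
    simp only [WFf_apply, S.J_smooth.periodic x n]

lemma q_piM_left (x : V) (α β : Form) : q (piM (S.J x) α) β = q α (piM (S.J x) β) := by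
  have e : ∀ γ, piM (S.J x) γ = γ - piP (S.J x) γ := fun γ =>
    eq_sub_of_add_eq' (piP_add_piM _ γ)
  rw [e, e, q_sub_left, q_sub_right, S.q_piP_left]

lemma q_WFf (x : V) (a b : Form) :
    q a (S.WFf x b) = ∑ k, piP (S.J x) a k * piP (S.J x) b k := by
  have h : piP (S.J x) a = ∑ j, a (sw j) • piP (S.J x) (EuclideanSpace.single (sw j) 1) := by
    let L : Form →ₗ[ℝ] Form :=
      { toFun := piP (S.J x), map_add' := piP_add _, map_smul' := piP_smul _ }
    have he : a = ∑ j, a (sw j) • EuclideanSpace.single (sw j) (1 : ℝ) := by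
      refine Eq.trans ?_ (Equiv.sum_comp (⟨sw, sw, sw_sw, sw_sw⟩ : Fin 6 ≃ Fin 6)
        fun i => a i • EuclideanSpace.single i (1 : ℝ)).symm
      simpa using ((EuclideanSpace.basisFun (Fin 6) ℝ).sum_repr a).symm
    conv_lhs => rw [he]
    exact (map_sum L _ _).trans (Finset.sum_congr rfl fun j _ => L.map_smul _ _)
  rw [q_eq_sum, h]
  simp only [WFf_apply, WithLp.ofLp_sum, Finset.sum_apply, PiLp.smul_apply, smul_eq_mul,
    Finset.mul_sum, Finset.sum_mul]
  rw [Finset.sum_comm]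
  exact Finset.sum_congr rfl fun k _ => Finset.sum_congr rfl fun j _ => by ring

lemma piM_WFf (x : V) (b : Form) : piM (S.J x) (S.WFf x b) = 0 := by
  ext k
  have h := S.q_piM_left x (S.WFf x b) (EuclideanSpace.single (sw k) 1)
  rw [q_comm (S.WFf x b), q_WFf, S.piP_piM] at h
  rw [q_comm, q_eq_sum] at h
  simpa [(Function.Involutive.injective sw_sw).eq_iff] using h

/-- The coercive operator. -/
noncomputable def opL (c : Freq → CForm) : Freq → CForm :=
  cmul S.PMf (Pic (cmul S.PMf c)) + cmul S.WFf c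

lemma opL_isOp : IsOp S.opL where
  add a b ha hb := by
    have h1 := Good.cmul S.smooth_PMf ha
    have h2 := Good.cmul S.smooth_PMf hb
    simp only [opL]
    rw [cmul_add S.smooth_PMf ha.2 hb.2, Pic_add, cmul_add S.smooth_PMf (Pic_good h1).2 (Pic_good h2).2,
      cmul_add S.smooth_WFf ha.2 hb.2]
    abel
  smul r a _ := by simp only [opL, cmul_smul, Pic_smul, smul_add]
  good a ha := (Good.cmul S.smooth_PMf (Pic_good (Good.cmul S.smooth_PMf ha))).add
    (Good.cmul S.smooth_WFf ha)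
  bound := by
    refine ⟨2 * ((∑' l, amp S.PMf l) ^ 2 * (4 * (∑' l, amp S.PMf l) ^ 2)) +
      2 * (∑' l, amp S.WFf l) ^ 2, by positivity, fun a ha => ?_⟩
    obtain ⟨h1, h1'⟩ := cmul_l2 S.smooth_PMf ha.2
    obtain ⟨h2, h2'⟩ := SQ_Pic_le h1
    obtain ⟨h3, h3'⟩ := cmul_l2 S.smooth_PMf h2
    obtain ⟨h4, h4'⟩ := cmul_l2 S.smooth_WFf ha.2
    have hs := (SQ_add_le h3 h4).2
    have e1 : SQ (cmul S.PMf (Pic (cmul S.PMf a))) ≤
        (∑' l, amp S.PMf l) ^ 2 * (4 * ((∑' l, amp S.PMf l) ^ 2 * SQ a)) :=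
      h3'.trans (mul_le_mul_of_nonneg_left (h2'.trans (by
        have : SQ (cmul S.PMf a) ≤ (∑' l, amp S.PMf l) ^ 2 * SQ a := h1'
        linarith)) (sq_nonneg _))
    have e2 : SQ (cmul S.WFf a) ≤ (∑' l, amp S.WFf l) ^ 2 * SQ a := h4'
    calc SQ (S.opL a) ≤ _ := hs
      _ ≤ _ := by nlinarith [SQ_nonneg a]

theorem opL_coercive : ∃ c0, 0 < c0 ∧ ∀ a, Good a → c0 * SQ a ≤ PQ a (S.opL a) := by
  obtain ⟨c, hc, hq⟩ := S.exists_q_anti
  refine ⟨min (c / 2) 1 / 2, by positivity, fun a ha => ?_⟩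
  have hm := Good.cmul S.smooth_PMf ha
  obtain ⟨f, -, -, hf, rfl⟩ := exists_L2 ha.2 ha.1
  obtain ⟨h, -, -, hh, hhc⟩ := exists_L2 (Pic_good hm).2 (Pic_good hm).1
  have hg := memLp_apply S.smooth_PMf hf
  have hW := memLp_apply S.smooth_WFf hf
  have hPh := memLp_apply S.smooth_PMf hh
  have hcg : coef (fun x => S.PMf x (f x)) = cmul S.PMf (coef f) := coef_mul S.smooth_PMf hf
  have h1 : PQ (coef f) (S.opL (coef f)) =
      (∫ x in cube, q (f x) (S.PMf x (h x))) + ∫ x in cube, q (f x) (S.WFf x (f x)) := by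
    rw [← PQ_coef hf hPh, ← PQ_coef hf hW, coef_mul S.smooth_PMf hh, coef_mul S.smooth_WFf hf, hhc]
    exact PQ_add_right ha.2 (cmul_l2 S.smooth_PMf (Pic_good hm).2).1 (cmul_l2 S.smooth_WFf ha.2).1
  have h2 : (∫ x in cube, q (f x) (S.PMf x (h x))) = ∫ x in cube, q (S.PMf x (f x)) (h x) := by
    simp only [PMf_apply, S.q_piM_left]
  have h3 : (∫ x in cube, q (S.PMf x (f x)) (S.PMf x (f x))) ≤
      2 * ∫ x in cube, q (S.PMf x (f x)) (h x) := by
    rw [← PQ_coef hg hg, ← PQ_coef hg hh, hhc, hcg]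
    exact PQ_self_le_Pic hm
  have hiq : ∀ {u v : V → Form}, MemLp u 2 (volume.restrict cube) →
      MemLp v 2 (volume.restrict cube) → Integrable (fun x => q (u x) (v x)) (volume.restrict cube) :=
    fun hu hv => by
    have hi : ∀ i j, Integrable (fun x => _) (volume.restrict cube) := fun i j =>
      ((EuclideanSpace.proj (𝕜 := ℝ) i).comp_memLp' hu).integrable_mul
        ((EuclideanSpace.proj (𝕜 := ℝ) j).comp_memLp' hv)
    simp only [q]
    exact ((((((hi 0 3).fun_add (hi 1 4)).fun_add (hi 2 5)).fun_add (hi 3 0)).fun_add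
      (hi 4 1)).fun_add (hi 5 2))
  have h4 : min (c / 2) 1 / 2 * SQ (coef f) ≤
      ∫ x in cube, (q (S.PMf x (f x)) (S.PMf x (f x)) / 2 + q (f x) (S.WFf x (f x))) := by
    rw [SQ_coef hf, ← integral_const_mul]
    refine integral_mono ((hf.norm.integrable_sq).const_mul _)
      (((hiq hg hg).div_const 2).fun_add (hiq hf hW)) fun x => ?_
    simp only [PMf_apply, q_WFf, ← sq, ← norm_sq_Form]
    have h5 := hq x (piM (S.J x) (f x)) (S.piP_piM x _)
    have h6 : ‖f x‖ ≤ ‖piP (S.J x) (f x)‖ + ‖piM (S.J x) (f x)‖ := by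
      simpa [piP_add_piM] using norm_add_le (piP (S.J x) (f x)) (piM (S.J x) (f x))
    have h7 := pow_le_pow_left₀ (norm_nonneg _) h6 2
    have h8 := min_le_left (c / 2) 1
    have h9 := min_le_right (c / 2) 1
    have hmin : 0 < min (c / 2) 1 := lt_min (by positivity) one_pos
    nlinarith [sq_nonneg (‖piP (S.J x) (f x)‖ - ‖piM (S.J x) (f x)‖),
      mul_le_mul_of_nonneg_right h8 (sq_nonneg ‖piM (S.J x) (f x)‖),
      mul_le_mul_of_nonneg_right h9 (sq_nonneg ‖piP (S.J x) (f x)‖)]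
  rw [integral_add ((hiq hg hg).div_const 2) (hiq hf hW), integral_div] at h4
  rw [h1, h2]
  linarith

/-- The twisted operator. -/
noncomputable def opT (e : ℝ) (n : ℕ) (c : Freq → CForm) : Freq → CForm :=
  wm e n (S.opL (wm e (-(n : ℤ)) c))

lemma opT_near (n : ℕ) : ∃ K, 0 ≤ K ∧ ∀ e, 0 < e → e ≤ 1 → ∀ c, Good c →
    ∃ D : Freq → CForm, Summable (fun ξ => ‖D ξ‖ ^ 2) ∧ SQ D ≤ K * e ^ 2 * SQ c ∧
      S.opT e n c = S.opL c + D := by
  obtain ⟨C₁, hC₁, h₁⟩ := exists_twist S.smooth_PMf (n : ℤ)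
  obtain ⟨C₂, hC₂, h₂⟩ := exists_twist S.smooth_WFf (n : ℤ)
  set a := (∑' l, amp S.PMf l) ^ 2
  have ha : 0 ≤ a := sq_nonneg _
  refine ⟨2 * (2 * (a * (4 * C₁)) + 2 * (C₁ * (8 * a + 8 * C₁))) + 2 * C₂, by positivity,
    fun e he he1 c hc => ?_⟩
  set u := wm e (-(n : ℤ)) c
  have hu : wm e n u = c := wm_wm e n c
  have hSc := SQ_nonneg c
  have he2 : e ^ 2 ≤ 1 := pow_le_one₀ he.le he1
  obtain ⟨r₁, hr₁, hr₁', h1eq⟩ := h₁ e he he1 u (by rw [hu]; exact hc.2)
  rw [hu] at hr₁' h1eq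
  have hm := cmul_l2 S.smooth_PMf hc.2
  have hsum := SQ_add_le hm.1 hr₁
  have hy : wm e n (Pic (cmul S.PMf u)) = Pic (cmul S.PMf c) + Pic r₁ := by
    rw [wm_Pic, h1eq, Pic_add]
  have hp1 := SQ_Pic_le hm.1
  have hp2 := SQ_Pic_le hr₁
  have hp := SQ_add_le hp1.1 hp2.1
  obtain ⟨r₂, hr₂, hr₂', h2eq⟩ := h₁ e he he1 (Pic (cmul S.PMf u)) (by rw [hy]; exact hp.1)
  rw [hy] at hr₂' h2eq
  obtain ⟨r₃, hr₃, hr₃', h3eq⟩ := h₂ e he he1 u (by rw [hu]; exact hc.2)
  rw [hu] at hr₃' h3eq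
  have hq := cmul_l2 S.smooth_PMf hp2.1
  have hA := SQ_add_le hq.1 hr₂
  have hB := SQ_add_le (a := cmul S.PMf (Pic r₁) + r₂) hA.1 hr₃
  refine ⟨cmul S.PMf (Pic r₁) + r₂ + r₃, hB.1, ?_, ?_⟩
  · have e1 : SQ (cmul S.PMf c) ≤ a * SQ c := hm.2
    have e2 : SQ (cmul S.PMf (Pic r₁)) ≤ a * (4 * (C₁ * e ^ 2 * SQ c)) :=
      hq.2.trans (mul_le_mul_of_nonneg_left (hp2.2.trans (by linarith)) ha)
    have e4 : C₁ * e ^ 2 * SQ c ≤ C₁ * SQ c :=
      mul_le_mul_of_nonneg_right (mul_le_of_le_one_right hC₁ he2) hSc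
    have e3 : SQ r₂ ≤ C₁ * e ^ 2 * ((8 * a + 8 * C₁) * SQ c) := by
      refine hr₂'.trans (mul_le_mul_of_nonneg_left (hp.2.trans ?_) (by positivity))
      have := hp1.2
      have := hp2.2
      linarith
    have := hA.2
    have := hB.2
    linarith
  · simp only [opT, opL]
    rw [wm_add, h2eq, h3eq, cmul_add S.smooth_PMf hp1.1 hp2.1]
    funext ξ
    simp only [Pi.add_apply]
    abel

lemma opT_isOp {n : ℕ} {e : ℝ} (he : 0 < e) (he1 : e ≤ 1) : IsOp (S.opT e n) where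
  add a b ha hb := by
    simp only [opT]
    rw [wm_add, S.opL_isOp.add _ _ (good_wm_nonpos e n ha) (good_wm_nonpos e n hb), wm_add]
  smul r a ha := by
    simp only [opT]
    rw [wm_smul, S.opL_isOp.smul r _ (good_wm_nonpos e n ha), wm_smul]
  good a ha := by
    obtain ⟨K, -, h⟩ := S.opT_near n
    obtain ⟨D, hD, -, hEq⟩ := h e he he1 a ha
    refine ⟨wm_herm e _ (S.opL_isOp.good _ (good_wm_nonpos e n ha)).1, ?_⟩
    rw [hEq]
    exact (SQ_add_le (S.opL_isOp.good a ha).2 hD).1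
  bound := by
    obtain ⟨K, hK, h⟩ := S.opT_near n
    obtain ⟨C, hC0, hC⟩ := S.opL_isOp.bound
    refine ⟨2 * C + 2 * K, by positivity, fun a ha => ?_⟩
    obtain ⟨D, hD, hD', hEq⟩ := h e he he1 a ha
    rw [hEq]
    refine (SQ_add_le (S.opL_isOp.good a ha).2 hD).2.trans ?_
    have := hC a ha
    have : K * e ^ 2 * SQ a ≤ K * SQ a :=
      mul_le_mul_of_nonneg_right (mul_le_of_le_one_right hK (pow_le_one₀ he.le he1)) (SQ_nonneg a)
    linarith

theorem opT_coercive (n : ℕ) : ∃ e, 0 < e ∧ e ≤ 1 / 8 ∧ ∃ c0, 0 < c0 ∧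
    ∀ a, Good a → c0 * SQ a ≤ PQ a (S.opT e n a) := by
  obtain ⟨c0, hc0, hco⟩ := S.opL_coercive
  obtain ⟨K, hK, hnear⟩ := S.opT_near n
  set T := 6 * Real.sqrt K + 1
  have hT : 0 < T := by positivity
  refine ⟨min (1 / 8) (c0 / (2 * T)), lt_min (by norm_num) (by positivity), min_le_left _ _,
    c0 / 2, half_pos hc0, fun a ha => ?_⟩
  set e := min (1 / 8) (c0 / (2 * T))
  have he : 0 < e := lt_min (by norm_num) (by positivity)
  obtain ⟨D, hD, hD', hEq⟩ := hnear e he ((min_le_left _ _).trans (by norm_num)) a ha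
  rw [hEq, PQ_add_right ha.2 (S.opL_isOp.good a ha).2 hD]
  have hp := neg_le_of_abs_le (abs_PQ_le ha.2 hD)
  have hs : Real.sqrt (SQ D) ≤ Real.sqrt K * e * Real.sqrt (SQ a) := by
    refine (Real.sqrt_le_sqrt hD').trans_eq ?_
    rw [Real.sqrt_mul (by positivity), Real.sqrt_mul hK, Real.sqrt_sq he.le]
  have h6 : 6 * (Real.sqrt (SQ a) * Real.sqrt (SQ D)) ≤ 6 * Real.sqrt K * e * SQ a := by
    calc 6 * (Real.sqrt (SQ a) * Real.sqrt (SQ D))
        ≤ 6 * (Real.sqrt (SQ a) * (Real.sqrt K * e * Real.sqrt (SQ a))) :=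
          mul_le_mul_of_nonneg_left (mul_le_mul_of_nonneg_left hs (Real.sqrt_nonneg _)) (by norm_num)
      _ = 6 * Real.sqrt K * e * (Real.sqrt (SQ a) * Real.sqrt (SQ a)) := by ring
      _ = _ := by rw [Real.mul_self_sqrt (SQ_nonneg a)]
  have h7 : 6 * Real.sqrt K * e ≤ c0 / 2 := by
    calc 6 * Real.sqrt K * e ≤ T * (c0 / (2 * T)) :=
          mul_le_mul (by simp [T]) (min_le_right _ _) he.le hT.le
      _ = _ := by field_simp
  nlinarith [hco a ha, mul_le_mul_of_nonneg_right h7 (SQ_nonneg a)]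

end Setup

end Vale.Agent.P204.Torus
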