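import Vale.Agent.P204.Torus.Kernel1
import Vale.Agent.P204.Torus.PiMul
import Vale.Agent.P204.Torus.Integrals
import Vale.Agent.P204.Torus.Facts

/-!
P204 on the four-torus: the smoothing kernel, its series and its bounds.
-/

open MeasureTheory Set Filter Topology
open scoped BigOperators ComplexConjugate ENNReal

namespace Vale.Agent.P204.Torus

lemma hasSum_pi_prod {n : ℕ} : ∀ {f : Fin n → ℤ → ℂ} {a : Fin n → ℂ},
    (∀ i, HasSum (f i) (a i)) → (∀ i, Summable fun k => ‖f i k‖) →
      HasSum (fun ξ : Fin n → ℤ => ∏ i, f i (ξ i)) (∏ i, a i) ∧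
        Summable fun ξ : Fin n → ℤ => ‖∏ i, f i (ξ i)‖ := by
  induction n with
  | zero => exact fun _ _ => ⟨by simp, Summable.of_finite⟩
  | succ n ih =>
    intro f a h hs
    obtain ⟨h1, h2⟩ := ih (fun i => h i.succ) (fun i => hs i.succ)
    have hp : Summable fun p : ℤ × (Fin n → ℤ) => ‖f 0 p.1 * ∏ i : Fin n, f i.succ (p.2 i)‖ := by
      simpa [norm_mul] using (hs 0).mul_of_nonneg h2 (fun _ => norm_nonneg _) (fun _ => norm_nonneg _)
    have hH := (h 0).mul h1 hp.of_norm
    refine ⟨?_, ?_⟩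
    · rw [Fin.prod_univ_succ]
      refine ((Fin.consEquiv fun _ => ℤ).hasSum_iff (f := fun ξ : Fin (n + 1) → ℤ =>
        ∏ i, f i (ξ i))).1 (hH.congr_fun fun p => ?_)
      simp [Fin.prod_univ_succ, Fin.consEquiv]
    · refine ((Fin.consEquiv fun _ => ℤ).summable_iff (f := fun ξ : Fin (n + 1) → ℤ =>
        ‖∏ i, f i (ξ i)‖)).1 (hp.congr fun p => ?_)
      simp [Fin.prod_univ_succ, Fin.consEquiv]

lemma wgt_eq_prod_m1 (e : ℝ) (ξ : Freq) : wgt e (-2) ξ = ∏ i, m1 e (ξ i) ^ 2 := by
  simp only [wgt, m1, inv_pow, Finset.prod_inv_distrib, Finset.prod_pow, zpow_neg]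
  norm_cast

lemma chr_eq_prod (ξ : Freq) (x : V) : chr ξ x = ∏ i, ee1 (ξ i) (x i) := by
  simp only [chr, ee1, Complex.ofReal_sum, Finset.mul_sum, Complex.exp_sum]
  refine Finset.prod_congr rfl fun i _ => ?_
  congr 1
  push_cast
  ring

lemma ker_series {e : ℝ} (he : 0 < e) (x : V) :
    HasSum (fun ξ => (wgt e (-2) ξ : ℂ) * chr ξ x) (ker e x : ℂ) ∧
      Summable fun ξ => |wgt e (-2) ξ| := by
  obtain ⟨h1, h2⟩ := hasSum_pi_prod
    (f := fun i k => ((m1 e k ^ 2 : ℝ) : ℂ) * ee1 k (x i)) (fun i => k2_hasSum he (x i))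
    (fun i => (summable_m1_sq he).congr fun k => by simp [norm_ee1, abs_of_pos (m1_pos e k)])
  refine ⟨?_, h2.congr fun ξ => ?_⟩
  · rw [ker, Complex.ofReal_prod]
    refine h1.congr_fun fun ξ => ?_
    rw [wgt_eq_prod_m1, chr_eq_prod, Complex.ofReal_prod, ← Finset.prod_mul_distrib]
  · simp only [norm_prod, norm_mul, norm_ee1, mul_one, Complex.norm_real, Real.norm_eq_abs,
      wgt_eq_prod_m1, Finset.abs_prod]

lemma summable_ker_coef {e : ℝ} (he : 0 < e) : Summable fun ξ => ‖(wgt e (-2) ξ : ℂ)‖ := by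
  simpa [Complex.norm_real] using (ker_series he 0).2

theorem hasSum_ker {e : ℝ} (he : 0 < e) (x : V) :
    HasSum (fun ξ => (wgt e (-2) ξ : ℂ) * chr ξ x) (ker e x : ℂ) := (ker_series he x).1

lemma ker_tsum {e : ℝ} (he : 0 < e) :
    (fun x => (ker e x : ℂ)) = fun x => ∑' ξ, chr ξ x * (wgt e (-2) ξ : ℂ) :=
  funext fun x => by simp only [mul_comm (chr _ x), (hasSum_ker he x).tsum_eq]

theorem coefS_ker {e : ℝ} (he : 0 < e) (ξ : Freq) :
    coefS (fun x => (ker e x : ℂ)) ξ = (wgt e (-2) ξ : ℂ) := by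
  rw [ker_tsum he]
  exact coefS_series (summable_ker_coef he) ξ

theorem ker_continuous {e : ℝ} (he : 0 < e) : Continuous (ker e) ∧ Periodic (ker e) := by
  refine ⟨?_, fun x n => ?_⟩
  · have h : Continuous fun x => ∑' ξ, chr ξ x * (wgt e (-2) ξ : ℂ) :=
      continuous_tsum (fun ξ => (continuous_chr ξ).mul continuous_const) (summable_ker_coef he)
        fun ξ x => by simp [norm_chr]
    rw [← ker_tsum he] at h
    exact Complex.continuous_re.comp h
  · refine Complex.ofReal_inj.1 ((hasSum_ker he (x + intVec n)).unique ?_)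
    simpa only [chr_periodic _ x n] using hasSum_ker he x

theorem ker_even (e : ℝ) (x : V) : ker e (-x) = ker e x := by
  simp only [ker, Pi.neg_apply]
  refine Finset.prod_congr rfl fun i _ => ?_
  have hp : Function.Periodic (fun s => k1 e s * k1 e (x i - s)) 1 := fun s => by
    simp only [k1_periodic e s, show x i - (s + 1) = x i - s - 1 by ring, (k1_periodic e).sub_eq]
  simp only [k2]
  have h1 : (∫ s in (0 : ℝ)..1, k1 e s * k1 e (-x i - s)) =
      ∫ s in (0 : ℝ)..1, k1 e (-s) * k1 e (x i - -s) := by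
    refine intervalIntegral.integral_congr fun s _ => ?_
    simp only [k1_even]
    rw [show x i - -s = -(-x i - s) by ring, k1_even]
  rw [h1, intervalIntegral.integral_comp_neg (fun s => k1 e s * k1 e (x i - s))]
  simpa using hp.intervalIntegral_add_eq (-1) 0

theorem ker_nonneg {e : ℝ} (he : 0 < e) (x : V) : 0 ≤ ker e x :=
  Finset.prod_nonneg fun i _ => k2_nonneg he (x i)

theorem integral_ker {e : ℝ} (he : 0 < e) : ∫ x in cube, ker e x = 1 := by
  have h := coefS_ker he 0
  simp only [coefS, neg_zero, chr_zero, one_mul] at h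
  rw [integral_complex_ofReal] at h
  rw [Complex.ofReal_inj.1 h]
  simp [wgt]

/-- The `ℓ¹` distance to the lattice. -/
noncomputable def dsum (x : V) : ℝ := ∑ i, tdist (x i)

lemma dsum_nonneg (x : V) : 0 ≤ dsum x := Finset.sum_nonneg fun _ _ => tdist_nonneg _

lemma dsum_neg (x : V) : dsum (-x) = dsum x := by simp [dsum, tdist_neg]

lemma dsum_add_le (x y : V) : dsum (x + y) ≤ dsum x + dsum y := by
  rw [dsum, dsum, dsum, ← Finset.sum_add_distrib]
  exact Finset.sum_le_sum fun i _ => tdist_add_le (x i) (y i)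

lemma abs_sin_le_tdist (t : ℝ) : |Real.sin (Real.pi * t)| / Real.pi ≤ tdist t := by
  rw [div_le_iff₀ Real.pi_pos, tdist, show |t - round t| * Real.pi = |Real.pi * t - round t * Real.pi| by
    rw [show Real.pi * t - round t * Real.pi = (t - round t) * Real.pi by ring, abs_mul,
      abs_of_pos Real.pi_pos]]
  refine le_of_eq_of_le ?_ Real.abs_sin_le_abs
  rw [Real.sin_sub_int_mul_pi, abs_mul, abs_zpow, abs_neg, abs_one, one_zpow, one_mul]

lemma tdist_le_abs_sin (t : ℝ) : tdist t ≤ Real.pi / 2 * (|Real.sin (Real.pi * t)| / Real.pi) := by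
  have h := two_mul_abs_le_sin (t := t - round t) (tdist_le_half t)
  have hs : |Real.sin (Real.pi * (t - round t))| = |Real.sin (Real.pi * t)| := by
    rw [show Real.pi * (t - round t) = Real.pi * t - round t * Real.pi by ring,
      Real.sin_sub_int_mul_pi, abs_mul, abs_zpow, abs_neg, abs_one, one_zpow, one_mul]
  rw [abs_div, hs, abs_of_pos Real.pi_pos] at h
  calc tdist t = Real.pi / 2 * (2 / Real.pi * |t - round t|) := by
        rw [tdist]; field_simp [Real.pi_pos.ne']
    _ ≤ _ := mul_le_mul_of_nonneg_left h (by positivity)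

lemma dist0_le_dsum (x : V) : dist0 x ≤ dsum x :=
  (dist0_le_sum x).trans (Finset.sum_le_sum fun i _ => abs_sin_le_tdist (x i))

lemma dsum_le_dist0 (x : V) : dsum x ≤ 8 * dist0 x := by
  refine (Finset.sum_le_card_nsmul _ _ (2 * dist0 x) fun i _ => ?_).trans_eq (by simp; ring)
  refine (tdist_le_abs_sin (x i)).trans (mul_le_mul (by linarith [Real.pi_lt_four]) (abs_sin_le_dist0 x i)
    (by positivity) (by norm_num))

lemma prod_exp (x : V) (c : ℝ) : ∏ i, Real.exp (-tdist (x i) / c) = Real.exp (-dsum x / c) := by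
  rw [← Real.exp_sum]
  congr 1
  rw [← Finset.sum_div, Finset.sum_neg_distrib, dsum]

lemma ker_le_exp {e : ℝ} (he : 0 < e) (he2 : e ≤ 2) (x : V) :
    ker e x ≤ (36 / e) ^ 4 * Real.exp (-dsum x / (2 * e)) := by
  refine (Finset.prod_le_prod (fun i _ => k2_nonneg he _) fun i _ => k2_le he he2 (x i)).trans_eq ?_
  rw [Finset.prod_mul_distrib, prod_exp]
  simp [div_pow]

lemma exp_le_ker {e : ℝ} (he : 0 < e) (he2 : e ≤ 4) (x : V) :
    Real.exp (-dsum x / e) / (24 * e) ^ 4 ≤ ker e x := by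
  refine le_of_eq_of_le ?_ (Finset.prod_le_prod (fun i _ => by positivity)
    fun i _ => le_k2 he he2 (x i))
  rw [Finset.prod_div_distrib, prod_exp]
  simp

lemma exp_poly (n : ℕ) : ∃ C, 0 ≤ C ∧ ∀ e, 0 < e → ∀ x : V,
    Real.exp (-dsum x / (4 * e)) ≤ C * (e ^ 2 / (e ^ 2 + dist0 x ^ 2)) ^ n := by
  set k : ℝ := 8 * (n + 1) with hk
  refine ⟨k ^ (2 * n), by positivity, fun e he x => ?_⟩
  set r := dsum x / e with hr
  have hr0 : 0 ≤ r := div_nonneg (dsum_nonneg x) he.le
  have hk1 : 1 ≤ k := by rw [hk]; linarith [(Nat.cast_nonneg n : (0 : ℝ) ≤ n)]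
  have h1 : (1 + r) ^ (2 * n) ≤ k ^ (2 * n) * Real.exp (r / 4) := by
    have h : 1 + r ≤ k * Real.exp (r / k) := by
      have := Real.add_one_le_exp (r / k)
      calc 1 + r ≤ k + r := by linarith
        _ = k * (r / k + 1) := by field_simp; ring
        _ ≤ _ := mul_le_mul_of_nonneg_left this (by positivity)
    refine (pow_le_pow_left₀ (by positivity) h _).trans ?_
    rw [mul_pow, ← Real.exp_nat_mul]
    refine mul_le_mul_of_nonneg_left (Real.exp_le_exp.2 ?_) (by positivity)
    rw [mul_div_assoc', div_le_div_iff₀ (by positivity) (by norm_num), hk]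
    push_cast
    nlinarith
  have hd : e ^ 2 + dist0 x ^ 2 ≤ e ^ 2 * (1 + r) ^ 2 := by
    have := pow_le_pow_left₀ (dist0_nonneg x) (dist0_le_dsum x) 2
    have hre : r * e = dsum x := div_mul_cancel₀ _ he.ne'
    rw [← hre] at this
    nlinarith [mul_nonneg hr0 (sq_nonneg e)]
  have hpos : 0 < e ^ 2 + dist0 x ^ 2 := by positivity
  rw [show -dsum x / (4 * e) = -(r / 4) by rw [hr]; field_simp, Real.exp_neg, div_pow,
    mul_div_assoc', le_div_iff₀ (by positivity), inv_mul_le_iff₀ (Real.exp_pos _)]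
  calc (e ^ 2 + dist0 x ^ 2) ^ n ≤ (e ^ 2 * (1 + r) ^ 2) ^ n := pow_le_pow_left₀ hpos.le hd n
    _ = (e ^ 2) ^ n * (1 + r) ^ (2 * n) := by rw [mul_pow, ← pow_mul (1 + r)]
    _ ≤ (e ^ 2) ^ n * (k ^ (2 * n) * Real.exp (r / 4)) := mul_le_mul_of_nonneg_left h1 (by positivity)
    _ = _ := by ring

lemma ker2_bounds : ∃ c C, 0 < c ∧ 0 ≤ C ∧ ∀ e, 0 < e → e ≤ 1 → ∀ u,
    ker2 e u ≤ C / e ^ 4 * Real.exp (-dsum u / (4 * e)) ∧
      c / e ^ 4 * Real.exp (-dsum u / e) ≤ ker2 e u := by
  refine ⟨1 / (24 ^ 4) ^ 2 / (144 ^ 4), (36 ^ 4) ^ 2 * 96 ^ 4, by positivity, by positivity,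
    fun e he he1 u => ⟨?_, ?_⟩⟩
  · have hk := (ker_continuous (show 0 < 4 * e by positivity)).1
    have hle : ∀ x, ker e x * ker e (x - u) ≤
        ((36 ^ 4) ^ 2 * 96 ^ 4 / e ^ 4 * Real.exp (-dsum u / (4 * e))) * ker (4 * e) x := fun x => by
      have hd : dsum u ≤ dsum x + dsum (x - u) := by
        have := dsum_add_le x (-(x - u))
        rw [dsum_neg, neg_sub, add_sub_cancel] at this
        exact this
      calc ker e x * ker e (x - u)
          ≤ ((36 / e) ^ 4 * Real.exp (-dsum x / (2 * e))) *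
              ((36 / e) ^ 4 * Real.exp (-dsum (x - u) / (2 * e))) :=
            mul_le_mul (ker_le_exp he (by linarith) x) (ker_le_exp he (by linarith) _)
              (ker_nonneg he _) (by positivity)
        _ = ((36 / e) ^ 4) ^ 2 * Real.exp (-(dsum x + dsum (x - u)) / (2 * e)) := by
            rw [neg_add, add_div, Real.exp_add]; ring
        _ ≤ ((36 / e) ^ 4) ^ 2 * Real.exp (-dsum u / (4 * e) + -dsum x / (4 * e)) := by
            refine mul_le_mul_of_nonneg_left (Real.exp_le_exp.2 ?_) (by positivity)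
            rw [← add_div, div_le_div_iff₀ (by positivity) (by positivity)]
            nlinarith [dsum_nonneg (x - u)]
        _ = ((36 ^ 4) ^ 2 * 96 ^ 4 / e ^ 4 * Real.exp (-dsum u / (4 * e))) *
              (Real.exp (-dsum x / (4 * e)) / (24 * (4 * e)) ^ 4) := by
            rw [Real.exp_add]; field_simp; ring
        _ ≤ _ := mul_le_mul_of_nonneg_left (exp_le_ker (by positivity) (by linarith) x) (by positivity)
    refine (setIntegral_mono_on ?_ ?_ measurableSet_cube fun x _ => hle x).trans_eq ?_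
    · exact integrableOn_cube ((ker_continuous he).1.mul ((ker_continuous he).1.comp (by fun_prop)))
    · exact integrableOn_cube (continuous_const.mul hk)
    · rw [integral_const_mul, integral_ker (by positivity), mul_one]
  · have hk := (ker_continuous (show 0 < e / 4 by positivity)).1
    have hle : ∀ x, (1 / (24 ^ 4) ^ 2 / 144 ^ 4 / e ^ 4 * Real.exp (-dsum u / e)) * ker (e / 4) x ≤
        ker e x * ker e (x - u) := fun x => by
      have hd : dsum (x - u) ≤ dsum x + dsum u := by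
        simpa [sub_eq_add_neg, dsum_neg] using dsum_add_le x (-u)
      calc (1 / (24 ^ 4) ^ 2 / 144 ^ 4 / e ^ 4 * Real.exp (-dsum u / e)) * ker (e / 4) x
          ≤ (1 / (24 ^ 4) ^ 2 / 144 ^ 4 / e ^ 4 * Real.exp (-dsum u / e)) *
              ((36 / (e / 4)) ^ 4 * Real.exp (-dsum x / (2 * (e / 4)))) :=
            mul_le_mul_of_nonneg_left (ker_le_exp (by positivity) (by linarith) x) (by positivity)
        _ = 1 / ((24 * e) ^ 4) ^ 2 * Real.exp (-(dsum u + 2 * dsum x) / e) := by
            rw [show -(dsum u + 2 * dsum x) / e = -dsum u / e + -dsum x / (2 * (e / 4)) by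
              field_simp; ring, Real.exp_add]
            field_simp; ring
        _ ≤ 1 / ((24 * e) ^ 4) ^ 2 * Real.exp (-dsum x / e + -dsum (x - u) / e) := by
            refine mul_le_mul_of_nonneg_left (Real.exp_le_exp.2 ?_) (by positivity)
            rw [← add_div]
            exact div_le_div_of_nonneg_right (by linarith) he.le
        _ = (Real.exp (-dsum x / e) / (24 * e) ^ 4) * (Real.exp (-dsum (x - u) / e) / (24 * e) ^ 4) := by
            rw [Real.exp_add]; ring
        _ ≤ _ := mul_le_mul (exp_le_ker he (by linarith) x) (exp_le_ker he (by linarith) _)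
              (by positivity) (ker_nonneg he x)
    refine le_trans (le_of_eq ?_) (setIntegral_mono_on ?_ ?_ measurableSet_cube fun x _ => hle x)
    · rw [integral_const_mul, integral_ker (by positivity), mul_one]
    · exact integrableOn_cube (continuous_const.mul hk)
    · exact integrableOn_cube ((ker_continuous he).1.mul ((ker_continuous he).1.comp (by fun_prop)))

theorem ker_le (n : ℕ) : ∃ C, 0 ≤ C ∧ ∀ e, 0 < e → e ≤ 1 → ∀ x,
    ker e x ≤ C / e ^ 4 * (e ^ 2 / (e ^ 2 + dist0 x ^ 2)) ^ n ∧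
      ker2 e x ≤ C / e ^ 4 * (e ^ 2 / (e ^ 2 + dist0 x ^ 2)) ^ n := by
  obtain ⟨c2, C2, _, hC2, h2⟩ := ker2_bounds
  obtain ⟨Cn, hCn, hn⟩ := exp_poly n
  refine ⟨(36 ^ 4 + C2) * Cn, by positivity, fun e he he1 x => ?_⟩
  have hmono : Real.exp (-dsum x / (2 * e)) ≤ Real.exp (-dsum x / (4 * e)) := by
    refine Real.exp_le_exp.2 ?_
    rw [div_le_div_iff₀ (by positivity) (by positivity)]
    nlinarith [dsum_nonneg x]
  have hp : 0 ≤ (e ^ 2 / (e ^ 2 + dist0 x ^ 2)) ^ n := by positivity
  constructor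
  · calc ker e x ≤ (36 / e) ^ 4 * (Cn * (e ^ 2 / (e ^ 2 + dist0 x ^ 2)) ^ n) :=
          (ker_le_exp he (by linarith) x).trans
            (mul_le_mul_of_nonneg_left (hmono.trans (hn e he x)) (by positivity))
      _ = 36 ^ 4 * Cn / e ^ 4 * (e ^ 2 / (e ^ 2 + dist0 x ^ 2)) ^ n := by ring
      _ ≤ _ := mul_le_mul_of_nonneg_right (div_le_div_of_nonneg_right
          (mul_le_mul_of_nonneg_right (by linarith) hCn) (by positivity)) hp
  · calc ker2 e x ≤ C2 / e ^ 4 * (Cn * (e ^ 2 / (e ^ 2 + dist0 x ^ 2)) ^ n) :=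
          (h2 e he he1 x).1.trans (mul_le_mul_of_nonneg_left (hn e he x) (by positivity))
      _ = C2 * Cn / e ^ 4 * (e ^ 2 / (e ^ 2 + dist0 x ^ 2)) ^ n := by ring
      _ ≤ _ := mul_le_mul_of_nonneg_right (div_le_div_of_nonneg_right
          (mul_le_mul_of_nonneg_right (by linarith [show (0 : ℝ) ≤ 36 ^ 4 by norm_num]) hCn)
          (by positivity)) hp

theorem ker_ge : ∃ c, 0 < c ∧ ∀ e, 0 < e → e ≤ 1 → ∀ x, dist0 x ≤ e →
    c / e ^ 4 ≤ ker e x ∧ c / e ^ 4 ≤ ker2 e x := by
  obtain ⟨c2, C2, hc2, _, h2⟩ := ker2_bounds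
  refine ⟨min (1 / 24 ^ 4) c2 * Real.exp (-8), by positivity, fun e he he1 x hx => ?_⟩
  have hE : Real.exp (-8) ≤ Real.exp (-dsum x / e) := by
    refine Real.exp_le_exp.2 ?_
    rw [le_div_iff₀ he]
    linarith [dsum_le_dist0 x]
  constructor
  · refine le_trans ?_ (exp_le_ker he (by linarith) x)
    calc min (1 / 24 ^ 4) c2 * Real.exp (-8) / e ^ 4 ≤ 1 / 24 ^ 4 * Real.exp (-dsum x / e) / e ^ 4 :=
          div_le_div_of_nonneg_right
            (mul_le_mul (min_le_left _ _) hE (Real.exp_pos _).le (by positivity)) (by positivity)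
      _ = _ := by ring
  · refine le_trans ?_ (h2 e he he1 x).2
    calc min (1 / 24 ^ 4) c2 * Real.exp (-8) / e ^ 4 ≤ c2 * Real.exp (-dsum x / e) / e ^ 4 :=
          div_le_div_of_nonneg_right
            (mul_le_mul (min_le_right _ _) hE (Real.exp_pos _).le hc2.le) (by positivity)
      _ = _ := by ring

theorem summable_wgt {e : ℝ} (he : 0 < e) : Summable fun ξ => wgt e (-2) ξ * wt ξ := by
  set M := max 1 (4 * Real.pi ^ 2 * e ^ 2)⁻¹
  refine (summable_wt_inv.mul_left ((M ^ 4) ^ 2)).of_nonneg_of_le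
    (fun ξ => mul_nonneg (wgt_pos e _ ξ).le (wt_pos ξ).le) fun ξ => ?_
  have hP := wgt_base_pos e ξ
  have hw : wt ξ ≤ M ^ 4 * ∏ i, (1 + 4 * Real.pi ^ 2 * e ^ 2 * (ξ i : ℝ) ^ 2) := by
    rw [show M ^ 4 = ∏ _i : Fin 4, M by simp, ← Finset.prod_mul_distrib]
    refine Finset.prod_le_prod (fun i _ => by positivity) fun i _ => ?_
    have h1 : 1 ≤ M := le_max_left _ _
    have h2 : 1 ≤ M * (4 * Real.pi ^ 2 * e ^ 2) :=
      (inv_le_iff_one_le_mul₀ (by positivity)).1 (le_max_right _ _)
    nlinarith [mul_le_mul_of_nonneg_right h2 (sq_nonneg (ξ i : ℝ))]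
  rw [wgt, zpow_neg, show ((2 : ℤ)) = ((2 : ℕ) : ℤ) by rfl, zpow_natCast,
    ← div_eq_mul_inv, inv_mul_le_iff₀ (by positivity), mul_div_assoc', le_div_iff₀ (wt_pos ξ)]
  calc wt ξ * wt ξ ≤ (M ^ 4 * ∏ i, (1 + 4 * Real.pi ^ 2 * e ^ 2 * (ξ i : ℝ) ^ 2)) *
        (M ^ 4 * ∏ i, (1 + 4 * Real.pi ^ 2 * e ^ 2 * (ξ i : ℝ) ^ 2)) :=
        mul_le_mul hw hw (wt_pos ξ).le (by positivity)
    _ = _ := by ring

theorem integral_ker_mul {e : ℝ} (he : 0 < e) (y z : V) :
    ∫ x in cube, ker e (x - y) * ker e (x - z) = ker2 e (y - z) := by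
  obtain ⟨-, hp⟩ := ker_continuous he
  have hps : ∀ a b : V, Periodic fun x => ker e (x - a) * ker e (x - b) := fun a b x n => by
    simp only [add_sub_right_comm, hp _ n]
  rw [← integral_cube_add (hps y z) z, ker2]
  refine integral_congr_ae (Eventually.of_forall fun x => ?_)
  simp only [add_sub_cancel_right]
  rw [mul_comm, show x + z - y = x - (y - z) by abel]

theorem ker_smooth {f : V → Form} {e : ℝ} (he : 0 < e) (hf : Smooth f) :
    Smooth (fun z => ∫ x in cube, ker e (x - z) • f x) ∧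
      (∀ ξ, coef (fun z => ∫ x in cube, ker e (x - z) • f x) ξ = (wgt e (-2) ξ : ℂ) • coef f ξ) ∧
      (Closed f → Closed (fun z => ∫ x in cube, ker e (x - z) • f x)) := by
  let d : Freq → CForm := fun ξ => (wgt e (-2) ξ : ℂ) • coef f ξ
  have hd : Rapid d := fun j => (coef_rapid hf j).of_nonneg_of_le
    (fun ξ => by have := wt_pos ξ; positivity) fun ξ => by
      refine mul_le_mul_of_nonneg_left ?_ (pow_nonneg (wt_pos ξ).le j)
      rw [norm_smul, Complex.norm_real, Real.norm_of_nonneg (wgt_pos e _ ξ).le]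
      refine mul_le_of_le_one_left (norm_nonneg _) (zpow_le_one_of_nonpos₀ ?_ (by norm_num))
      exact Finset.one_le_prod fun i _ => le_add_of_nonneg_right (by positivity)
  have hdh : Herm d := fun ξ => by
    simp only [d, coef_herm f ξ, cconj_smul_real]
    simp [wgt]
  have hcont := (ker_continuous he).1
  have heq : (fun z => ∫ x in cube, ker e (x - z) • f x) = synth d := funext fun z => by
    have hint : Integrable (fun x => ker e (x - z) • f x) (volume.restrict cube) :=
      integrableOn_cube ((hcont.comp (by fun_prop)).smul hf.smooth.continuous)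
    ext k
    refine Complex.ofReal_inj.1 ?_
    rw [synth_apply_complex hd.summable hdh]
    have h0 : (∫ x in cube, ker e (x - z) • f x) k = ∫ x in cube, ker e (x - z) * f x k :=
      ((EuclideanSpace.proj (𝕜 := ℝ) k).integral_comp_comm hint).symm
    rw [h0, ← integral_complex_ofReal]
    have hx : ∀ x, ((ker e (x - z) * f x k : ℝ) : ℂ) =
        ∑' ξ, chr (-ξ) z * (wgt e (-2) ξ : ℂ) * (chr ξ x * (f x k : ℂ)) := fun x => by
      rw [Complex.ofReal_mul, ← (hasSum_ker he (x - z)).tsum_eq, ← tsum_mul_right]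
      refine tsum_congr fun ξ => ?_
      rw [sub_eq_add_neg, chr_add_right, chr_neg_right]
      ring
    simp only [hx]
    rw [← integral_tsum_of_summable_integral_norm
      (fun ξ => (integrable_chr_mul (integrableOn_cube (hf.coord k).smooth.continuous) ξ).const_mul _)
      (by simp only [norm_mul, norm_chr, one_mul, integral_const_mul]
          exact (summable_ker_coef he).mul_right _),
      ← (Equiv.neg Freq).tsum_eq fun ξ => chr ξ z * d ξ k]
    refine tsum_congr fun ξ => ?_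
    simp only [Equiv.neg_apply, d, PiLp.smul_apply, smul_eq_mul, coef_apply, coefS, neg_neg,
      integral_const_mul, show wgt e (-2) (-ξ) = wgt e (-2) ξ by simp [wgt]]
    ring
  rw [heq]
  refine ⟨smooth_synth hd, fun ξ => by rw [coef_synth hd.summable hdh], fun hc => ?_⟩
  refine (closed_iff (smooth_synth hd)).2 fun ξ => ?_
  rw [coef_synth hd.summable hdh]
  exact ((closed_iff hf).1 hc ξ).smul _

/-- The smoothing of a measure. -/
theorem coef_smoothing {e : ℝ} (he : 0 < e) (ν : Measure V) [IsFiniteMeasure ν] {h : V → Form}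
    (hm : Measurable h) {M : ℝ} (hb : ∀ y, ‖h y‖ ≤ M) (ξ : Freq) :
    coef (fun x => ∫ y, ker e (x - y) • h y ∂ν) ξ =
      (wgt e (-2) ξ : ℂ) •
        (WithLp.toLp 2 fun k => ∫ y, chr (-ξ) y * (h y k : ℂ) ∂ν : CForm) := by
  ext k
  have hbk : ∀ y, ‖(h y k : ℂ)‖ ≤ M := fun y => by
    rw [Complex.norm_real]; exact (PiLp.norm_apply_le (h y) k).trans (hb y)
  have hmk : Measurable fun y => (h y k : ℂ) := Complex.measurable_ofReal.comp
    ((EuclideanSpace.proj (𝕜 := ℝ) k).continuous.measurable.comp hm)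
  have hi : Integrable (fun y => (h y k : ℂ)) ν :=
    Integrable.of_bound hmk.aestronglyMeasurable M (Eventually.of_forall hbk)
  have hic : ∀ ζ, Integrable (fun y => chr ζ y * (h y k : ℂ)) ν := fun ζ =>
    hi.bdd_mul (continuous_chr ζ).aestronglyMeasurable (Eventually.of_forall fun y => (norm_chr ζ y).le)
  let m : Freq → ℂ := fun ζ => (wgt e (-2) ζ : ℂ) * ∫ y, chr (-ζ) y * (h y k : ℂ) ∂ν
  have hsm : Summable fun ζ => ‖m ζ‖ := by
    refine ((summable_ker_coef he).mul_right (M * ν.real univ)).of_nonneg_of_le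
      (fun _ => norm_nonneg _) fun ζ => ?_
    simp only [m, norm_mul]
    refine mul_le_mul_of_nonneg_left ?_ (norm_nonneg _)
    exact norm_integral_le_of_norm_le_const (Eventually.of_forall fun y => by
      simpa [norm_chr] using hbk y)
  have hcont := (ker_continuous he).1
  obtain ⟨K, -, hK⟩ := bdd_periodic hcont (ker_continuous he).2
  have hx : ∀ x, (((∫ y, ker e (x - y) • h y ∂ν) k : ℝ) : ℂ) = ∑' ζ, chr ζ x * m ζ := fun x => by
    have hint : Integrable (fun y => ker e (x - y) • h y) ν := by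
      have h1 : Continuous fun y => ker e (x - y) := hcont.comp (by fun_prop)
      refine Integrable.of_bound (h1.measurable.smul hm).aestronglyMeasurable (K * M)
        (Eventually.of_forall fun y => ?_)
      rw [norm_smul]
      exact mul_le_mul (hK _) (hb y) (norm_nonneg _) ((norm_nonneg _).trans (hK 0))
    have h0 : (∫ y, ker e (x - y) • h y ∂ν) k = ∫ y, ker e (x - y) * h y k ∂ν :=
      ((EuclideanSpace.proj (𝕜 := ℝ) k).integral_comp_comm hint).symm
    rw [h0, ← integral_complex_ofReal]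
    have hy : ∀ y, ((ker e (x - y) * h y k : ℝ) : ℂ) =
        ∑' ζ, (wgt e (-2) ζ : ℂ) * chr ζ x * (chr (-ζ) y * (h y k : ℂ)) := fun y => by
      rw [Complex.ofReal_mul, ← (hasSum_ker he (x - y)).tsum_eq, ← tsum_mul_right]
      refine tsum_congr fun ζ => ?_
      rw [sub_eq_add_neg, chr_add_right, chr_neg_right]
      ring
    simp only [hy]
    rw [← integral_tsum_of_summable_integral_norm (fun ζ => (hic (-ζ)).const_mul _)
      (by simp only [norm_mul, norm_chr, one_mul, mul_one, integral_const_mul]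
          exact (summable_ker_coef he).mul_right _)]
    exact tsum_congr fun ζ => by rw [integral_const_mul]; simp only [m]; ring
  simp only [coef_apply, hx, PiLp.smul_apply, smul_eq_mul]
  exact coefS_series hsm ξ

end Vale.Agent.P204.Torus
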