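import Vale.Agent.P204.Torus.UData
import Vale.Agent.P204.Torus.Facts
import Vale.Agent.P204.Torus.Kernel

/-!
P204 on the four-torus: properties of the kernel in the form used by the two estimates.
-/

open MeasureTheory

namespace Vale.Agent.P204.Torus

lemma ker_neg {ε : ℝ} (u : V) : ker ε (-u) = ker ε u := ker_even ε u

lemma ker_periodic {ε : ℝ} (hε : 0 < ε) : Periodic (ker ε) := (ker_continuous hε).2

lemma continuous_ker {ε : ℝ} (hε : 0 < ε) : Continuous (ker ε) := (ker_continuous hε).1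

lemma integral_ker_sub {ε : ℝ} (hε : 0 < ε) (z : V) : ∫ x in cube, ker ε (x - z) = 1 :=
  (integral_cube_shift (continuous_ker hε).stronglyMeasurable (ker_periodic hε) z).trans
    (integral_ker hε)

lemma exists_ker_lower : ∃ c, 0 < c ∧ ∀ ε, 0 < ε → ε ≤ 1 → ∀ u, dist0 u ≤ ε →
    c / ε ^ 4 ≤ ker ε u ∧ c / ε ^ 4 ≤ ker2 ε u := ker_ge

lemma exists_ker_upper (N : ℕ) : ∃ C, 0 < C ∧ ∀ ε, 0 < ε → ε ≤ 1 → ∀ u,
    ker ε u ≤ C * env ε N u ∧ ker2 ε u ≤ C * env ε N u := by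
  obtain ⟨C, hC, h⟩ := ker_le N
  refine ⟨C + 1, by linarith, fun ε hε h1 u => ?_⟩
  have h0 : 0 ≤ env ε N u := by
    unfold env
    positivity
  obtain ⟨ha, hb⟩ := h ε hε h1 u
  have e : C / ε ^ 4 * (ε ^ 2 / (ε ^ 2 + dist0 u ^ 2)) ^ N = C * env ε N u := by
    simp only [env, div_eq_mul_inv]; ring
  constructor <;> nlinarith

end Vale.Agent.P204.Torus
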