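import Vale.Agent.P204.Torus.FourierDefs

/-!
P204 on the four-torus: characters, weights and summable families of frequencies.
-/

open MeasureTheory
open scoped BigOperators ComplexConjugate

namespace Vale.Agent.P204.Torus

lemma chr_zero (x : V) : chr 0 x = 1 := by simp [chr]

lemma chr_add (ξ η : Freq) (x : V) : chr (ξ + η) x = chr ξ x * chr η x := by
  simp only [chr, ← Complex.exp_add, Pi.add_apply, Int.cast_add, add_mul, Finset.sum_add_distrib]
  push_cast
  ring_nf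

lemma chr_add_right (ξ : Freq) (x y : V) : chr ξ (x + y) = chr ξ x * chr ξ y := by
  simp only [chr, ← Complex.exp_add, Pi.add_apply, mul_add, Finset.sum_add_distrib]
  push_cast
  ring_nf

lemma norm_chr (ξ : Freq) (x : V) : ‖chr ξ x‖ = 1 := by
  rw [chr, show (2 : ℂ) * Real.pi * Complex.I * ((∑ i, (ξ i : ℝ) * x i : ℝ) : ℂ)
    = ((2 * Real.pi * ∑ i, (ξ i : ℝ) * x i : ℝ) : ℂ) * Complex.I by push_cast; ring]
  exact Complex.norm_exp_ofReal_mul_I _

lemma chr_neg (ξ : Freq) (x : V) : chr (-ξ) x = conj (chr ξ x) := by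
  simp only [chr, ← Complex.exp_conj, map_mul, Complex.conj_ofReal, Complex.conj_I, map_ofNat,
    Pi.neg_apply, Int.cast_neg, neg_mul, Finset.sum_neg_distrib, Complex.ofReal_neg]
  ring_nf

lemma chr_neg_right (ξ : Freq) (x : V) : chr ξ (-x) = chr (-ξ) x := by
  simp [chr]

lemma chr_intVec (ξ n : Freq) : chr ξ (intVec n) = 1 := by
  simp only [chr, intVec]
  rw [show (2 : ℂ) * Real.pi * Complex.I * ((∑ i, (ξ i : ℝ) * (n i : ℝ) : ℝ) : ℂ)
    = ((∑ i, ξ i * n i : ℤ) : ℂ) * (2 * Real.pi * Complex.I) by push_cast; ring]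
  exact Complex.exp_int_mul_two_pi_mul_I _

lemma chr_periodic (ξ : Freq) : Periodic (chr ξ) := fun x n => by
  rw [chr_add_right, chr_intVec, mul_one]

/-- The phase of a character. -/
noncomputable def phase (ξ : Freq) : V →L[ℝ] ℝ :=
  ∑ i, (2 * Real.pi * (ξ i : ℝ)) • ContinuousLinearMap.proj (R := ℝ) (φ := fun _ : Fin 4 => ℝ) i

lemma phase_apply (ξ : Freq) (x : V) : phase ξ x = 2 * Real.pi * ∑ i, (ξ i : ℝ) * x i := by
  simp [phase, Finset.mul_sum, mul_assoc]

lemma chr_eq_phase (ξ : Freq) (x : V) : chr ξ x = Complex.exp ((phase ξ x : ℂ) * Complex.I) := by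
  rw [phase_apply, chr]
  congr 1
  push_cast
  ring

lemma contDiff_chr (ξ : Freq) {k : WithTop ℕ∞} : ContDiff ℝ k (chr ξ) := by
  have : chr ξ = fun x => Complex.exp ((phase ξ x : ℂ) * Complex.I) := funext (chr_eq_phase ξ)
  rw [this]
  exact ((Complex.ofRealCLM.contDiff.comp (phase ξ).contDiff).mul contDiff_const).cexp

lemma continuous_chr (ξ : Freq) : Continuous (chr ξ) := (contDiff_chr ξ (k := 0)).continuous

/-! ### weights -/

lemma wt_pos (ξ : Freq) : 0 < wt ξ := Finset.prod_pos fun i _ => by positivity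

theorem one_le_wt (ξ : Freq) : 1 ≤ wt ξ :=
  Finset.one_le_prod fun i _ => le_add_of_nonneg_right (sq_nonneg _)

lemma wt_neg (ξ : Freq) : wt (-ξ) = wt ξ := by simp [wt]

theorem wt_add_le (ξ η : Freq) : wt (ξ + η) ≤ 16 * (wt ξ * wt η) := by
  have h : ∀ i, 1 + ((ξ + η) i : ℝ) ^ 2 ≤ 2 * ((1 + (ξ i : ℝ) ^ 2) * (1 + (η i : ℝ) ^ 2)) := fun i => by
    push_cast [Pi.add_apply]
    nlinarith [sq_nonneg ((ξ i : ℝ) - (η i : ℝ)), sq_nonneg ((ξ i : ℝ) * (η i : ℝ))]
  refine (Finset.prod_le_prod (fun i _ => by positivity) fun i _ => h i).trans_eq ?_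
  simp [wt, Finset.prod_mul_distrib]
  norm_num

lemma sq_le_wt (ξ : Freq) (i : Fin 4) : 1 + (ξ i : ℝ) ^ 2 ≤ wt ξ :=
  by
  rw [wt, ← Finset.mul_prod_erase Finset.univ _ (Finset.mem_univ i)]
  exact le_mul_of_one_le_right (by positivity)
    (Finset.one_le_prod fun j _ => le_add_of_nonneg_right (sq_nonneg _))

lemma abs_le_wt (ξ : Freq) (i : Fin 4) : |(ξ i : ℝ)| ≤ wt ξ := by
  refine le_trans ?_ (sq_le_wt ξ i)
  nlinarith [sq_abs (ξ i : ℝ), sq_nonneg (|(ξ i : ℝ)| - 1)]

lemma summable_int : Summable fun k : ℤ => (1 + (k : ℝ) ^ 2)⁻¹ := by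
  have h : Summable fun k : ℤ => 1 / (k : ℝ) ^ 2 := Real.summable_one_div_int_pow.2 one_lt_two
  refine Summable.of_nonneg_of_le (fun k => by positivity) (fun k => ?_)
    (h.add (summable_of_ne_finset_zero (s := {0}) (f := fun k : ℤ => if k = 0 then (1 : ℝ) else 0)
      fun b hb => by simp at hb; simp [hb]))
  rcases eq_or_ne k 0 with rfl | hk
  · simp
  · have : (0 : ℝ) < (k : ℝ) ^ 2 := by positivity
    rw [if_neg hk, add_zero, one_div]
    exact inv_anti₀ this (le_add_of_nonneg_left zero_le_one)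

theorem summable_wt_inv : Summable fun ξ => (wt ξ)⁻¹ := by
  have h2 : ∀ {n : ℕ} (f : (Fin n → ℤ) → ℝ), (f = fun ξ => ∏ i, (1 + (ξ i : ℝ) ^ 2)⁻¹) → Summable f := by
    intro n
    induction n with
    | zero => intro f hf; exact Summable.of_finite
    | succ n ih =>
      intro f hf
      subst hf
      refine ((Fin.consEquiv fun _ => ℤ).summable_iff (f := fun ξ : Fin (n + 1) → ℤ =>
        ∏ i, (1 + (ξ i : ℝ) ^ 2)⁻¹)).1 ?_
      refine (summable_int.mul_of_nonneg (ih _ rfl) (fun k => by positivity)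
        (fun ξ => Finset.prod_nonneg fun i _ => by positivity)).congr fun p => ?_
      simp [Fin.prod_univ_succ, Fin.consEquiv, mul_comm]
  exact h2 _ (funext fun ξ => (Finset.prod_inv_distrib _).symm)

lemma summable_wt_pow_inv {j : ℕ} (hj : 1 ≤ j) : Summable fun ξ => (wt ξ ^ j)⁻¹ :=
  Summable.of_nonneg_of_le (fun ξ => by have := wt_pos ξ; positivity)
    (fun ξ => inv_anti₀ (wt_pos ξ) (le_self_pow₀ (one_le_wt ξ) (by omega))) summable_wt_inv

end Vale.Agent.P204.Torus
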