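import Vale.Agent.P204.Torus.PiMul

/-!
P204 on the four-torus: functionals bounded by `N` as coefficients, and approximation by exact
forms.
-/

open MeasureTheory Filter Topology
open scoped BigOperators ComplexConjugate ENNReal

namespace Vale.Agent.P204.Torus

/-- The hermitian part of coefficients. -/
noncomputable def hermPart (d : Freq → CForm) (ξ : Freq) : CForm :=
  ((1 / 2 : ℝ) : ℂ) • (d ξ + cconj (d (-ξ)))

lemma hermPart_herm (d : Freq → CForm) : Herm (hermPart d) := fun ξ => by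
  rw [hermPart, hermPart, cconj_smul_real, neg_neg]
  congr 1
  ext k
  simp [cconj_apply, add_comm]

lemma norm_hermPart_le (d : Freq → CForm) (ξ : Freq) :
    ‖hermPart d ξ‖ ≤ (‖d ξ‖ + ‖d (-ξ)‖) / 2 := by
  rw [hermPart, norm_smul, Complex.norm_real]
  have := norm_add_le (d ξ) (cconj (d (-ξ)))
  rw [norm_cconj] at this
  rw [Real.norm_of_nonneg (by norm_num)]
  linarith

lemma Rapid.hermPart {d : Freq → CForm} (hd : Rapid d) : Rapid (Torus.hermPart d) := fun j => by
  have h2 : Summable fun ξ => wt ξ ^ j * ‖d (-ξ)‖ :=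
    ((hd j).comp_injective neg_injective).congr fun ξ => by simp [wt_neg]
  refine ((hd j).add h2).of_nonneg_of_le (fun ξ => by have := wt_pos ξ; positivity) fun ξ => ?_
  rw [← mul_add]
  refine mul_le_mul_of_nonneg_left ((norm_hermPart_le d ξ).trans ?_) (pow_nonneg (wt_pos ξ).le j)
  linarith [norm_nonneg (d ξ), norm_nonneg (d (-ξ))]

lemma synth_hermPart {d : Freq → CForm} (hd : Rapid d) : synth (hermPart d) = synth d := by
  funext x; ext k
  rw [synth_apply hd.hermPart.summable, synth_apply hd.summable]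
  have h1 : Summable fun ξ => chr ξ x * d ξ k :=
    Summable.of_norm (by simpa [norm_chr] using summable_coord hd.summable k)
  have h2 : Summable fun ξ => chr ξ x * conj (d (-ξ) k) :=
    Summable.of_norm ((summable_coord hd.summable k).comp_injective neg_injective |>.congr
      fun ξ => by simp [norm_chr])
  have h3 : ∑' ξ, chr ξ x * conj (d (-ξ) k) = conj (∑' ξ, chr ξ x * d ξ k) := by
    rw [Complex.conj_tsum, ← (Equiv.neg Freq).tsum_eq]
    exact tsum_congr fun ξ => by simp [← chr_neg]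
  have he : ∀ ξ, chr ξ x * hermPart d ξ k =
      (1 / 2 : ℂ) * (chr ξ x * d ξ k + chr ξ x * conj (d (-ξ) k)) := fun ξ => by
    simp [hermPart, cconj_apply]; ring
  simp only [he, tsum_mul_left, h1.tsum_add h2, h3]
  simp only [Complex.mul_re, Complex.add_re, Complex.conj_re]
  norm_num
  ring

lemma N_synth_le {d : Freq → CForm} (hd : Rapid d) :
    N (synth d) ≤ Real.sqrt (∑' ξ, (wt ξ * ‖d ξ‖) ^ 2) := by
  rw [← synth_hermPart hd, N, coef_synth hd.hermPart.summable (hermPart_herm d)]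
  refine Real.sqrt_le_sqrt ?_
  have h1 : Summable fun ξ => (wt ξ * ‖d ξ‖) ^ 2 := by simpa using hd.summable_sq 1
  have h2 : Summable fun ξ => (wt ξ * ‖d (-ξ)‖) ^ 2 :=
    (h1.comp_injective neg_injective).congr fun ξ => by simp [wt_neg]
  have hle : ∀ ξ, (wt ξ * ‖hermPart d ξ‖) ^ 2 ≤
      ((wt ξ * ‖d ξ‖) ^ 2 + (wt ξ * ‖d (-ξ)‖) ^ 2) / 2 := fun ξ => by
    have := pow_le_pow_left₀ (mul_nonneg (wt_pos ξ).le (norm_nonneg _))
      (mul_le_mul_of_nonneg_left (norm_hermPart_le d ξ) (wt_pos ξ).le) 2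
    nlinarith [sq_nonneg (wt ξ * ‖d ξ‖ - wt ξ * ‖d (-ξ)‖)]
  have hr := (h1.add h2).div_const 2
  refine ((hr.of_nonneg_of_le (fun _ => sq_nonneg _) hle).tsum_le_tsum hle hr).trans_eq ?_
  rw [tsum_div_const, h1.tsum_add h2,
    show ∑' ξ, (wt ξ * ‖d (-ξ)‖) ^ 2 = ∑' ξ, (wt ξ * ‖d ξ‖) ^ 2 by
      rw [← (Equiv.neg Freq).tsum_eq fun ξ => (wt ξ * ‖d ξ‖) ^ 2]
      simp [wt_neg]]
  ring

lemma reF_smul_complex (z : ℂ) (c : CForm) : reF (z • c) = z.re • reF c - z.im • imF c := by
  ext k; simp [reF_apply, imF]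

lemma synth_single (ξ : Freq) (c : CForm) (x : V) :
    synth (Pi.single ξ c) x = (chr ξ x).re • reF c - (chr ξ x).im • imF c := by
  rw [synth, tsum_eq_single ξ (fun η hη => by simp [hη]), Pi.single_eq_same, reF_smul_complex]

lemma rapid_of_finite {d : Freq → CForm} (s : Finset Freq) (h : ∀ ξ ∉ s, d ξ = 0) : Rapid d :=
  fun j => summable_of_ne_finset_zero (s := s) fun ξ hξ => by simp [h ξ hξ]

lemma smooth_re_chr (ξ : Freq) (a : Form) : Smooth fun x => (chr ξ x).re • a :=
  ⟨((Complex.reCLM.contDiff.comp (contDiff_chr ξ)).smul contDiff_const),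
    fun x n => by simp only [chr_periodic ξ x n]⟩

lemma smooth_im_chr (ξ : Freq) (a : Form) : Smooth fun x => (chr ξ x).im • a :=
  ⟨((Complex.imCLM.contDiff.comp (contDiff_chr ξ)).smul contDiff_const),
    fun x n => by simp only [chr_periodic ξ x n]⟩

/-- The coefficient of a functional against the real parts of characters. -/
noncomputable def fnR (U : (V → Form) → ℝ) (ξ : Freq) : Form :=
  WithLp.toLp 2 fun k => U fun x => (chr ξ x).re • EuclideanSpace.single (sw k) 1

/-- The coefficient of a functional against the imaginary parts of characters. -/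
noncomputable def fnI (U : (V → Form) → ℝ) (ξ : Freq) : Form :=
  WithLp.toLp 2 fun k => U fun x => (chr ξ x).im • EuclideanSpace.single (sw k) 1

section linear

variable {U : (V → Form) → ℝ}
  (hadd : ∀ α β, Smooth α → Smooth β → U (fun x => α x + β x) = U α + U β)
  (hsmul : ∀ (a : ℝ) α, Smooth α → U (fun x => a • α x) = a * U α)

include hsmul in
lemma U_zero : U (fun _ => 0) = 0 := by
  simpa using hsmul 0 (fun _ => 0) ⟨contDiff_const, fun _ _ => rfl⟩

include hadd hsmul in
lemma U_sum {ι : Type*} (s : Finset ι) {f : ι → V → Form} (hf : ∀ i, Smooth (f i)) :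
    U (fun x => ∑ i ∈ s, f i x) = ∑ i ∈ s, U (f i) := by
  classical
  induction s using Finset.induction_on with
  | empty => simpa using U_zero hsmul
  | @insert a s ha ih =>
    simp only [Finset.sum_insert ha]
    rw [hadd _ _ (hf a) ⟨ContDiff.sum fun i _ => (hf i).smooth,
      fun x n => Finset.sum_congr rfl fun i _ => (hf i).periodic x n⟩, ih]

include hadd hsmul in
lemma U_expand {s : V → ℝ} (hs : ∀ a : Form, Smooth fun x => s x • a) (a : Form) :
    U (fun x => s x • a) =
      q (WithLp.toLp 2 fun k => U fun x => s x • EuclideanSpace.single (sw k) 1) a := by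
  have he : a = ∑ j, a j • EuclideanSpace.single j (1 : ℝ) := by
    simpa using ((EuclideanSpace.basisFun (Fin 6) ℝ).sum_repr a).symm
  conv_lhs => rw [he]
  simp only [Finset.smul_sum, smul_comm _ (a _)]
  rw [U_sum hadd hsmul _ (f := fun j x => a j • s x • EuclideanSpace.single j (1 : ℝ))
    fun j => ⟨((hs _).smooth.const_smul (a j)), fun x n => congrArg (a j • ·) ((hs _).periodic x n)⟩]
  rw [q_eq_sum']
  refine Finset.sum_congr rfl fun j _ => ?_
  rw [hsmul _ _ (hs _)]
  simp [sw_sw, mul_comm]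
where
  q_eq_sum' {a b : Form} : q a b = ∑ j, a (sw j) * b j := by
    simp [q, sw, Fin.sum_univ_succ]
    ring

end linear

/-- The functional is a pairing with its coefficients; see `functional_coef`. -/
noncomputable def fnC (U : (V → Form) → ℝ) (ξ : Freq) : CForm :=
  cplx (fnR U ξ) - Complex.I • cplx (fnI U ξ)

lemma reF_fnC (U : (V → Form) → ℝ) (ξ : Freq) : reF (fnC U ξ) = fnR U ξ := by
  ext k; simp [fnC, reF_apply, cplx_apply]

lemma imF_fnC (U : (V → Form) → ℝ) (ξ : Freq) : imF (fnC U ξ) = (-1 : ℝ) • fnI U ξ := by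
  ext k; simp [fnC, imF, cplx_apply]

lemma cyclic_of_q_wedge {t : V} {R : Form} (h : ∀ η, q R (wedge t η) = 0) (u v w : V) :
    pair t u * ev R v w + pair t v * ev R w u + pair t w * ev R u v = 0 := by
  have h0 := h (e 0)
  have h1 := h (e 1)
  have h2 := h (e 2)
  have h3 := h (e 3)
  simp [q, wedge, ofSkew_apply, pair_def, fi, se, e] at h0 h1 h2 h3
  simp only [ev_def, pair_def]
  linear_combination (norm := (simp [det4, e]; ring))
    det4 u v w (e 0) * h0 + det4 u v w (e 1) * h1 + det4 u v w (e 2) * h2 + det4 u v w (e 3) * h3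

lemma eq_wedge_of_cyclic {t : V} (ht : t ≠ 0) {R : Form}
    (h : ∀ u v w, pair t u * ev R v w + pair t v * ev R w u + pair t w * ev R u v = 0) :
    R = wedge t (iota ((∑ i, t i ^ 2)⁻¹ • t) R) := by
  refine form_ext fun u v => ?_
  rw [ev_wedge, pair_iota, pair_iota]
  have hw : pair t ((∑ i, t i ^ 2)⁻¹ • t) = 1 := by
    simp only [pair, Pi.smul_apply, smul_eq_mul]
    rw [Finset.sum_congr rfl fun i _ => show t i * ((∑ j, t j ^ 2)⁻¹ * t i) =
      (∑ j, t j ^ 2)⁻¹ * t i ^ 2 by ring, ← Finset.mul_sum]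
    exact inv_mul_cancel₀ (sum_sq_pos ht).ne'
  have := h ((∑ i, t i ^ 2)⁻¹ • t) u v
  rw [hw, ev_skew R v] at this
  linarith

lemma wedgeZero_cplx {ξ : Freq} {a : Form}
    (h : ∀ u v w, pair (intVec ξ) u * ev a v w + pair (intVec ξ) v * ev a w u +
      pair (intVec ξ) w * ev a u v = 0) (z : ℂ) : WedgeZero ξ (z • cplx a) := by
  intro u v w
  have h1 : reF (z • cplx a) = z.re • a := by ext k; simp [reF_apply, cplx_apply]
  have h2 : imF (z • cplx a) = z.im • a := by ext k; simp [imF, cplx_apply]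
  simp only [evC, h1, h2, ev_smul, Complex.ofReal_mul]
  have hc := congrArg (fun r : ℝ => (r : ℂ)) (h u v w)
  push_cast at hc
  linear_combination ((z.re : ℂ) + Complex.I * (z.im : ℂ)) * hc

lemma closed_chr_wedge {ξ : Freq} {a : Form} {s : V → ℝ} (hs : Smooth fun x => s x • a) (u v : ℂ)
    (hsv : ∀ x, (s x : ℂ) = u * chr ξ x + v * chr (-ξ) x)
    (h : ∀ p q r, pair (intVec ξ) p * ev a q r + pair (intVec ξ) q * ev a r p +
      pair (intVec ξ) r * ev a p q = 0) : Closed fun x => s x • a := by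
  refine (closed_iff hs).2 fun η => ?_
  rw [coef_chr_smul u v hsv]
  rcases eq_or_ne ξ η with rfl | h1
  · exact wedgeZero_cplx h _
  rcases eq_or_ne (-ξ) η with rfl | h2
  · refine wedgeZero_cplx (fun p q r => ?_) _
    have := h p q r
    simp only [pair, intVec, Pi.neg_apply, Int.cast_neg, neg_mul, Finset.sum_neg_distrib] at this ⊢
    linarith
  · rw [if_neg h1, if_neg h2]
    intro p q r
    have h0 : reF ((u * 0 + v * 0) • cplx a) = 0 := by ext k; simp [reF_apply]
    have h0' : imF ((u * 0 + v * 0) • cplx a) = 0 := by ext k; simp [imF]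
    simp only [evC, h0, h0', ev_zero]
    simp

/-- A functional bounded by `N` is a pairing with coefficients. -/
theorem functional_coef {U : (V → Form) → ℝ} {C : ℝ} (hC : 0 ≤ C)
    (hadd : ∀ α β, Smooth α → Smooth β → U (fun x => α x + β x) = U α + U β)
    (hsmul : ∀ (a : ℝ) α, Smooth α → U (fun x => a • α x) = a * U α)
    (hbd : ∀ α, Smooth α → |U α| ≤ C * N α) :
    ∃ (u : Freq → CForm) (C' : ℝ), Herm u ∧ (∀ ξ, ‖u ξ‖ ≤ C' * wt ξ) ∧
      (∀ α, Smooth α → HasSum (fun ξ => (qC (u ξ) (cconj (coef α ξ))).re) (U α)) ∧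
      ((∀ α, Smooth α → Closed α → U α = 0) →
        u 0 = 0 ∧ (∀ ξ, qC (u ξ) (cconj (u ξ)) = 0) ∧
        ∀ ξ, ∃ c : Fin 4 → ℂ, ∀ k, u ξ k = (ξ (fi k) : ℂ) * c (se k) - (ξ (se k) : ℂ) * c (fi k)) := by
  obtain ⟨K, hK⟩ := N_chr_le
  have hR : ∀ ξ a, U (fun x => (chr ξ x).re • a) = q (fnR U ξ) a := fun ξ a =>
    U_expand hadd hsmul (smooth_re_chr ξ) a
  have hI : ∀ ξ a, U (fun x => (chr ξ x).im • a) = q (fnI U ξ) a := fun ξ a =>
    U_expand hadd hsmul (smooth_im_chr ξ) a
  refine ⟨fnC U, 12 * (C * max K 0), fun ξ => ?_, fun ξ => ?_, fun α hα => ?_, fun hcl => ?_⟩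
  · have h1 : fnR U (-ξ) = fnR U ξ := by
      ext k; simp [fnR, chr_neg]
    have h2 : fnI U (-ξ) = (-1 : ℝ) • fnI U ξ := by
      ext k
      simp only [fnI, chr_neg, Complex.conj_im, PiLp.smul_apply, smul_eq_mul]
      rw [← hsmul (-1) _ (smooth_im_chr ξ _)]
      congr 1
      funext x
      simp
    ext k
    simp [fnC, h1, h2, cconj_apply, cplx_apply]
  · have hb : ∀ k, |fnR U ξ k| ≤ C * (max K 0 * wt ξ) ∧ |fnI U ξ k| ≤ C * (max K 0 * wt ξ) := fun k => by
      obtain ⟨k1, k2⟩ := hK ξ (EuclideanSpace.single (sw k) (1 : ℝ))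
      have hn : ‖EuclideanSpace.single (sw k) (1 : ℝ)‖ = 1 := by simp
      rw [hn, mul_one] at k1 k2
      have hle : K * wt ξ ≤ max K 0 * wt ξ := mul_le_mul_of_nonneg_right (le_max_left _ _) (wt_pos ξ).le
      exact ⟨(hbd _ (smooth_re_chr ξ _)).trans (mul_le_mul_of_nonneg_left (k1.trans hle) hC),
        (hbd _ (smooth_im_chr ξ _)).trans (mul_le_mul_of_nonneg_left (k2.trans hle) hC)⟩
    refine (norm_le_sum_coord _).trans ((Finset.sum_le_card_nsmul _ _ (2 * (C * (max K 0 * wt ξ)))
      fun k _ => ?_).trans_eq (by simp; ring))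
    refine (Complex.norm_le_abs_re_add_abs_im _).trans ?_
    have := hb k
    simp only [fnC, cplx_apply, PiLp.sub_apply, PiLp.smul_apply, smul_eq_mul, Complex.sub_re,
      Complex.sub_im, Complex.mul_re, Complex.mul_im, Complex.I_re, Complex.I_im,
      Complex.ofReal_re, Complex.ofReal_im]
    simp
    linarith
  · have hc := coef_rapid hα
    rw [HasSum]
    have hterm : ∀ ξ, (qC (fnC U ξ) (cconj (coef α ξ))).re =
        U (fun x => synth (Pi.single ξ (coef α ξ)) x) := fun ξ => by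
      have hsm : ∀ a, Smooth fun x => (-1 : ℝ) • ((chr ξ x).im • a) := fun a =>
        ⟨(smooth_im_chr ξ a).smooth.const_smul _, fun x n => by
          simp only [chr_periodic ξ x n]⟩
      rw [re_qC_cconj, reF_fnC, imF_fnC, q_smul_left, ← hR, ← hI, ← hsmul _ _ (smooth_im_chr ξ _),
        ← hadd _ _ (smooth_re_chr ξ _) (hsm _)]
      congr 1
      funext x
      simp [synth_single, sub_eq_add_neg]
    have key : ∀ s : Finset Freq,
        |U α - ∑ ξ ∈ s, (qC (fnC U ξ) (cconj (coef α ξ))).re| ≤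
          C * Real.sqrt (∑' ξ : { ξ // ξ ∉ s }, (wt ξ * ‖coef α ξ‖) ^ 2) := fun s => by
      classical
      let d : Freq → CForm := fun ξ => if ξ ∈ s then 0 else coef α ξ
      have hd : Rapid d := fun j => (hc j).of_nonneg_of_le
        (fun ξ => by have := wt_pos ξ; positivity) fun ξ => by
          have := wt_pos ξ
          by_cases h : ξ ∈ s <;> simp [d, h]
          positivity
      have hds : Smooth (synth d) := smooth_synth hd
      have hsing : ∀ ξ, Smooth (fun x => synth (Pi.single ξ (coef α ξ)) x) := fun ξ =>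
        smooth_synth (rapid_of_finite {ξ} fun η hη => by simp at hη; simp [hη])
      have hsum : Smooth fun x => ∑ ξ ∈ s, synth (Pi.single ξ (coef α ξ)) x :=
        ⟨ContDiff.sum fun ξ _ => (hsing ξ).smooth,
          fun x n => Finset.sum_congr rfl fun ξ _ => (hsing ξ).periodic x n⟩
      have hdec : α = fun x => (∑ ξ ∈ s, synth (Pi.single ξ (coef α ξ)) x) + synth d x := by
        funext x
        rw [← synth_coef hα.smooth.continuous hα.periodic hc.summable x]
        simp only [synth_single, ← reF_smul_complex]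
        show reL _ = _
        rw [← (summable_chr_smul hc.summable x).sum_add_tsum_compl (s := s), map_add, map_sum]
        refine congrArg₂ (· + ·) (Finset.sum_congr rfl fun ξ _ => ?_) ?_
        · simp [reL_apply]
        · show reF _ = reF _
          congr 1
          rw [tsum_subtype (↑s)ᶜ (fun ξ => chr ξ x • coef α ξ)]
          refine tsum_congr fun ξ => ?_
          by_cases h : ξ ∈ s <;> simp [d, h]
      conv_lhs => rw [hdec, hadd _ _ hsum hds, U_sum hadd hsmul _ hsing, ← hdec]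
      rw [← Finset.sum_congr rfl fun ξ _ => hterm ξ, add_sub_cancel_left]
      refine (hbd _ hds).trans (mul_le_mul_of_nonneg_left ((N_synth_le hd).trans_eq ?_) hC)
      congr 1
      refine Eq.trans ?_ (tsum_subtype {ξ | ξ ∉ s} (fun ξ => (wt ξ * ‖coef α ξ‖) ^ 2)).symm
      refine tsum_congr fun ξ => ?_
      by_cases h : ξ ∈ s <;> simp [d, h]
    refine tendsto_iff_norm_sub_tendsto_zero.2 (squeeze_zero (g := fun s : Finset Freq =>
      C * Real.sqrt (∑' ξ : { ξ // ξ ∉ s }, (wt ξ * ‖coef α ξ‖) ^ 2)) (fun _ => norm_nonneg _) (fun s => ?_) ?_)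
    · rw [Real.norm_eq_abs, abs_sub_comm]; exact key s
    · have := ((tendsto_tsum_compl_atTop_zero
        (fun ξ : Freq => (wt ξ * ‖coef α ξ‖) ^ 2)).sqrt).const_mul C
      simpa using this
  have hz : ∀ ξ η, q (fnR U ξ) (wedge (intVec ξ) η) = 0 ∧ q (fnI U ξ) (wedge (intVec ξ) η) = 0 :=
    fun ξ η => by
    have h : ∀ p r s, pair (intVec ξ) p * ev (wedge (intVec ξ) η) r s +
        pair (intVec ξ) r * ev (wedge (intVec ξ) η) s p +
        pair (intVec ξ) s * ev (wedge (intVec ξ) η) p r = 0 := fun p r s => by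
      simp only [ev_wedge]; ring
    refine ⟨?_, ?_⟩
    · rw [← hR]
      refine hcl _ (smooth_re_chr _ _) (closed_chr_wedge (ξ := ξ) (smooth_re_chr _ _) (1 / 2) (1 / 2)
        (fun x => ?_) h)
      rw [chr_neg, Complex.re_eq_add_conj]; ring
    · rw [← hI]
      refine hcl _ (smooth_im_chr _ _) (closed_chr_wedge (ξ := ξ) (smooth_im_chr _ _) (-Complex.I / 2)
        (Complex.I / 2) (fun x => ?_) h)
      rw [chr_neg]
      apply Complex.ext <;> simp <;> ring
  have h0 : fnC U 0 = 0 := by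
    ext k
    have hk : ∀ a : Form, U (fun _ => a) = 0 := fun a => by
      refine hcl _ ⟨contDiff_const, fun _ _ => rfl⟩ fun x u v w => ?_
      simp [ev_zero]
    simp [fnC, fnR, fnI, cplx_apply, chr_zero, hk]
  have hform : ∀ ξ, ∃ c : Fin 4 → ℂ, ∀ k,
      fnC U ξ k = (ξ (fi k) : ℂ) * c (se k) - (ξ (se k) : ℂ) * c (fi k) := fun ξ => by
    rcases eq_or_ne ξ 0 with rfl | hξ
    · exact ⟨0, fun k => by simp [h0]⟩
    have ht : intVec ξ ≠ 0 := fun h => hξ (funext fun i => by simpa [intVec] using congrFun h i)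
    have e1 := eq_wedge_of_cyclic ht (cyclic_of_q_wedge fun η => (hz ξ η).1)
    have e2 := eq_wedge_of_cyclic ht (cyclic_of_q_wedge fun η => (hz ξ η).2)
    set dR := iota ((∑ i, intVec ξ i ^ 2)⁻¹ • intVec ξ) (fnR U ξ)
    set dI := iota ((∑ i, intVec ξ i ^ 2)⁻¹ • intVec ξ) (fnI U ξ)
    refine ⟨fun i => (dR i : ℂ) - Complex.I * (dI i : ℂ), fun k => ?_⟩
    rw [fnC, PiLp.sub_apply, PiLp.smul_apply, cplx_apply, cplx_apply, e1, e2]
    simp only [wedge, ofSkew_apply, pair_e', smul_eq_mul, intVec]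
    push_cast
    ring
  refine ⟨h0, fun ξ => ?_, hform⟩
  obtain ⟨c, hc⟩ := hform ξ
  simp only [qC, cconj_apply, hc, map_sub, map_mul, map_intCast, fi, se, Matrix.cons_val_zero,
    Matrix.cons_val_one, Matrix.cons_val]
  ring

/-- Exact coefficients give uniform limits of exact forms. -/
theorem exact_approx {c : Freq → CForm} (hs : Summable fun ξ => ‖c ξ‖) (_hh : Herm c) (_h0 : c 0 = 0)
    (hw : ∀ ξ, ∃ d : Fin 4 → ℂ, ∀ k, c ξ k = (ξ (fi k) : ℂ) * d (se k) - (ξ (se k) : ℂ) * d (fi k))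
    {δ : ℝ} (hδ : 0 < δ) :
    ∃ η : V → V, Smooth η ∧ ∀ x, ‖synth c x - d1 η x‖ ≤ δ := by
  choose d hd using hw
  obtain ⟨s, hs'⟩ := ((tendsto_order.1 (tendsto_tsum_compl_atTop_zero fun ξ => ‖c ξ‖)).2 δ hδ).exists
  let w : Freq → Fin 4 → ℂ := fun ξ i => -Complex.I / (2 * Real.pi) * d ξ i
  let η : V → V := fun x i => (∑ ξ ∈ s, chr ξ x * w ξ i).re
  have hη : Smooth η :=
    ⟨contDiff_pi.2 fun i => Complex.reCLM.contDiff.comp
      (ContDiff.sum fun ξ _ => (contDiff_chr ξ).mul contDiff_const),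
      fun x n => funext fun i => by simp only [η, chr_periodic _ x n]⟩
  refine ⟨η, hη, fun x => ?_⟩
  have hder : ∀ u i, fderiv ℝ η x u i = (∑ ξ ∈ s, chr ξ x * ((pair (intVec ξ) u : ℂ) * d ξ i)).re :=
    fun u i => by
    have hF : HasFDerivAt (fun y => (∑ ξ ∈ s, chr ξ y * w ξ i).re)
        (Complex.reCLM.comp (∑ ξ ∈ s, (w ξ i) • (chr ξ x • Complex.I • Complex.ofRealCLM.comp (phase ξ)))) x :=
      Complex.reCLM.hasFDerivAt.comp x
        (HasFDerivAt.fun_sum fun ξ _ => (hasFDerivAt_chr ξ x).mul_const (w ξ i))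
    have hp := hasFDerivAt_pi'.1 ((hη.smooth.differentiable (by simp)).differentiableAt (x := x)).hasFDerivAt i
    have := congrArg (fun L => L u) (hp.unique hF)
    simp only [ContinuousLinearMap.comp_apply, ContinuousLinearMap.proj_apply] at this
    rw [this]
    simp only [ContinuousLinearMap.comp_apply, sum_apply,
      smul_apply, Complex.ofRealCLM_apply, Complex.reCLM_apply, smul_eq_mul]
    congr 1
    refine Finset.sum_congr rfl fun ξ _ => ?_
    have hπ : (Real.pi : ℂ) ≠ 0 := by exact_mod_cast Real.pi_ne_zero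
    rw [phase_eq_pair]
    simp only [w]
    push_cast
    field_simp
    ring_nf
    rw [Complex.I_sq]
    ring
  have hd1 : d1 η x = reF (∑ ξ ∈ s, chr ξ x • c ξ) := by
    ext k
    simp only [d1, ofSkew_apply, reF_apply, WithLp.ofLp_sum, Finset.sum_apply, PiLp.smul_apply,
      smul_eq_mul]
    rw [show pair (fderiv ℝ η x (e (fi k))) (e (se k)) = fderiv ℝ η x (e (fi k)) (se k) from
        pair_e' _ _,
      show pair (fderiv ℝ η x (e (se k))) (e (fi k)) = fderiv ℝ η x (e (se k)) (fi k) from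
        pair_e' _ _, hder, hder, ← Complex.sub_re, ← Finset.sum_sub_distrib]
    congr 1
    refine Finset.sum_congr rfl fun ξ _ => ?_
    rw [hd ξ k, pair_e', pair_e']
    simp only [intVec, Complex.ofReal_intCast]
    ring
  rw [hd1, synth, ← (summable_chr_smul hs x).sum_add_tsum_compl (s := s)]
  show ‖reL _ - reL _‖ ≤ δ
  rw [← map_sub, add_sub_cancel_left]
  refine (norm_reF_le _).trans ((norm_tsum_le_tsum_norm ?_).trans ?_)
  · simp only [norm_smul, norm_chr, one_mul]; exact hs.subtype _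
  · simp only [norm_smul, norm_chr, one_mul]
    exact hs'.le

end Vale.Agent.P204.Torus
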