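import Mathlib

/-!
P204, tamed almost complex structures on the four-torus: definitions.

Everything lives on `V = ℝ⁴` and is periodic under `ℤ⁴`. A two-form is a point of `Form = ℝ⁶`, with
coordinates `(01, 02, 03, 23, 31, 12)`, so that `q α β` is `α ∧ β` over the standard volume.
-/

open MeasureTheory
open scoped BigOperators

namespace Vale.Agent.P204.Torus

/-- The universal cover of the torus and its tangent space; also used for covectors. -/
abbrev V := Fin 4 → ℝ

/-- Two-forms at a point. -/
abbrev Form := EuclideanSpace ℝ (Fin 6)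

/-- The integer vector `n`. -/
def intVec (n : Fin 4 → ℤ) : V := fun i => (n i : ℝ)

/-- Periodicity under the lattice. -/
def Periodic {α : Type*} (f : V → α) : Prop := ∀ x n, f (x + intVec n) = f x

/-- The standard basis vectors. -/
def e (i : Fin 4) : V := Pi.single i 1

/-- The first index of each coordinate of a two-form. -/
def fi : Fin 6 → Fin 4 := ![0, 0, 0, 2, 3, 1]

/-- The second index of each coordinate of a two-form. -/
def se : Fin 6 → Fin 4 := ![1, 2, 3, 3, 1, 2]

/-- The two-form `α` evaluated on `u` and `v`. -/
def ev (α : Form) (u v : V) : ℝ := ∑ k, α k * (u (fi k) * v (se k) - v (fi k) * u (se k))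

/-- The coordinates of a skew bilinear function. -/
noncomputable def ofSkew (F : V → V → ℝ) : Form := WithLp.toLp 2 fun k => F (e (fi k)) (e (se k))

/-- The wedge pairing. -/
def q (α β : Form) : ℝ :=
  α 0 * β 3 + α 1 * β 4 + α 2 * β 5 + α 3 * β 0 + α 4 * β 1 + α 5 * β 2

/-- Pullback of a two-form by a linear map. -/
noncomputable def pull (A : V →L[ℝ] V) (α : Form) : Form := ofSkew fun u v => ev α (A u) (A v)

/-- The invariant part. -/
noncomputable def piP (A : V →L[ℝ] V) (α : Form) : Form := (1 / 2 : ℝ) • (α + pull A α)

/-- The anti-invariant part. -/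
noncomputable def piM (A : V →L[ℝ] V) (α : Form) : Form := (1 / 2 : ℝ) • (α - pull A α)

/-- Value of a covector. -/
def pair (ξ u : V) : ℝ := ∑ i, ξ i * u i

/-- The wedge of two covectors. -/
noncomputable def wedge (ξ η : V) : Form :=
  ofSkew fun u v => pair ξ u * pair η v - pair η u * pair ξ v

/-- Contraction of a two-form by a vector. -/
noncomputable def iota (v : V) (α : Form) : V := fun j => ev α v (e j)

/-- Exterior derivative of a one-form. -/
noncomputable def d1 (b : V → V) (x : V) : Form :=
  ofSkew fun u v => pair (fderiv ℝ b x u) v - pair (fderiv ℝ b x v) u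

/-- A closed two-form. -/
def Closed (α : V → Form) : Prop :=
  ∀ x u v w, ev (fderiv ℝ α x u) v w + ev (fderiv ℝ α x v) w u + ev (fderiv ℝ α x w) u v = 0

/-- A smooth periodic field. -/
structure Smooth {F : Type*} [NormedAddCommGroup F] [NormedSpace ℝ F] (f : V → F) : Prop where
  smooth : ContDiff ℝ (⊤ : ℕ∞) f
  periodic : Periodic f

/-- An almost complex structure on the torus with the standard orientation, tamed by a form.
The form is closed only where this is assumed. -/
structure Setup where
  /-- The almost complex structure. -/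
  J : V → V →L[ℝ] V
  /-- The taming form. -/
  om : V → Form
  J_smooth : Smooth J
  J_sq : ∀ x u, J x (J x u) = -u
  om_smooth : Smooth om
  tames : ∀ x u, u ≠ 0 → 0 < ev (om x) u (J x u)
  orient : ∀ x, 0 < q (om x) (om x)

namespace Setup

variable (S : Setup)

/-- The invariant part of the taming form. -/
noncomputable def Om (x : V) : Form := piP (S.J x) (S.om x)

/-- The metric. -/
noncomputable def g (x : V) (u v : V) : ℝ := ev (S.Om x) u (S.J x v)

/-- A positive invariant two-form at `x`. -/
def Psd (x : V) (h : Form) : Prop :=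
  piM (S.J x) h = 0 ∧ ∀ u, 0 ≤ ev h u (S.J x u)

/-- The smooth closed invariant forms. -/
def ClosedInv (α : V → Form) : Prop :=
  Smooth α ∧ Closed α ∧ ∀ x, piM (S.J x) (α x) = 0

/-- A compatible form. -/
def Compatible (α : V → Form) : Prop :=
  S.ClosedInv α ∧ ∀ x u, u ≠ 0 → 0 < ev (α x) u (S.J x u)

end Setup

/-- The fundamental cube. -/
def cube : Set V := Set.pi Set.univ fun _ => Set.Ico (0 : ℝ) 1

/-- A periodic distance to the lattice: `(∑ sin² π uᵢ)^(1/2) / π`. -/
noncomputable def dist0 (u : V) : ℝ := Real.sqrt (∑ i, Real.sin (Real.pi * u i) ^ 2) / Real.pi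

/-- A positive current: `α ↦ ∫ q (h y) (α y) dν`. -/
structure Current (S : Setup) where
  /-- The trace measure. -/
  ν : Measure V
  /-- The density. -/
  h : V → Form
  finite : IsFiniteMeasure ν
  supp : ν cubeᶜ = 0
  meas : Measurable h
  psd : ∀ y, S.Psd y (h y)
  trace : ∀ y, q (h y) (S.Om y) = 1

/-- A separating current is nonzero and annihilates the closed invariant forms. -/
structure Current.Separating {S : Setup} (T : Current S) : Prop where
  ne_zero : T.ν ≠ 0
  annihilates : ∀ α, S.ClosedInv α → ∫ y, q (T.h y) (α y) ∂T.ν = 0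

end Vale.Agent.P204.Torus
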