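import Vale.Agent.P204.Torus.Phase2Defs
import Vale.Agent.P204.Torus.KernelFacts
import Vale.Agent.P204.Torus.Phase1

/-!
P204 on the four-torus: the energy of the regularised currents.
-/

open MeasureTheory Filter Topology

namespace Vale.Agent.P204.Torus

lemma continuous_kconv {ε : ℝ} (hε : 0 < ε) {F : V → Form} (hF : Continuous F) (hp : Periodic F) :
    Continuous (kconv ε F) := by
  obtain ⟨K, hK, hkb⟩ := exists_bound (continuous_ker hε) (ker_periodic hε)
  obtain ⟨M, -, hM⟩ := exists_bound hF hp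
  refine continuous_of_dominated (μ := cubeVol) (fun x => (integrable_cube_of_continuous
    (((continuous_ker hε).comp (by fun_prop)).smul hF)).aestronglyMeasurable)
    (bound := fun _ => K * M) (fun x => Eventually.of_forall fun y => ?_)
    (integrable_const _) (Eventually.of_forall fun y =>
      ((continuous_ker hε).comp (by fun_prop)).smul continuous_const)
  rw [norm_smul]
  exact mul_le_mul (hkb _) (hM y) (norm_nonneg _) hK.le

lemma continuous_ker2 {ε : ℝ} (hε : 0 < ε) : Continuous (ker2 ε) := by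
  obtain ⟨K, hK, hkb⟩ := exists_bound (continuous_ker hε) (ker_periodic hε)
  have hk := continuous_ker hε
  refine continuous_of_dominated (μ := cubeVol) (fun x => (integrable_cube_of_continuous
    (hk.mul (hk.comp (by fun_prop)))).aestronglyMeasurable)
    (bound := fun _ => K * K) (fun x => Eventually.of_forall fun y => ?_)
    (integrable_const _) (Eventually.of_forall fun y =>
      continuous_const.mul (hk.comp (by fun_prop)))
  rw [norm_mul]
  exact mul_le_mul (hkb _) (hkb _) (norm_nonneg _) hK.le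

lemma ker2_nonneg' {ε : ℝ} (hε : 0 < ε) (u : V) : 0 ≤ ker2 ε u :=
  integral_nonneg fun _ => mul_nonneg (ker_nonneg hε _) (ker_nonneg hε _)

/-- The kernel against the square of the distance. -/
lemma exists_ker2_dist : ∃ C, 0 < C ∧ ∀ ε, 0 < ε → ε ≤ 1 → ∀ u,
    ker2 ε u ≤ C * (ε ^ 4)⁻¹ ∧
      ker2 ε u * dist0 u ^ 2 ≤ C * (ε ^ 2 / (ε ^ 2 + dist0 u ^ 2) ^ 2) := by
  obtain ⟨C, hC, h⟩ := exists_ker_upper 3
  refine ⟨C, hC, fun ε hε h1 u => ?_⟩
  have h2 := (h ε hε h1 u).2
  rw [env_eq] at h2
  refine ⟨h2.trans (mul_le_mul_of_nonneg_left (mul_le_of_le_one_right (by positivity)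
      (pow_le_one₀ (phi_nonneg _ _) (phi_le_one _ _))) hC.le),
    (mul_le_mul_of_nonneg_right h2 (sq_nonneg _)).trans ?_⟩
  rw [mul_assoc]
  refine mul_le_mul_of_nonneg_left ?_ hC.le
  unfold phi
  rw [div_pow, ← mul_div_assoc, div_mul_eq_mul_div, div_le_div_iff₀ (by positivity) (by positivity)]
  have e : (ε ^ 4)⁻¹ * (ε ^ 2) ^ 3 = ε ^ 2 := by field_simp
  rw [e]
  nlinarith [mul_nonneg (mul_nonneg (sq_nonneg ε) (sq_nonneg (ε ^ 2 + dist0 u ^ 2))) (sq_nonneg ε)]

lemma integral_mul_le_l2 {f g : V → Form} (hf : Continuous f) (hg : Continuous g) :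
    ∫ x, ‖f x‖ * ‖g x‖ ∂cubeVol ≤ l2 f * l2 g := by
  have h := integral_mul_sq_le (integrable_cube_of_continuous (hf.norm.pow 2))
    (integrable_cube_of_continuous (hg.norm.pow 2))
    (integrable_cube_of_continuous (hf.norm.mul hg.norm))
  refine (Real.le_sqrt_of_sq_le h).trans_eq ?_
  rw [Real.sqrt_mul (integral_nonneg fun _ => sq_nonneg _)]
  rfl

namespace Current

variable {S : Setup} (T : Current S) {w : V → ℝ} {ε : ℝ}

lemma integrable_regW (hw : Measurable w) (hb : ∀ y, |w y| ≤ 1) (hε : 0 < ε) (x : V) :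
    Integrable (fun z => (w z * ker ε (x - z)) • T.h z) T.ν := by
  obtain ⟨C, hC, hh⟩ := T.exists_h_bound
  obtain ⟨K, hK, hkb⟩ := exists_bound (continuous_ker hε) (ker_periodic hε)
  refine T.integrable_bounded (((hw.mul ((continuous_ker hε).comp (by fun_prop)).measurable).smul
    T.meas).aestronglyMeasurable) (C := 1 * K * C) fun z => ?_
  rw [norm_smul, norm_mul]
  exact mul_le_mul (mul_le_mul (hb z) (hkb _) (norm_nonneg _) zero_le_one) (hh z) (norm_nonneg _)
    (by positivity)

lemma continuous_regW (hw : Measurable w) (hb : ∀ y, |w y| ≤ 1) (hε : 0 < ε) :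
    Continuous (T.regW w ε) := by
  obtain ⟨C, hC, hh⟩ := T.exists_h_bound
  obtain ⟨K, hK, hkb⟩ := exists_bound (continuous_ker hε) (ker_periodic hε)
  refine continuous_of_dominated (fun x => (T.integrable_regW hw hb hε x).aestronglyMeasurable)
    (bound := fun _ => 1 * K * C) (fun x => Eventually.of_forall fun z => ?_)
    (integrable_const _) (Eventually.of_forall fun z =>
      (continuous_const.mul ((continuous_ker hε).comp (by fun_prop))).smul continuous_const)
  rw [norm_smul, norm_mul]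
  exact mul_le_mul (mul_le_mul (hb z) (hkb _) (norm_nonneg _) zero_le_one) (hh z) (norm_nonneg _)
    (by positivity)

lemma periodic_reg (hε : 0 < ε) : Periodic (T.reg ε) := fun x n => by
  refine integral_congr_ae (Eventually.of_forall fun z => ?_)
  simp only [add_sub_right_comm x (intVec n) z, ker_periodic hε (x - z) n]

lemma regW_one : T.regW (fun _ => 1) ε = T.reg ε := by
  funext x
  simp only [regW, reg, one_mul]

/-- The pairing of the weighted smoothing with a continuous periodic field. -/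
lemma integral_q_regW (hw : Measurable w) (hb : ∀ y, |w y| ≤ 1) (hε : 0 < ε) {F : V → Form}
    (hF : Continuous F) (hp : Periodic F) :
    ∫ x, q (T.regW w ε x) (F x) ∂cubeVol = ∫ y, w y * q (T.h y) (kconv ε F y) ∂T.ν := by
  obtain ⟨C, hC, hh⟩ := T.exists_h_bound
  obtain ⟨K, hK, hkb⟩ := exists_bound (continuous_ker hε) (ker_periodic hε)
  obtain ⟨M, hM0, hM⟩ := exists_bound hF hp
  have hqm : Measurable fun p : V × V => q (T.h p.2) (F p.1) :=
    (Setup.continuous_q continuous_fst continuous_snd).measurable.comp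
      ((T.meas.comp measurable_snd).prodMk (hF.measurable.comp measurable_fst))
  have hm : Measurable (Function.uncurry fun x y => w y * ker ε (x - y) * q (T.h y) (F x)) :=
    (((hw.comp measurable_snd).mul
      ((continuous_ker hε).comp (by fun_prop)).measurable).mul hqm)
  have hbd : ∀ x y, |w y * ker ε (x - y) * q (T.h y) (F x)| ≤ 1 * K * (6 * (C * M)) := fun x y => by
    rw [abs_mul, abs_mul]
    refine mul_le_mul (mul_le_mul (hb y) ((Real.norm_eq_abs _).symm.trans_le (hkb _))
      (abs_nonneg _) zero_le_one) ((abs_q_le _ _).trans ?_) (abs_nonneg _) (by positivity)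
    gcongr
    · exact hh y
    · exact hM x
  calc ∫ x, q (T.regW w ε x) (F x) ∂cubeVol
      = ∫ x, ∫ y, w y * ker ε (x - y) * q (T.h y) (F x) ∂T.ν ∂cubeVol :=
        integral_congr_ae (Eventually.of_forall fun x => by
          simp only [regW]
          rw [q_comm, q_integral (T.integrable_regW hw hb hε x)]
          exact integral_congr_ae (Eventually.of_forall fun y => by
            simp only [q_smul_right]; rw [q_comm (F x)]))
    _ = ∫ y, ∫ x, w y * ker ε (x - y) * q (T.h y) (F x) ∂cubeVol ∂T.ν := T.integral_swap hm hbd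
    _ = ∫ y, w y * q (T.h y) (kconv ε F y) ∂T.ν :=
        integral_congr_ae (Eventually.of_forall fun y => by
          have hi : Integrable (fun x => ker ε (y - x) • F x) cubeVol :=
            integrable_cube_of_continuous (((continuous_ker hε).comp (by fun_prop)).smul hF)
          change _ = w y * q (T.h y) (∫ x, ker ε (y - x) • F x ∂cubeVol)
          rw [q_integral hi, ← integral_const_mul]
          exact integral_congr_ae (Eventually.of_forall fun x => by
            simp only [q_smul_right]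
            rw [← ker_neg (x - y), neg_sub, mul_assoc]))

lemma measurable_qh : Measurable fun p : V × V => q (T.h p.1) (T.h p.2) :=
  (Setup.continuous_q continuous_fst continuous_snd).measurable.comp
    ((T.meas.comp measurable_fst).prodMk (T.meas.comp measurable_snd))

/-- The smoothed current against the current, as a double integral. -/
lemma q_kconv_reg (hε : 0 < ε) (y : V) :
    q (T.h y) (kconv ε (T.reg ε) y) = ∫ z, ker2 ε (y - z) * q (T.h y) (T.h z) ∂T.ν := by
  obtain ⟨C, hC, hh⟩ := T.exists_h_bound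
  obtain ⟨K, hK, hkb⟩ := exists_bound (continuous_ker hε) (ker_periodic hε)
  have hreg := UData.continuous_reg (T := T) hε
  have hqy : Measurable fun z => q (T.h y) (T.h z) :=
    T.measurable_qh.comp (measurable_const.prodMk measurable_id)
  have hm : Measurable (Function.uncurry fun x z =>
      ker ε (x - y) * ker ε (x - z) * q (T.h y) (T.h z)) :=
    ((((continuous_ker hε).comp (by fun_prop)).mul
      ((continuous_ker hε).comp (by fun_prop))).measurable).mul (hqy.comp measurable_snd)
  have hbd : ∀ x z, |ker ε (x - y) * ker ε (x - z) * q (T.h y) (T.h z)| ≤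
      K * K * (6 * (C * C)) := fun x z => by
    rw [abs_mul, abs_mul]
    refine mul_le_mul (mul_le_mul ((Real.norm_eq_abs _).symm.trans_le (hkb _))
      ((Real.norm_eq_abs _).symm.trans_le (hkb _)) (abs_nonneg _) hK.le)
      ((abs_q_le _ _).trans ?_) (abs_nonneg _) (by positivity)
    gcongr <;> apply hh
  calc q (T.h y) (kconv ε (T.reg ε) y)
      = ∫ x, ∫ z, ker ε (x - y) * ker ε (x - z) * q (T.h y) (T.h z) ∂T.ν ∂cubeVol := by
        have hi : Integrable (fun x => ker ε (y - x) • T.reg ε x) cubeVol :=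
          integrable_cube_of_continuous (((continuous_ker hε).comp (by fun_prop)).smul hreg)
        change q (T.h y) (∫ x, ker ε (y - x) • T.reg ε x ∂cubeVol) = _
        rw [q_integral hi]
        refine integral_congr_ae (Eventually.of_forall fun x => ?_)
        simp only [q_smul_right, reg]
        rw [q_integral (T.integrable_smooth_smul (continuous_ker hε) (ker_periodic hε) x),
          ← integral_const_mul, ← ker_neg (x - y), neg_sub]
        exact integral_congr_ae (Eventually.of_forall fun z => by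
          simp only [q_smul_right]; ring)
    _ = ∫ z, ∫ x, ker ε (x - y) * ker ε (x - z) * q (T.h y) (T.h z) ∂cubeVol ∂T.ν :=
        T.integral_swap hm hbd
    _ = _ := integral_congr_ae (Eventually.of_forall fun z => by
        simp only [integral_mul_const]
        rw [show ∫ x, ker ε (x - y) * ker ε (x - z) ∂cubeVol = ker2 ε (y - z) from
          integral_ker_mul hε y z])

lemma pairE_eq (hw : Measurable w) (hb : ∀ y, |w y| ≤ 1) (hε : 0 < ε) :
    T.pairE w ε = ∫ y, w y * ∫ z, ker2 ε (y - z) * q (T.h y) (T.h z) ∂T.ν ∂T.ν := by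
  refine (T.integral_q_regW hw hb hε (UData.continuous_reg hε) (T.periodic_reg hε)).trans ?_
  exact integral_congr_ae (Eventually.of_forall fun y => by simp only [T.q_kconv_reg hε y])

lemma pairE_add {ε : ℝ} (hε : 0 < ε) {w : V → ℝ} (hw : Measurable w)
    (h0 : ∀ y, 0 ≤ w y) (h1 : ∀ y, w y ≤ 1) :
    T.pairE w ε + T.pairE (fun y => 1 - w y) ε = ∫ x in cube, q (T.reg ε x) (T.reg ε x) := by
  have hb : ∀ y, |w y| ≤ 1 := fun y => by rw [abs_of_nonneg (h0 y)]; exact h1 y
  have hw' : Measurable fun y => 1 - w y := measurable_const.sub hw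
  have hb' : ∀ y, |1 - w y| ≤ 1 := fun y => by
    rw [abs_of_nonneg (by linarith [h1 y])]; linarith [h0 y]
  have hreg := UData.continuous_reg (T := T) hε
  have hi : ∀ {u : V → ℝ}, Measurable u → (∀ y, |u y| ≤ 1) →
      Integrable (fun x => q (T.regW u ε x) (T.reg ε x)) cubeVol := fun hu hub =>
    integrable_cube_of_continuous (Setup.continuous_q (T.continuous_regW hu hub hε) hreg)
  change ∫ x, q (T.regW w ε x) (T.reg ε x) ∂cubeVol + ∫ x, q (T.regW _ ε x) (T.reg ε x) ∂cubeVol =
    ∫ x, q (T.reg ε x) (T.reg ε x) ∂cubeVol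
  rw [← integral_add (hi hw hb) (hi hw' hb')]
  refine integral_congr_ae (Eventually.of_forall fun x => ?_)
  simp only [regW, reg]
  rw [← q_add_left, ← integral_add (T.integrable_regW hw hb hε x) (T.integrable_regW hw' hb' hε x)]
  congr 1
  refine integral_congr_ae (Eventually.of_forall fun z => ?_)
  simp only [← add_smul]
  congr 1
  ring

lemma continuous_dens (hε : 0 < ε) : Continuous (T.dens ε) := by
  refine continuous_of_dominated (bound := fun _ => (ε ^ 2)⁻¹)
    (fun y => ?_) (fun y => Eventually.of_forall fun z => ?_) (integrable_const _)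
    (Eventually.of_forall fun z => ?_)
  · simp only [dens_integrand]
    exact ((T.integrable_phi_sub hε y 2).const_mul _).aestronglyMeasurable
  · rw [dens_integrand, Real.norm_eq_abs,
      abs_of_nonneg (mul_nonneg (by positivity) (sq_nonneg _))]
    exact mul_le_of_le_one_right (by positivity) (pow_le_one₀ (phi_nonneg _ _) (phi_le_one _ _))
  · exact continuous_const.div ((continuous_const.add
      ((continuous_dist0.comp (by fun_prop)).pow 2)).pow 2) fun y => by positivity

lemma integrable_prod_ker2 (hε : 0 < ε) {G : V × V → ℝ} (hG : Measurable G) {M : ℝ}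
    (hM : ∀ p, |G p| ≤ M) :
    Integrable (fun p : V × V => ker2 ε (p.1 - p.2) * G p) (T.ν.prod T.ν) := by
  obtain ⟨K, hK, hkb⟩ := exists_bound (continuous_ker hε) (ker_periodic hε)
  refine Integrable.of_bound ((((continuous_ker2 hε).comp (by fun_prop)).measurable).mul
    hG).aestronglyMeasurable (K * K * cubeVol.real Set.univ * M) (Eventually.of_forall fun p => ?_)
  rw [norm_mul]
  refine mul_le_mul ?_ ((Real.norm_eq_abs _).trans_le (hM p)) (norm_nonneg _) ?_
  · refine norm_integral_le_of_norm_le_const (μ := cubeVol) (Eventually.of_forall fun x => ?_)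
    rw [norm_mul]
    exact mul_le_mul (hkb _) (hkb _) (norm_nonneg _) hK.le
  · exact mul_nonneg (by positivity) measureReal_nonneg

lemma abs_qh_le {C : ℝ} (hC : 0 ≤ C) (hh : ∀ z, ‖T.h z‖ ≤ C) (p : V × V) :
    |q (T.h p.1) (T.h p.2)| ≤ 6 * (C * C) :=
  (abs_q_le _ _).trans (mul_le_mul_of_nonneg_left
    (mul_le_mul (hh _) (hh _) (norm_nonneg _) hC) (by norm_num))

lemma integrable_ker2_q (hε : 0 < ε) :
    Integrable (fun p : V × V => ker2 ε (p.1 - p.2) * q (T.h p.1) (T.h p.2)) (T.ν.prod T.ν) := by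
  obtain ⟨C, hC, hh⟩ := T.exists_h_bound
  exact T.integrable_prod_ker2 hε T.measurable_qh (T.abs_qh_le hC.le hh)

lemma integrable_ker2_sq (hε : 0 < ε) :
    Integrable (fun p : V × V => ker2 ε (p.1 - p.2) * dist0 (p.1 - p.2) ^ 2) (T.ν.prod T.ν) :=
  T.integrable_prod_ker2 hε ((continuous_dist0.comp (by fun_prop)).pow 2).measurable (M := 1)
    fun p => by
      rw [abs_of_nonneg (sq_nonneg _)]
      exact pow_le_one₀ (dist0_nonneg _) (dist0_le_one _)

lemma integral_ker2_sq_le {C : ℝ} (hε : 0 < ε)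
    (hC : ∀ u, ker2 ε u * dist0 u ^ 2 ≤ C * (ε ^ 2 / (ε ^ 2 + dist0 u ^ 2) ^ 2)) (y : V) :
    ∫ z, ker2 ε (y - z) * dist0 (y - z) ^ 2 ∂T.ν ≤ C * T.dens ε y := by
  rw [dens, ← integral_const_mul]
  refine integral_mono_of_nonneg (Eventually.of_forall fun z =>
    mul_nonneg (ker2_nonneg' hε _) (sq_nonneg _)) ?_ (Eventually.of_forall fun z => ?_)
  · simp only [dens_integrand]
    exact ((T.integrable_phi_sub hε y 2).const_mul _).const_mul _
  · refine (hC (y - z)).trans_eq ?_
    rw [dist0_sub_comm y z]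

lemma exists_pairE_lower : ∃ C, 0 ≤ C ∧ ∀ ε, 0 < ε → ε ≤ 1 → ∀ w : V → ℝ, Measurable w →
    (∀ y, 0 ≤ w y) → (∀ y, w y ≤ 1) →
      -C * ∫ y, w y * T.dens ε y ∂T.ν ≤ T.pairE w ε := by
  obtain ⟨Cl, hCl, hpair⟩ := S.exists_pair_lower
  obtain ⟨Cu, hCu, hup⟩ := exists_ker2_dist
  refine ⟨Cl * Cu, by positivity, fun ε hε h1 w hw h0 hle => ?_⟩
  have hb : ∀ y, |w y| ≤ 1 := fun y => by rw [abs_of_nonneg (h0 y)]; exact hle y
  rw [T.pairE_eq hw hb hε, ← integral_const_mul]
  have hi : Integrable (fun y => w y * T.dens ε y) T.ν := by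
    refine T.integrable_bounded (hw.mul (T.continuous_dens hε).measurable).aestronglyMeasurable
      (C := 1 * (T.mass / ε ^ 2)) fun y => ?_
    rw [norm_mul]
    exact mul_le_mul (hb y)
      (((Real.norm_eq_abs _).trans (abs_of_nonneg (T.dens_nonneg ε y))).trans_le
        (T.dens_le_mass hε y)) (norm_nonneg _) zero_le_one
  refine integral_mono_ae (hi.const_mul _) ?_ ?_
  · exact (T.integrable_ker2_q hε).integral_prod_left.bdd_mul hw.aestronglyMeasurable (c := 1)
      (Eventually.of_forall hb)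
  · filter_upwards [(T.integrable_ker2_q hε).prod_right_ae,
      (T.integrable_ker2_sq hε).prod_right_ae] with y iq id
    have h2 : -(Cl * ∫ z, ker2 ε (y - z) * dist0 (y - z) ^ 2 ∂T.ν) ≤
        ∫ z, ker2 ε (y - z) * q (T.h y) (T.h z) ∂T.ν := by
      rw [← integral_const_mul, ← integral_neg]
      refine integral_mono (id.const_mul Cl).neg iq fun z => ?_
      have := mul_le_mul_of_nonneg_left (hpair y z (T.h y) (T.h z) (T.psd y) (T.psd z) (T.trace y)
        (T.trace z)) (ker2_nonneg' hε (y - z))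
      linarith
    have h3 := mul_le_mul_of_nonneg_left (T.integral_ker2_sq_le hε (fun u => (hup ε hε h1 u).2) y)
      hCl.le
    have h4 := mul_le_mul_of_nonneg_left
      (show -(Cl * (Cu * T.dens ε y)) ≤ ∫ z, ker2 ε (y - z) * q (T.h y) (T.h z) ∂T.ν by linarith)
      (h0 y)
    linarith

/-- Bounds of the weighted smoothing by the envelope potential. -/
lemma exists_regW_bound : ∃ C, 0 < C ∧ ∀ ε, 0 < ε → ε ≤ 1 → ∀ w : V → ℝ, Measurable w →
    (∀ y, |w y| ≤ 1) → ∀ x, ‖T.regW w ε x‖ ≤ C * ((ε ^ 4)⁻¹ * T.pot ε x) ∧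
      ‖piM (S.J x) (T.regW w ε x)‖ ≤ C * ((ε ^ 3)⁻¹ * T.pot ε x) := by
  obtain ⟨Ch, hCh, hh⟩ := T.exists_h_bound
  obtain ⟨Cm, hCm, hmove⟩ := S.exists_move
  obtain ⟨Cu, hCu, hup⟩ := exists_ker_upper 6
  refine ⟨Cu * Ch + Cu * Cm, by positivity, fun ε hε h1 w hw hb x => ?_⟩
  have hk : ∀ u, ker ε u ≤ Cu * (ε ^ 4)⁻¹ * phi ε u ^ 5 ∧
      ker ε u * dist0 u ≤ Cu * (ε ^ 3)⁻¹ * phi ε u ^ 5 := by
    intro u
    have h := (hup ε hε h1 u).1
    rw [env_eq] at h
    have hφ0 := phi_nonneg ε u
    have h5 : 0 ≤ Cu * (ε ^ 4)⁻¹ * phi ε u ^ 5 := by positivity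
    have e : ker ε u ≤ Cu * (ε ^ 4)⁻¹ * phi ε u ^ 5 * phi ε u := h.trans_eq (by ring)
    have hd : 0 ≤ dist0 u := dist0_nonneg _
    have hd1 : phi ε u * dist0 u ≤ ε := by
      rw [phi, div_mul_eq_mul_div, div_le_iff₀ (by positivity)]
      nlinarith [sq_nonneg (ε - dist0 u), mul_nonneg hε.le (sq_nonneg (ε - dist0 u)),
        mul_nonneg (sq_nonneg ε) hd]
    refine ⟨e.trans (mul_le_of_le_one_right h5 (phi_le_one _ _)),
      (mul_le_mul_of_nonneg_right e hd).trans ?_⟩
    rw [mul_assoc _ (phi ε u)]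
    refine (mul_le_mul_of_nonneg_left hd1 h5).trans_eq ?_
    field_simp
  have hp0 := T.pot_nonneg ε x
  have hwk : ∀ z, ‖w z * ker ε (x - z)‖ ≤ ker ε (x - z) := fun z => by
    rw [norm_mul, Real.norm_eq_abs, Real.norm_eq_abs, abs_of_nonneg (ker_nonneg hε _)]
    exact mul_le_of_le_one_left (ker_nonneg hε _) (hb z)
  constructor
  · refine (norm_integral_le_of_norm_le ((T.integrable_phi_sub' hε x 5).const_mul
      (Cu * Ch * (ε ^ 4)⁻¹)) (Eventually.of_forall fun z => ?_)).trans ?_
    · rw [norm_smul]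
      refine (mul_le_mul ((hwk z).trans (hk _).1) (hh z) (norm_nonneg _)
        ((norm_nonneg _).trans ((hwk z).trans (hk _).1))).trans_eq ?_
      ring
    · rw [integral_const_mul, mul_assoc]
      exact mul_le_mul_of_nonneg_right (le_add_of_nonneg_right (by positivity)) (by
        change 0 ≤ _ * T.pot ε x; positivity)
  · set P : Form →L[ℝ] Form := LinearMap.toContinuousLinearMap
      { toFun := fun h => piM (S.J x) h
        map_add' := fun h k => piM_add _ h k
        map_smul' := fun c h => by simp only [piM_smul, RingHom.id_apply] }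
    have e : piM (S.J x) (T.regW w ε x) = ∫ z, P ((w z * ker ε (x - z)) • T.h z) ∂T.ν :=
      (P.integral_comp_comm (T.integrable_regW hw hb hε x)).symm
    rw [e]
    refine (norm_integral_le_of_norm_le ((T.integrable_phi_sub' hε x 5).const_mul
      (Cu * Cm * (ε ^ 3)⁻¹)) (Eventually.of_forall fun z => ?_)).trans ?_
    · change ‖piM (S.J x) ((w z * ker ε (x - z)) • T.h z)‖ ≤ _
      rw [piM_smul, norm_smul]
      refine (mul_le_mul (hwk z) (hmove x z (T.h z) (T.psd z) (T.trace z)).2.1
        (norm_nonneg _) (ker_nonneg hε _)).trans ?_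
      calc ker ε (x - z) * (Cm * dist0 (x - z)) = Cm * (ker ε (x - z) * dist0 (x - z)) := by ring
        _ ≤ Cm * (Cu * (ε ^ 3)⁻¹ * phi ε (x - z) ^ 5) :=
            mul_le_mul_of_nonneg_left (hk _).2 hCm.le
        _ = _ := by ring
    · rw [integral_const_mul, mul_assoc]
      exact mul_le_mul_of_nonneg_right (le_add_of_nonneg_left (by positivity)) (by
        change 0 ≤ _ * T.pot ε x; positivity)

lemma integral_pot_le (hε : 0 < ε) :
    ∫ x, T.pot ε x ∂cubeVol ≤ phiMass * ε ^ 4 * T.mass := by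
  simp only [pot]
  rw [T.integral_swap (F := fun x z => phi ε (x - z) ^ 5)
    (((continuous_phi hε).comp (by fun_prop)).pow 5).measurable (C := 1) fun x z => by
      rw [abs_of_nonneg (pow_nonneg (phi_nonneg _ _) _)]
      exact pow_le_one₀ (phi_nonneg _ _) (phi_le_one _ _)]
  refine (integral_mono_of_nonneg (Eventually.of_forall fun z => integral_nonneg fun x =>
    pow_nonneg (phi_nonneg _ _) _) (integrable_const (phiMass * ε ^ 4))
    (Eventually.of_forall fun z => integral_phi_pow_le hε z (by norm_num))).trans_eq ?_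
  simp [mass, mul_comm]

end Current

namespace UData

variable {S : Setup} {T : Current S} (D : UData T)

lemma periodic_Se {ε : ℝ} (hε : 0 < ε) (h1 : ε ≤ 1) : Periodic (D.Se ε) := fun x n => by
  simp only [Se, D.Ue_periodic ε hε h1 x n, T.periodic_reg hε x n]

/-- The cross term of a weighted smoothing and the anti-invariant part. -/
lemma cross_small (hd : T.DensBound) (L : D.SLimit) : ∀ δ > 0, ∃ ε₀ > 0, ε₀ ≤ 1 ∧
    ∀ ε, 0 < ε → ε ≤ ε₀ → ∀ w : V → ℝ, Measurable w → (∀ y, |w y| ≤ 1) →
      |∫ x, q (T.regW w ε x) (D.Se ε x) ∂cubeVol| ≤ δ := by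
  intro δ hδ
  obtain ⟨CW, hCW, hW⟩ := T.exists_regW_bound
  obtain ⟨Cp, hCp, hproj⟩ := S.exists_proj_bound
  obtain ⟨M0, hM0⟩ := hd
  set M := max M0 0
  have hm := T.mass_nonneg
  have hΦ := phiMass_pos
  set CB := √(CW ^ 2 * (2 * 4 ^ 5 * phiMass * T.mass * M))
  have hCB : 0 ≤ CB := Real.sqrt_nonneg _
  obtain ⟨η, hη, hsm⟩ := L.Se_small CB (δ / 2) (by positivity)
  set a := 6 * Cp * CB
  have hev := L.piP_small.eventually (eventually_le_nhds
    (show (0 : ℝ) < δ / 2 / (a + 1) by positivity))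
  obtain ⟨η', hη', hpp⟩ := mem_nhdsGT_iff_exists_Ioc_subset.1 hev
  set b := CW * (phiMass * T.mass)
  refine ⟨min (min η η') (min 1 (η / (b + 1))), lt_min (lt_min hη hη')
    (lt_min one_pos (by positivity)), (min_le_right _ _).trans (min_le_left _ _),
    fun ε hε hεb w hw hb => ?_⟩
  obtain ⟨hb1, hb2⟩ := le_min_iff.1 hεb
  obtain ⟨hεη, hεη'⟩ := le_min_iff.1 hb1
  obtain ⟨h1, hεb'⟩ := le_min_iff.1 hb2
  have hWc := T.continuous_regW hw hb hε
  have hS := D.continuous_Se hε h1
  have hPW : Continuous fun x => piP (S.J x) (T.regW w ε x) := continuous_piP hWc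
  have hPS : Continuous fun x => piP (S.J x) (D.Se ε x) := continuous_piP hS
  have hMW : Continuous fun x => piM (S.J x) (T.regW w ε x) := by
    have e : (fun x => piM (S.J x) (T.regW w ε x)) =
        fun x => T.regW w ε x - piP (S.J x) (T.regW w ε x) := by
      funext x
      rw [eq_sub_iff_add_eq', piP_add_piM]
    rw [e]
    exact hWc.sub hPW
  have hperW : Periodic fun x => piM (S.J x) (T.regW w ε x) := fun x n => by
    have e : T.regW w ε (x + intVec n) = T.regW w ε x :=
      integral_congr_ae (Eventually.of_forall fun z => by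
        simp only [add_sub_right_comm x (intVec n) z, ker_periodic hε (x - z) n])
    simp only [S.J_smooth.periodic x n, e]
  have hpot := T.continuous_pot hε
  have hsq : ∫ x, T.pot ε x ^ 2 ∂cubeVol ≤ 2 * 4 ^ 5 * phiMass * ε ^ 6 * T.mass * M :=
    T.integral_pot_sq_le hε fun y => (hM0 ε hε h1 y).trans (le_max_left _ _)
  have hl : ∀ (f : V → Form) (k : ℕ), Continuous f →
      (∀ x, ‖f x‖ ≤ CW * ((ε ^ k)⁻¹ * T.pot ε x)) → l2 f ≤ CB * (ε ^ 3 / ε ^ k) := by
    intro f k hf hfb
    refine (Real.sqrt_le_sqrt ((integral_mono (integrable_cube_of_continuous (hf.norm.pow 2))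
      (integrable_cube_of_continuous ((continuous_const.mul (continuous_const.mul hpot)).pow 2))
      fun x => pow_le_pow_left₀ (norm_nonneg _) (hfb x) 2).trans ?_)).trans_eq
      (?_ : √(CW ^ 2 * (2 * 4 ^ 5 * phiMass * T.mass * M) * (ε ^ 3 / ε ^ k) ^ 2) = _)
    · simp only [mul_pow, Pi.mul_apply, Pi.pow_apply]
      rw [integral_const_mul, integral_const_mul]
      refine (mul_le_mul_of_nonneg_left (mul_le_mul_of_nonneg_left hsq (by positivity))
        (by positivity)).trans_eq ?_
      field_simp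
    · rw [Real.sqrt_mul' _ (sq_nonneg _), Real.sqrt_sq (by positivity)]
  have hiP : Integrable (fun x => q (piP (S.J x) (T.regW w ε x)) (piP (S.J x) (D.Se ε x)))
      cubeVol := integrable_cube_of_continuous (Setup.continuous_q hPW hPS)
  have hiM : Integrable (fun x => q (D.Se ε x) (piM (S.J x) (T.regW w ε x))) cubeVol :=
    integrable_cube_of_continuous (Setup.continuous_q hS hMW)
  have e : ∫ x, q (T.regW w ε x) (D.Se ε x) ∂cubeVol =
      ∫ x, q (piP (S.J x) (T.regW w ε x)) (piP (S.J x) (D.Se ε x)) ∂cubeVol +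
        ∫ x, q (D.Se ε x) (piM (S.J x) (T.regW w ε x)) ∂cubeVol := by
    rw [← integral_add hiP hiM]
    refine integral_congr_ae (Eventually.of_forall fun x => ?_)
    simp only
    rw [S.q_decomp x (T.regW w ε x) (D.Se ε x),
      S.q_decomp x (D.Se ε x) (piM (S.J x) (T.regW w ε x)), S.piP_piM, S.piM_piM, q_zero_right,
      zero_add, q_comm (piM (S.J x) (T.regW w ε x))]
  have h2 : |∫ x, q (piP (S.J x) (T.regW w ε x)) (piP (S.J x) (D.Se ε x)) ∂cubeVol| ≤ δ / 2 := by
    have hi : Integrable (fun x => ‖T.regW w ε x‖ * ‖piP (S.J x) (D.Se ε x)‖) cubeVol :=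
      integrable_cube_of_continuous (hWc.norm.mul hPS.norm)
    refine abs_integral_le_integral_abs.trans ((integral_mono hiP.abs (hi.const_mul (6 * Cp))
      fun x => ?_).trans ?_)
    · refine (abs_q_le _ _).trans ?_
      rw [mul_assoc 6 Cp]
      refine mul_le_mul_of_nonneg_left ?_ (by norm_num)
      rw [← mul_assoc]
      exact mul_le_mul_of_nonneg_right (hproj x _).1 (norm_nonneg _)
    · rw [integral_const_mul]
      have k1 := (integral_mul_le_l2 hWc hPS).trans (mul_le_mul_of_nonneg_right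
        (hl _ 4 hWc fun x => (hW ε hε h1 w hw hb x).1) (l2_nonneg _))
      refine (mul_le_mul_of_nonneg_left k1 (by positivity)).trans ?_
      have k2 : l2 (fun x => piP (S.J x) (D.Se ε x)) / ε ≤ δ / 2 / (a + 1) := hpp ⟨hε, hεη'⟩
      have ha : 0 ≤ a := by positivity
      calc 6 * Cp * (CB * (ε ^ 3 / ε ^ 4) * l2 (fun x => piP (S.J x) (D.Se ε x)))
          = a * (l2 (fun x => piP (S.J x) (D.Se ε x)) / ε) := by
            simp only [a]; field_simp
        _ ≤ a * (δ / 2 / (a + 1)) := mul_le_mul_of_nonneg_left k2 ha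
        _ ≤ δ / 2 := by
            rw [← mul_div_assoc, div_le_iff₀ (by positivity)]
            nlinarith
  have h3 : |∫ x, q (D.Se ε x) (piM (S.J x) (T.regW w ε x)) ∂cubeVol| ≤ δ / 2 := by
    refine hsm ε hε hεη _ hMW hperW
      ((hl _ 3 hMW fun x => (hW ε hε h1 w hw hb x).2).trans_eq ?_) ?_
    · rw [div_self (by positivity), mul_one]
    · have hpi : Integrable (fun x => CW * ((ε ^ 3)⁻¹ * T.pot ε x)) cubeVol :=
        integrable_cube_of_continuous (continuous_const.mul (continuous_const.mul hpot))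
      refine (integral_mono (integrable_cube_of_continuous hMW.norm) hpi
        fun x => (hW ε hε h1 w hw hb x).2).trans ?_
      rw [integral_const_mul, integral_const_mul]
      refine (mul_le_mul_of_nonneg_left (mul_le_mul_of_nonneg_left (T.integral_pot_le hε)
        (by positivity)) hCW.le).trans ?_
      calc CW * ((ε ^ 3)⁻¹ * (phiMass * ε ^ 4 * T.mass)) = b * ε := by
            simp only [b]; field_simp
        _ ≤ η := by
            have k := (le_div_iff₀ (by positivity : 0 < b + 1)).1 hεb'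
            linarith
  rw [e]
  exact (abs_add_le _ _).trans (by linarith)

lemma tendsto_reg_energy (hd : T.DensBound) (L : D.SLimit) :
    Tendsto (fun ε => ∫ x in cube, q (T.reg ε x) (T.reg ε x)) (𝓝[>] 0) (𝓝 (-L.σ)) := by
  have hc : Tendsto (fun ε => ∫ x, q (T.reg ε x) (D.Se ε x) ∂cubeVol) (𝓝[>] 0) (𝓝 0) := by
    rw [Metric.tendsto_nhds]
    intro δ hδ
    obtain ⟨e0, he0, -, h⟩ := D.cross_small hd L (δ / 2) (by positivity)
    filter_upwards [Ioc_mem_nhdsGT he0] with ε hε
    have h2 := h ε hε.1 hε.2 (fun _ => 1) measurable_const (fun _ => by simp)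
    rw [T.regW_one] at h2
    rw [Real.dist_eq, sub_zero]
    linarith
  have h := (hc.const_mul (-2 : ℝ)).sub L.σ_lim
  rw [mul_zero, zero_sub] at h
  refine h.congr' ?_
  filter_upwards [Ioc_mem_nhdsGT one_pos] with ε hε
  have hS := D.continuous_Se hε.1 hε.2
  have hreg := continuous_reg (T := T) hε.1
  have hiT : Integrable (fun x => q (T.reg ε x) (T.reg ε x)) cubeVol :=
    integrable_cube_of_continuous (Setup.continuous_q hreg hreg)
  have hiX : Integrable (fun x => q (T.reg ε x) (D.Se ε x)) cubeVol :=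
    integrable_cube_of_continuous (Setup.continuous_q hreg hS)
  have hiS : Integrable (fun x => q (D.Se ε x) (D.Se ε x)) cubeVol :=
    integrable_cube_of_continuous (Setup.continuous_q hS hS)
  have e : ∫ x, q (T.reg ε x) (T.reg ε x) ∂cubeVol +
      2 * ∫ x, q (T.reg ε x) (D.Se ε x) ∂cubeVol +
        ∫ x, q (D.Se ε x) (D.Se ε x) ∂cubeVol = 0 := by
    rw [← integral_const_mul, ← integral_add hiT (hiX.const_mul 2),
      ← integral_add (hiT.fun_add (hiX.const_mul 2)) hiS]
    refine Eq.trans (integral_congr_ae (Eventually.of_forall fun x => ?_))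
      (D.Ue_q ε hε.1 hε.2)
    simp only [Se, q_sub_left, q_sub_right, q_comm (T.reg ε x) (D.Ue ε x)]
    ring
  change -2 * ∫ x, q (T.reg ε x) (D.Se ε x) ∂cubeVol -
    ∫ x, q (D.Se ε x) (D.Se ε x) ∂cubeVol = ∫ x, q (T.reg ε x) (T.reg ε x) ∂cubeVol
  linarith

lemma pairE_near_exact (hd : T.DensBound) (L : D.SLimit) : ∀ δ > 0, ∃ ε₀ > 0, ∀ ε, 0 < ε →
    ε ≤ ε₀ → ∀ w : V → ℝ, Measurable w → (∀ y, |w y| ≤ 1) →
      |T.pairE w ε - ∫ y, w y * q (T.h y) (kconv ε (D.Ue ε) y) ∂T.ν| ≤ δ := by
  intro δ hδ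
  obtain ⟨e0, he0, he1, h⟩ := D.cross_small hd L δ hδ
  refine ⟨e0, he0, fun ε hε hεb w hw hb => ?_⟩
  have h1 := hεb.trans he1
  have hWc := T.continuous_regW hw hb hε
  have hU := D.Ue_cont ε hε h1
  have hreg := continuous_reg (T := T) hε
  rw [← T.integral_q_regW hw hb hε hU (D.Ue_periodic ε hε h1)]
  change |∫ x, q (T.regW w ε x) (T.reg ε x) ∂cubeVol -
    ∫ x, q (T.regW w ε x) (D.Ue ε x) ∂cubeVol| ≤ δ
  rw [abs_sub_comm, ← integral_sub (integrable_cube_of_continuous (Setup.continuous_q hWc hU))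
    (integrable_cube_of_continuous (Setup.continuous_q hWc hreg))]
  simp only [← q_sub_right]
  exact h ε hε hεb w hw hb

lemma exists_pair_mass (hd : T.DensBound) (L : D.SLimit) : ∃ C B, 0 < C ∧ 0 < B ∧
    (∀ y z, 0 ≤ q (T.h y) (T.h z) + C * dist0 (y - z) ^ 2) ∧
    ∀ ε, 0 < ε → ε ≤ 1 →
      ∫ y, ∫ z, (if dist0 (y - z) ≤ ε then
        (q (T.h y) (T.h z) + C * dist0 (y - z) ^ 2) / ε ^ 4 else 0) ∂T.ν ∂T.ν ≤ B := by
  obtain ⟨Cl, hCl, hpair⟩ := S.exists_pair_lower
  obtain ⟨ck, hck, hlow⟩ := exists_ker_lower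
  obtain ⟨Cu, hCu, hup⟩ := exists_ker2_dist
  obtain ⟨Ch, hCh, hh⟩ := T.exists_h_bound
  have hev := (D.tendsto_reg_energy hd L).eventually
    (eventually_le_nhds (lt_add_one (-L.σ)))
  obtain ⟨M0, hM0⟩ := hd
  obtain ⟨e0, he0, hE⟩ := mem_nhdsGT_iff_exists_Ioc_subset.1 hev
  set M := max M0 0
  have hm := T.mass_nonneg
  have hpos : ∀ y z, 0 ≤ q (T.h y) (T.h z) + Cl * dist0 (y - z) ^ 2 := fun y z => by
    linarith [hpair y z (T.h y) (T.h z) (T.psd y) (T.psd z) (T.trace y) (T.trace z)]
  set B1 := ck⁻¹ * (1 + Cl * (Cu * M * T.mass))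
  set B2 := (6 * (Ch * Ch) + Cl) / min e0 1 ^ 4 * T.mass * T.mass
  have he : 0 < min e0 1 := lt_min he0 one_pos
  refine ⟨Cl, B1 + B2 + 1, hCl, by positivity, hpos, fun ε hε h1 => ?_⟩
  have hB1 : 0 ≤ B1 := by positivity
  have hB2 : 0 ≤ B2 := by positivity
  set f := fun y z => if dist0 (y - z) ≤ ε then
    (q (T.h y) (T.h z) + Cl * dist0 (y - z) ^ 2) / ε ^ 4 else 0 with hf
  have hf0 : ∀ y z, 0 ≤ f y z := fun y z => by
    simp only [hf]
    split_ifs
    · exact div_nonneg (hpos y z) (by positivity)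
    · exact le_rfl
  rcases le_or_gt ε e0 with hee | hee
  · have iq := T.integrable_ker2_q hε
    have id := (T.integrable_ker2_sq hε).const_mul Cl
    set G := fun p : V × V => ck⁻¹ * (ker2 ε (p.1 - p.2) * q (T.h p.1) (T.h p.2) +
      Cl * (ker2 ε (p.1 - p.2) * dist0 (p.1 - p.2) ^ 2)) with hG
    have iG : Integrable G (T.ν.prod T.ν) := (iq.fun_add id).const_mul _
    have hfG : ∀ y z, f y z ≤ G (y, z) := fun y z => by
      have hG0 : G (y, z) = ker2 ε (y - z) *
          ((q (T.h y) (T.h z) + Cl * dist0 (y - z) ^ 2) / ck) := by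
        simp only [hG]; ring
      rw [hG0]
      simp only [hf]
      split_ifs with hball
      · refine le_trans (le_of_eq ?_) (mul_le_mul_of_nonneg_right (hlow ε hε h1 _ hball).2
          (div_nonneg (hpos y z) hck.le))
        field_simp
      · exact mul_nonneg (ker2_nonneg' hε _) (div_nonneg (hpos y z) hck.le)
    have k1 : ∫ y, ∫ z, f y z ∂T.ν ∂T.ν ≤ ∫ y, ∫ z, G (y, z) ∂T.ν ∂T.ν := by
      refine integral_mono_of_nonneg (Eventually.of_forall fun y => integral_nonneg (hf0 y))
        iG.integral_prod_left ?_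
      filter_upwards [iG.prod_right_ae] with y hy
      exact integral_mono_of_nonneg (Eventually.of_forall (hf0 y)) hy
        (Eventually.of_forall (hfG y))
    refine k1.trans ?_
    rw [← integral_prod G iG]
    simp only [hG]
    rw [integral_const_mul, integral_add iq id, integral_const_mul, integral_prod _ iq,
      integral_prod _ (T.integrable_ker2_sq hε)]
    have k2 : ∫ y, ∫ z, ker2 ε (y - z) * q (T.h y) (T.h z) ∂T.ν ∂T.ν ≤ 1 := by
      have h2 := T.pairE_eq (w := fun _ => 1) measurable_const (fun _ => by simp) hε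
      simp only [one_mul] at h2
      rw [← h2]
      have h3 : T.pairE (fun _ => 1) ε ≤ -L.σ + 1 := by
        rw [Current.pairE, T.regW_one]
        exact hE ⟨hε, hee⟩
      linarith [L.σ_nonneg]
    have k3 : ∫ y, ∫ z, ker2 ε (y - z) * dist0 (y - z) ^ 2 ∂T.ν ∂T.ν ≤ Cu * M * T.mass := by
      refine (integral_mono_of_nonneg (Eventually.of_forall fun y => integral_nonneg fun z =>
        mul_nonneg (ker2_nonneg' hε _) (sq_nonneg _)) (integrable_const (Cu * M))
        (Eventually.of_forall fun y => (T.integral_ker2_sq_le hε (fun u => (hup ε hε h1 u).2)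
          y).trans (mul_le_mul_of_nonneg_left ((hM0 ε hε h1 y).trans (le_max_left _ _))
            hCu.le))).trans_eq ?_
      simp [Current.mass, mul_comm]
    calc ck⁻¹ * (∫ y, ∫ z, ker2 ε (y - z) * q (T.h y) (T.h z) ∂T.ν ∂T.ν +
          Cl * ∫ y, ∫ z, ker2 ε (y - z) * dist0 (y - z) ^ 2 ∂T.ν ∂T.ν)
        ≤ B1 := by simp only [B1]; gcongr
      _ ≤ B1 + B2 + 1 := by linarith
  · have k : ∀ y z, f y z ≤ (6 * (Ch * Ch) + Cl) / min e0 1 ^ 4 := fun y z => by
      simp only [hf]
      split_ifs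
      · refine div_le_div₀ (by positivity) ?_ (by positivity)
          (pow_le_pow_left₀ he.le ((min_le_left _ _).trans hee.le) 4)
        have h3 := (abs_le.1 (T.abs_qh_le hCh.le hh (y, z))).2
        have h4 := mul_le_mul_of_nonneg_left (pow_le_one₀ (n := 2) (dist0_nonneg (y - z))
          (dist0_le_one _)) hCl.le
        linarith
      · positivity
    refine (integral_mono_of_nonneg (Eventually.of_forall fun y => integral_nonneg (hf0 y))
      (integrable_const ((6 * (Ch * Ch) + Cl) / min e0 1 ^ 4 * T.mass))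
      (Eventually.of_forall fun y => ?_)).trans ?_
    · refine (integral_mono_of_nonneg (Eventually.of_forall (hf0 y))
        (integrable_const ((6 * (Ch * Ch) + Cl) / min e0 1 ^ 4))
        (Eventually.of_forall (k y))).trans_eq ?_
      simp [Current.mass, mul_comm]
    · simp only [integral_const, smul_eq_mul]
      change T.mass * _ ≤ _
      have : T.mass * ((6 * (Ch * Ch) + Cl) / min e0 1 ^ 4 * T.mass) = B2 := by
        simp only [B2]; ring
      linarith

end UData

end Vale.Agent.P204.Torus
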