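import Vale.Agent.P204.Torus.Defs

/-!
P204 on the four-torus: linear algebra of two-forms on `ℝ⁴`.
-/

namespace Vale.Agent.P204.Torus

open scoped BigOperators

lemma ev_def (α : Form) (u v : V) :
    ev α u v = α 0 * (u 0 * v 1 - v 0 * u 1) + α 1 * (u 0 * v 2 - v 0 * u 2)
      + α 2 * (u 0 * v 3 - v 0 * u 3) + α 3 * (u 2 * v 3 - v 2 * u 3)
      + α 4 * (u 3 * v 1 - v 3 * u 1) + α 5 * (u 1 * v 2 - v 1 * u 2) := by
  simp [ev, Fin.sum_univ_succ, fi, se]
  ring

lemma ev_skew (α : Form) (u v : V) : ev α u v = -ev α v u := by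
  simp only [ev_def]; ring

lemma ev_add (α β : Form) (u v : V) : ev (α + β) u v = ev α u v + ev β u v := by
  simp only [ev_def, PiLp.add_apply]; ring

lemma ev_smul (a : ℝ) (α : Form) (u v : V) : ev (a • α) u v = a * ev α u v := by
  simp only [ev_def, PiLp.smul_apply, smul_eq_mul]; ring

lemma ev_sub (α β : Form) (u v : V) : ev (α - β) u v = ev α u v - ev β u v := by
  simp only [ev_def, PiLp.sub_apply]; ring

lemma ev_zero (u v : V) : ev 0 u v = 0 := by
  simp [ev_def]

lemma ev_self (α : Form) (u : V) : ev α u u = 0 := by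
  simp only [ev_def]; ring

lemma ev_add_left (α : Form) (u u' v : V) : ev α (u + u') v = ev α u v + ev α u' v := by
  simp only [ev_def, Pi.add_apply]; ring

lemma ev_add_right (α : Form) (u v v' : V) : ev α u (v + v') = ev α u v + ev α u v' := by
  simp only [ev_def, Pi.add_apply]; ring

lemma ev_smul_left (α : Form) (a : ℝ) (u v : V) : ev α (a • u) v = a * ev α u v := by
  simp only [ev_def, Pi.smul_apply, smul_eq_mul]; ring

lemma ev_smul_right (α : Form) (a : ℝ) (u v : V) : ev α u (a • v) = a * ev α u v := by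
  simp only [ev_def, Pi.smul_apply, smul_eq_mul]; ring

lemma ev_neg_left (α : Form) (u v : V) : ev α (-u) v = -ev α u v := by
  simp only [ev_def, Pi.neg_apply]; ring

lemma ev_neg_right (α : Form) (u v : V) : ev α u (-v) = -ev α u v := by
  simp only [ev_def, Pi.neg_apply]; ring

lemma ev_sum_left {ι : Type*} (α : Form) (s : Finset ι) (t : ι → V) (v : V) :
    ev α (∑ i ∈ s, t i) v = ∑ i ∈ s, ev α (t i) v := by
  classical
  induction s using Finset.induction_on with
  | empty => simp [ev_def]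
  | @insert a s h ih => simp [Finset.sum_insert h, ev_add_left, ih]

lemma ev_sum_right {ι : Type*} (α : Form) (u : V) (s : Finset ι) (t : ι → V) :
    ev α u (∑ i ∈ s, t i) = ∑ i ∈ s, ev α u (t i) := by
  rw [ev_skew, ev_sum_left, ← Finset.sum_neg_distrib]
  exact Finset.sum_congr rfl fun i _ => by rw [← ev_skew]

lemma form_ext {α β : Form} (h : ∀ u v, ev α u v = ev β u v) : α = β := by
  ext k
  have := h (e (fi k)) (e (se k))
  fin_cases k <;> simpa [ev_def, e, fi, se] using this

lemma ofSkew_apply (F : V → V → ℝ) (k : Fin 6) : ofSkew F k = F (e (fi k)) (e (se k)) := rfl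

lemma ofSkew_ev (α : Form) : ofSkew (fun u v => ev α u v) = α := by
  ext k
  fin_cases k <;> simp [ofSkew_apply, ev_def, e, fi, se]

lemma sum_e (u : V) : u = ∑ i, u i • e i := by
  funext j
  simp [Finset.sum_apply, e, Pi.single_apply]

/-- Evaluation of a form built from a skew bilinear function. -/
lemma ev_ofSkew (F : V → V → ℝ) (hskew : ∀ u v, F u v = -F v u)
    (hadd : ∀ u u' v, F (u + u') v = F u v + F u' v)
    (hsmul : ∀ (a : ℝ) u v, F (a • u) v = a * F u v) (u v : V) :
    ev (ofSkew F) u v = F u v := by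
  have hl : ∀ u v, F u v = ∑ i, u i * F (e i) v := by
    intro u v
    conv_lhs => rw [sum_e u]
    simp [Fin.sum_univ_succ, hadd, hsmul]
  have hs : ∀ i, F (e i) (e i) = 0 := fun i => by linarith [hskew (e i) (e i)]
  have he : ∀ i, F (e i) v = ∑ j, v j * F (e i) (e j) := by
    intro i
    rw [hskew, hl v (e i), ← Finset.sum_neg_distrib]
    exact Finset.sum_congr rfl fun j _ => by rw [hskew (e j)]; ring
  rw [hl u v]
  simp only [he, ev_def, ofSkew_apply, Fin.sum_univ_four]
  simp only [fi, se, Matrix.cons_val_zero, Matrix.cons_val_one, Matrix.cons_val]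
  rw [hs 0, hs 1, hs 2, hs 3, hskew (e 1) (e 0), hskew (e 2) (e 0), hskew (e 3) (e 0),
    hskew (e 3) (e 2), hskew (e 1) (e 3), hskew (e 2) (e 1)]
  ring

lemma ev_pull (A : V →L[ℝ] V) (α : Form) (u v : V) : ev (pull A α) u v = ev α (A u) (A v) :=
  ev_ofSkew (fun u v => ev α (A u) (A v)) (fun u v => ev_skew _ _ _)
    (fun u u' v => by simp [ev_add_left]) (fun a u v => by simp [ev_smul_left]) u v

lemma pair_def (ξ u : V) : pair ξ u = ξ 0 * u 0 + ξ 1 * u 1 + ξ 2 * u 2 + ξ 3 * u 3 := by
  simp [pair, Fin.sum_univ_four]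

lemma ev_wedge (ξ η u v : V) :
    ev (wedge ξ η) u v = pair ξ u * pair η v - pair η u * pair ξ v :=
  ev_ofSkew (fun u v => pair ξ u * pair η v - pair η u * pair ξ v) (fun u v => by ring)
    (fun u u' v => by simp only [pair_def, Pi.add_apply]; ring)
    (fun a u v => by simp only [pair_def, Pi.smul_apply, smul_eq_mul]; ring) u v

lemma pair_e (i : Fin 4) (u : V) : pair (e i) u = u i := by
  simp [pair, e, Pi.single_apply]

lemma pair_e' (ξ : V) (i : Fin 4) : pair ξ (e i) = ξ i := by
  simp [pair, e, Pi.single_apply]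

lemma pair_iota (v : V) (α : Form) (u : V) : pair (iota v α) u = ev α v u := by
  conv_rhs => rw [sum_e u, ev_sum_right]
  simp only [pair, iota, ev_smul_right]
  exact Finset.sum_congr rfl fun i _ => mul_comm _ _

lemma q_comm (α β : Form) : q α β = q β α := by
  simp only [q]; ring

lemma q_add_left (α β γ : Form) : q (α + β) γ = q α γ + q β γ := by
  simp only [q, PiLp.add_apply]; ring

lemma q_add_right (α β γ : Form) : q α (β + γ) = q α β + q α γ := by
  simp only [q, PiLp.add_apply]; ring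

lemma q_smul_left (a : ℝ) (α β : Form) : q (a • α) β = a * q α β := by
  simp only [q, PiLp.smul_apply, smul_eq_mul]; ring

lemma q_smul_right (a : ℝ) (α β : Form) : q α (a • β) = a * q α β := by
  simp only [q, PiLp.smul_apply, smul_eq_mul]; ring

lemma q_sub_left (α β γ : Form) : q (α - β) γ = q α γ - q β γ := by
  simp only [q, PiLp.sub_apply]; ring

lemma q_sub_right (α β γ : Form) : q α (β - γ) = q α β - q α γ := by
  simp only [q, PiLp.sub_apply]; ring

lemma q_zero_left (β : Form) : q 0 β = 0 := by simp [q]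

lemma q_zero_right (β : Form) : q β 0 = 0 := by simp [q]

lemma abs_coord_le (α : Form) (k : Fin 6) : |α k| ≤ ‖α‖ := by
  simpa [Real.norm_eq_abs] using PiLp.norm_apply_le α k

lemma abs_q_le (α β : Form) : |q α β| ≤ 6 * (‖α‖ * ‖β‖) := by
  have h : ∀ i j, |α i * β j| ≤ ‖α‖ * ‖β‖ := fun i j => by
    rw [abs_mul]
    exact mul_le_mul (abs_coord_le α i) (abs_coord_le β j) (abs_nonneg _) (norm_nonneg _)
  simp only [q]
  have := abs_le.1 (h 0 3); have := abs_le.1 (h 1 4); have := abs_le.1 (h 2 5)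
  have := abs_le.1 (h 3 0); have := abs_le.1 (h 4 1); have := abs_le.1 (h 5 2)
  rw [abs_le]; constructor <;> linarith

/-! ## Frames -/

/-- The coordinates of a two-form in the frame `c`. -/
noncomputable def co (c : Fin 4 → V) (α : Form) : Form :=
  WithLp.toLp 2 fun k => ev α (c (fi k)) (c (se k))

/-- The determinant of four vectors. -/
def det4 (a b c d : V) : ℝ :=
  (a 0 * b 1 - b 0 * a 1) * (c 2 * d 3 - d 2 * c 3)
    + (a 0 * b 2 - b 0 * a 2) * (c 3 * d 1 - d 3 * c 1)
    + (a 0 * b 3 - b 0 * a 3) * (c 1 * d 2 - d 1 * c 2)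
    + (a 2 * b 3 - b 2 * a 3) * (c 0 * d 1 - d 0 * c 1)
    + (a 3 * b 1 - b 3 * a 1) * (c 0 * d 2 - d 0 * c 2)
    + (a 1 * b 2 - b 1 * a 2) * (c 0 * d 3 - d 0 * c 3)

lemma co_apply (c : Fin 4 → V) (α : Form) (k : Fin 6) :
    co c α k = ev α (c (fi k)) (c (se k)) := rfl

lemma q_co (c : Fin 4 → V) (α β : Form) :
    q (co c α) (co c β) = det4 (c 0) (c 1) (c 2) (c 3) * q α β := by
  simp only [q, co_apply, fi, se, Matrix.cons_val_zero, Matrix.cons_val_one, Matrix.cons_val,
    ev_def, det4]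
  ring

lemma ev_co (c : Fin 4 → V) (α : Form) (s t : V) :
    ev α (∑ i, s i • c i) (∑ i, t i • c i) = ev (co c α) s t := by
  simp only [Fin.sum_univ_four, ev_add_left, ev_add_right, ev_smul_left, ev_smul_right]
  rw [ev_def (co c α)]
  simp only [co_apply, fi, se, Matrix.cons_val_zero, Matrix.cons_val_one, Matrix.cons_val]
  rw [ev_self, ev_self, ev_self, ev_self, ev_skew α (c 1) (c 0), ev_skew α (c 2) (c 0),
    ev_skew α (c 3) (c 0), ev_skew α (c 3) (c 2), ev_skew α (c 1) (c 3), ev_skew α (c 2) (c 1)]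
  ring

end Vale.Agent.P204.Torus
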