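import Vale.Agent.P204.Torus.FourierScalar
import Vale.Agent.P204.Torus.Forms

/-!
P204 on the four-torus: Fourier series of fields of two-forms.
-/

open MeasureTheory Set Filter Topology
open scoped BigOperators ComplexConjugate ENNReal

namespace Vale.Agent.P204.Torus

/-- Complexification as a linear map. -/
noncomputable def cplxL : Form →L[ℝ] CForm :=
  LinearMap.toContinuousLinearMap
    { toFun := cplx
      map_add' := fun a b => by ext k; simp [cplx]
      map_smul' := fun r a => by ext k; simp [cplx] }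

/-- Real part as a linear map. -/
noncomputable def reL : CForm →L[ℝ] Form :=
  LinearMap.toContinuousLinearMap
    { toFun := reF
      map_add' := fun a b => by ext k; simp [reF]
      map_smul' := fun r a => by ext k; simp [reF] }

lemma reL_apply (a : CForm) : reL a = reF a := rfl

lemma reF_apply (a : CForm) (k : Fin 6) : reF a k = (a k).re := rfl

lemma cplx_apply (a : Form) (k : Fin 6) : cplx a k = (a k : ℂ) := rfl

lemma cconj_apply (a : CForm) (k : Fin 6) : cconj a k = conj (a k) := rfl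

lemma coef_apply (f : V → Form) (ξ : Freq) (k : Fin 6) :
    coef f ξ k = coefS (fun x => (f x k : ℂ)) ξ := rfl

lemma norm_sq_CForm (a : CForm) : ‖a‖ ^ 2 = ∑ k, ‖a k‖ ^ 2 := EuclideanSpace.norm_sq_eq a

lemma norm_sq_Form (a : Form) : ‖a‖ ^ 2 = ∑ k, a k ^ 2 := by
  simp [EuclideanSpace.norm_sq_eq]

lemma coord_le (a : CForm) (k : Fin 6) : ‖a k‖ ≤ ‖a‖ := PiLp.norm_apply_le a k

lemma norm_reF_le (a : CForm) : ‖reF a‖ ≤ ‖a‖ := by
  refine abs_le_of_sq_le_sq' ?_ (norm_nonneg _) |>.2
  rw [norm_sq_Form, norm_sq_CForm]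
  refine Finset.sum_le_sum fun k _ => ?_
  rw [reF_apply, ← sq_abs]
  exact pow_le_pow_left₀ (abs_nonneg _) (Complex.abs_re_le_norm _) 2

lemma norm_cconj (a : CForm) : ‖cconj a‖ = ‖a‖ := by
  refine (pow_left_inj₀ (norm_nonneg _) (norm_nonneg _) two_ne_zero).1 ?_
  simp [norm_sq_CForm, cconj_apply]

lemma norm_cplx (a : Form) : ‖cplx a‖ = ‖a‖ := by
  refine (pow_left_inj₀ (norm_nonneg _) (norm_nonneg _) two_ne_zero).1 ?_
  simp [norm_sq_CForm, norm_sq_Form, cplx_apply]

lemma norm_le_sum_coord (a : CForm) : ‖a‖ ≤ ∑ k, ‖a k‖ := by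
  refine (abs_le_of_sq_le_sq' ?_ (Finset.sum_nonneg fun k _ => norm_nonneg _)).2
  rw [norm_sq_CForm]
  exact Finset.sum_sq_le_sq_sum_of_nonneg fun k _ => norm_nonneg _

lemma measurable_Form {α : Type*} [MeasurableSpace α] {f : α → Form}
    (h : ∀ k, Measurable fun x => f x k) : Measurable f :=
  (MeasurableEquiv.toLp 2 (Fin 6 → ℝ)).measurable.comp (measurable_pi_lambda _ h)

lemma memLp_coord {μ : Measure V} {f : V → Form} {p : ℝ≥0∞} (hf : MemLp f p μ) (k : Fin 6) :
    MemLp (fun x => (f x k : ℂ)) p μ :=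
  ((Complex.ofRealCLM.comp (EuclideanSpace.proj k)).comp_memLp' hf)

lemma Smooth.coord {f : V → Form} (hf : Smooth f) (k : Fin 6) :
    Smooth fun x => (f x k : ℂ) :=
  ⟨(Complex.ofRealCLM.comp (EuclideanSpace.proj k)).contDiff.comp hf.smooth,
    fun x n => congrArg (fun a : Form => (a k : ℂ)) (hf.periodic x n)⟩

lemma Smooth.memLp {α : Type*} [NormedAddCommGroup α] [NormedSpace ℝ α] {f : V → α}
    (hf : Smooth f) (p : ℝ≥0∞) : MemLp f p (volume.restrict cube) :=
  memLp_cube hf.smooth.continuous hf.periodic p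

theorem coef_herm (f : V → Form) : Herm (coef f) := fun ξ => by
  ext k
  rw [cconj_apply, coef_apply, coef_apply]
  have := coefS_conj (fun x => (f x k : ℂ)) (-ξ)
  simpa using this

theorem coef_rapid {f : V → Form} (hf : Smooth f) : Rapid (coef f) := fun j => by
  refine Summable.of_nonneg_of_le (fun ξ => by have := wt_pos ξ; positivity) (fun ξ => ?_)
    (summable_sum fun k (_ : k ∈ Finset.univ) => summable_rapidS (hf.coord k) j)
  rw [← Finset.mul_sum]
  exact mul_le_mul_of_nonneg_left (norm_le_sum_coord _) (by have := wt_pos ξ; positivity)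

lemma Rapid.summable {c : Freq → CForm} (hc : Rapid c) : Summable fun ξ => ‖c ξ‖ := by
  simpa using hc 0

lemma Rapid.summable_sq {c : Freq → CForm} (hc : Rapid c) (j : ℕ) :
    Summable fun ξ => (wt ξ ^ j * ‖c ξ‖) ^ 2 := by
  refine Summable.of_nonneg_of_le (fun ξ => sq_nonneg _) (fun ξ => ?_)
    ((hc j).mul_left (∑' η, wt η ^ j * ‖c η‖))
  have hn : ∀ η, 0 ≤ wt η ^ j * ‖c η‖ := fun η => by have := wt_pos η; positivity
  rw [sq]
  exact mul_le_mul_of_nonneg_right ((hc j).le_tsum ξ fun η _ => hn η) (hn ξ)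

/-! ### Parseval -/

theorem parseval_norm {f : V → Form} (hf : MemLp f 2 (volume.restrict cube)) :
    HasSum (fun ξ => ‖coef f ξ‖ ^ 2) (∫ x in cube, ‖f x‖ ^ 2) := by
  have h : ∀ k, HasSum (fun ξ => ‖coef f ξ k‖ ^ 2) (∫ x in cube, f x k ^ 2) := fun k => by
    have := Complex.hasSum_re (parsevalS (memLp_coord hf k) (memLp_coord hf k))
    convert this using 1
    · funext ξ
      rw [coef_apply, Complex.conj_mul']
      norm_cast
    · simp only [Complex.conj_ofReal, ← Complex.ofReal_mul, integral_complex_ofReal,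
        Complex.ofReal_re, sq]
  have hs := hasSum_sum fun k (_ : k ∈ Finset.univ) => h k
  simp only [← norm_sq_CForm] at hs
  convert hs using 1
  rw [← integral_finsetSum]
  · simp [norm_sq_Form]
  · intro k _
    exact ((EuclideanSpace.proj (𝕜 := ℝ) k).comp_memLp' hf).integrable_sq

theorem parseval_q {f g : V → Form} (hf : MemLp f 2 (volume.restrict cube))
    (hg : MemLp g 2 (volume.restrict cube)) :
    HasSum (fun ξ => (qC (coef f ξ) (cconj (coef g ξ))).re) (∫ x in cube, q (f x) (g x)) := by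
  have h : ∀ i j, HasSum (fun ξ => (coef f ξ i * conj (coef g ξ j)).re)
      (∫ x in cube, f x i * g x j) := fun i j => by
    have := Complex.hasSum_re (parsevalS (memLp_coord hg j) (memLp_coord hf i))
    convert this using 1
    · funext ξ; rw [coef_apply, coef_apply, mul_comm]
    · simp only [Complex.conj_ofReal, ← Complex.ofReal_mul, integral_complex_ofReal,
        Complex.ofReal_re, mul_comm]
  have hi : ∀ i j, Integrable (fun x => f x i * g x j) (volume.restrict cube) := fun i j =>
    ((EuclideanSpace.proj (𝕜 := ℝ) i).comp_memLp' hf).integrable_mul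
      ((EuclideanSpace.proj (𝕜 := ℝ) j).comp_memLp' hg)
  have hs := (((((h 0 3).add (h 1 4)).add (h 2 5)).add (h 3 0)).add (h 4 1)).add (h 5 2)
  convert hs using 1
  · funext ξ; simp [qC, cconj_apply]
  · simp only [q]
    repeat rw [integral_add]
    all_goals
      repeat (first | apply hi | apply Integrable.add)

/-! ### Series -/

lemma summable_chr_smul {c : Freq → CForm} (hc : Summable fun ξ => ‖c ξ‖) (x : V) :
    Summable fun ξ => chr ξ x • c ξ :=
  Summable.of_norm (by simpa [norm_smul, norm_chr] using hc)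

lemma summable_coord {c : Freq → CForm} (hc : Summable fun ξ => ‖c ξ‖) (k : Fin 6) :
    Summable fun ξ => ‖c ξ k‖ :=
  hc.of_nonneg_of_le (fun _ => norm_nonneg _) fun _ => coord_le _ k

lemma synth_apply {c : Freq → CForm} (hc : Summable fun ξ => ‖c ξ‖) (x : V) (k : Fin 6) :
    synth c x k = (∑' ξ, chr ξ x * c ξ k).re := by
  rw [synth, reF_apply]
  congr 1
  exact (EuclideanSpace.proj (𝕜 := ℂ) k).map_tsum (summable_chr_smul hc x)

lemma series_real {c : Freq → CForm} (hh : Herm c) (x : V) (k : Fin 6) :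
    conj (∑' ξ, chr ξ x * c ξ k) = ∑' ξ, chr ξ x * c ξ k := by
  rw [Complex.conj_tsum]
  conv_rhs => rw [← (Equiv.neg Freq).tsum_eq]
  refine tsum_congr fun ξ => ?_
  simp [hh ξ, cconj_apply, ← chr_neg]

lemma synth_apply_complex {c : Freq → CForm} (hc : Summable fun ξ => ‖c ξ‖) (hh : Herm c) (x : V)
    (k : Fin 6) : (synth c x k : ℂ) = ∑' ξ, chr ξ x * c ξ k := by
  rw [synth_apply hc, Complex.conj_eq_iff_re.1 (series_real hh x k)]

theorem norm_synth_le {c : Freq → CForm} (hc : Summable fun ξ => ‖c ξ‖) (x : V) :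
    ‖synth c x‖ ≤ ∑' ξ, ‖c ξ‖ := by
  refine (norm_reF_le _).trans ((norm_tsum_le_tsum_norm ?_).trans_eq ?_) <;>
    simp [norm_smul, norm_chr, hc]

lemma periodic_synth (c : Freq → CForm) : Periodic (synth c) := fun x n => by
  simp only [synth]
  congr 1
  exact tsum_congr fun ξ => by rw [chr_periodic ξ x n]

theorem continuous_synth {c : Freq → CForm} (hc : Summable fun ξ => ‖c ξ‖) :
    Continuous (synth c) ∧ Periodic (synth c) :=
  ⟨reL.continuous.comp (continuous_tsum (fun ξ => (continuous_chr ξ).smul continuous_const) hc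
    fun ξ x => by simp [norm_smul, norm_chr]), periodic_synth c⟩

theorem coef_synth {c : Freq → CForm} (hc : Summable fun ξ => ‖c ξ‖) (hh : Herm c) :
    coef (synth c) = c := by
  funext ξ
  ext k
  simp only [coef_apply, synth_apply_complex hc hh]
  exact coefS_series (summable_coord hc k) ξ

theorem synth_coef {f : V → Form} (hf : Continuous f) (hp : Periodic f)
    (hs : Summable fun ξ => ‖coef f ξ‖) (x : V) : synth (coef f) x = f x := by
  ext k
  rw [synth_apply hs]
  have h := hasSum_series (f := fun y => (f y k : ℂ)) (by fun_prop)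
    (fun y n => congrArg (fun a : Form => (a k : ℂ)) (hp y n))
    (summable_coord hs k).of_norm x
  simp only [coef_apply] at h ⊢
  rw [h.tsum_eq, Complex.ofReal_re]

lemma norm_phase_le (ξ : Freq) : ‖phase ξ‖ ≤ 8 * Real.pi * wt ξ := by
  refine ContinuousLinearMap.opNorm_le_bound _ (by have := wt_pos ξ; positivity) fun x => ?_
  rw [phase_apply, Real.norm_eq_abs, abs_mul, abs_of_pos (by positivity : (0 : ℝ) < 2 * Real.pi)]
  have h : |∑ i, (ξ i : ℝ) * x i| ≤ 4 * (wt ξ * ‖x‖) := by
    refine (Finset.abs_sum_le_sum_abs _ _).trans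
      ((Finset.sum_le_card_nsmul _ _ (wt ξ * ‖x‖) fun i _ => ?_).trans_eq (by simp))
    rw [abs_mul]
    exact mul_le_mul (abs_le_wt ξ i) (norm_le_pi_norm x i) (abs_nonneg _) (wt_pos ξ).le
  nlinarith [Real.pi_pos]

lemma norm_iteratedFDeriv_chr (ξ : Freq) (n : ℕ) (x : V) :
    ‖iteratedFDeriv ℝ n (chr ξ) x‖ ≤ (8 * Real.pi * wt ξ) ^ n := by
  let g : ℝ → ℂ := fun t => Complex.exp ((t : ℂ) * Complex.I)
  have hg : ∀ m : WithTop ℕ∞, ContDiff ℝ m g := fun m =>
    (Complex.ofRealCLM.contDiff.mul contDiff_const).cexp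
  have hd : ∀ m : ℕ, iteratedDeriv m g = fun t => Complex.I ^ m * g t := fun m => by
    induction m with
    | zero => simp
    | succ m ih =>
      funext t
      rw [iteratedDeriv_succ, ih]
      have : HasDerivAt g (g t * Complex.I) t := by
        simpa using ((Complex.ofRealCLM.hasDerivAt (x := t)).mul_const Complex.I).cexp
      rw [(this.const_mul _).deriv]
      ring
  rw [show chr ξ = g ∘ phase ξ from funext (chr_eq_phase ξ),
    (phase ξ).iteratedFDeriv_comp_right (hg n) x le_rfl]
  refine (ContinuousMultilinearMap.norm_compContinuousLinearMap_le _ _).trans ?_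
  rw [norm_iteratedFDeriv_eq_norm_iteratedDeriv, hd, Finset.prod_const, Finset.card_univ,
    Fintype.card_fin]
  simp only [g, norm_mul, norm_pow, Complex.norm_I, one_pow, Complex.norm_exp_ofReal_mul_I, one_mul]
  exact pow_le_pow_left₀ (norm_nonneg _) (norm_phase_le ξ) n

theorem smooth_synth {c : Freq → CForm} (hc : Rapid c) : Smooth (synth c) := by
  refine ⟨reL.contDiff.comp ?_, periodic_synth c⟩
  let L : Freq → ℂ →L[ℝ] CForm := fun ξ =>
    (ContinuousLinearMap.toSpanSingleton ℂ (c ξ)).restrictScalars ℝ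
  refine contDiff_tsum (v := fun n ξ => (8 * Real.pi) ^ n * (wt ξ ^ n * ‖c ξ‖))
    (fun ξ => (contDiff_chr ξ).smul contDiff_const) (fun n _ => (hc n).mul_left _) fun n ξ x _ => ?_
  show ‖iteratedFDeriv ℝ n (L ξ ∘ chr ξ) x‖ ≤ _
  refine ((L ξ).norm_iteratedFDeriv_comp_left (contDiff_chr ξ).contDiffAt
    (le_refl (n : WithTop ℕ∞))).trans ?_
  have hL : ‖L ξ‖ ≤ ‖c ξ‖ :=
    ContinuousLinearMap.opNorm_le_bound _ (norm_nonneg _) fun z => by simp [L, norm_smul, mul_comm]
  calc ‖L ξ‖ * ‖iteratedFDeriv ℝ n (chr ξ) x‖ ≤ ‖c ξ‖ * (8 * Real.pi * wt ξ) ^ n :=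
        mul_le_mul hL (norm_iteratedFDeriv_chr ξ n x) (norm_nonneg _) (norm_nonneg _)
    _ = _ := by ring

theorem exists_L2 {c : Freq → CForm} (hc : Summable fun ξ => ‖c ξ‖ ^ 2) (hh : Herm c) :
    ∃ f : V → Form, Measurable f ∧ Periodic f ∧ MemLp f 2 (volume.restrict cube) ∧
      coef f = c := by
  have hk : ∀ k, ∃ f : V → ℂ, Measurable f ∧ Periodic f ∧ MemLp f 2 (volume.restrict cube) ∧
      coefS f = fun ξ => c ξ k := fun k =>
    exists_L2S (hc.of_nonneg_of_le (fun _ => sq_nonneg _)
      fun ξ => pow_le_pow_left₀ (norm_nonneg _) (coord_le _ k) 2)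
  choose g hm hp hL hcoef using hk
  refine ⟨fun x => WithLp.toLp 2 fun k => (g k x).re,
    measurable_Form fun k => Complex.measurable_re.comp (hm k),
    fun x n => by simp [fun k => hp k x n], ?_, funext fun ξ => ?_⟩
  · refine MemLp.of_le (g := fun x => ∑ k, ‖g k x‖) (memLp_finsetSum _ fun k _ => (hL k).norm)
      (measurable_Form fun k => Complex.measurable_re.comp (hm k)).aestronglyMeasurable
      (Eventually.of_forall fun x => ?_)
    rw [Real.norm_of_nonneg (Finset.sum_nonneg fun _ _ => norm_nonneg _)]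
    exact (norm_reF_le (WithLp.toLp 2 fun k => g k x)).trans (norm_le_sum_coord _)
  · ext k
    have hi : Integrable (g k) (volume.restrict cube) := (hL k).integrable one_le_two
    have h1 : ∀ x, ((g k x).re : ℂ) = (1 / 2 : ℂ) * (g k x + conj (g k x)) := fun x => by
      rw [Complex.re_eq_add_conj]; ring
    simp only [coef_apply, h1]
    have hi' : Integrable (fun x => conj (g k x)) (volume.restrict cube) :=
      Complex.conjCLE.integrable_comp_iff.2 hi
    rw [coefS_const_mul, coefS_add hi hi', coefS_conj,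
      hcoef]
    simp [hh ξ, cconj_apply]
    ring

end Vale.Agent.P204.Torus
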