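import Vale.Agent.P204.Torus.Defs

/-!
P204 on the four-torus: Fourier coefficients, weights, kernels.
-/

open MeasureTheory
open scoped BigOperators ComplexConjugate

namespace Vale.Agent.P204.Torus

/-- Frequencies. -/
abbrev Freq := Fin 4 → ℤ

/-- Complex two-forms at a point. -/
abbrev CForm := EuclideanSpace ℂ (Fin 6)

/-- The character `x ↦ exp (2 π i ξ x)`. -/
noncomputable def chr (ξ : Freq) (x : V) : ℂ :=
  Complex.exp (2 * Real.pi * Complex.I * ((∑ i, (ξ i : ℝ) * x i : ℝ) : ℂ))

/-- The complexification of a two-form. -/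
noncomputable def cplx (α : Form) : CForm := WithLp.toLp 2 fun k => (α k : ℂ)

/-- The real part of a complex two-form. -/
noncomputable def reF (a : CForm) : Form := WithLp.toLp 2 fun k => (a k).re

/-- Coordinatewise conjugation. -/
noncomputable def cconj (a : CForm) : CForm := WithLp.toLp 2 fun k => conj (a k)

/-- The bilinear extension of `q`. -/
def qC (a b : CForm) : ℂ :=
  a 0 * b 3 + a 1 * b 4 + a 2 * b 5 + a 3 * b 0 + a 4 * b 1 + a 5 * b 2

/-- A scalar Fourier coefficient. -/
noncomputable def coefS (f : V → ℂ) (ξ : Freq) : ℂ := ∫ x in cube, chr (-ξ) x * f x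

/-- The Fourier coefficients of a field of two-forms. -/
noncomputable def coef (f : V → Form) (ξ : Freq) : CForm :=
  WithLp.toLp 2 fun k => coefS (fun x => (f x k : ℂ)) ξ

/-- The weight `∏ (1 + ξᵢ²)`. -/
def wt (ξ : Freq) : ℝ := ∏ i, (1 + (ξ i : ℝ) ^ 2)

/-- Rapidly decreasing coefficients. -/
def Rapid (c : Freq → CForm) : Prop := ∀ j : ℕ, Summable fun ξ => wt ξ ^ j * ‖c ξ‖

/-- Coefficients of a real field. -/
def Herm (c : Freq → CForm) : Prop := ∀ ξ, c (-ξ) = cconj (c ξ)

/-- The field with given coefficients. -/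
noncomputable def synth (c : Freq → CForm) (x : V) : Form := reF (∑' ξ, chr ξ x • c ξ)

/-- The norm of the coefficients, weighted by `wt`. -/
noncomputable def N (f : V → Form) : ℝ := Real.sqrt (∑' ξ, (wt ξ * ‖coef f ξ‖) ^ 2)

/-- The weight `∏ (1 + 4π²e²ξᵢ²) ^ j`. -/
noncomputable def wgt (e : ℝ) (j : ℤ) (ξ : Freq) : ℝ :=
  (∏ i, (1 + 4 * Real.pi ^ 2 * e ^ 2 * (ξ i : ℝ) ^ 2)) ^ j

/-- A smooth periodic field of endomorphisms of two-forms acting on coefficients. -/
noncomputable def cmul (A : V → Form →L[ℝ] Form) (c : Freq → CForm) (ξ : Freq) : CForm :=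
  WithLp.toLp 2 fun k =>
    ∑' l, ∑ m, coefS (fun x => (A x (EuclideanSpace.single m 1) k : ℂ)) l * c (ξ - l) m

/-- The distance to the nearest integer. -/
noncomputable def tdist (t : ℝ) : ℝ := |t - round t|

/-- The periodic kernel of `(1 - e² d²/dt²)⁻¹`. -/
noncomputable def k1 (e t : ℝ) : ℝ :=
  Real.cosh ((1 / 2 - tdist t) / e) / (2 * e * Real.sinh (1 / (2 * e)))

/-- The kernel of its square. -/
noncomputable def k2 (e t : ℝ) : ℝ := ∫ s in (0 : ℝ)..1, k1 e s * k1 e (t - s)

/-- The smoothing kernel on the torus. -/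
noncomputable def ker (e : ℝ) (x : V) : ℝ := ∏ i, k2 e (x i)

/-- The kernel of two smoothings. -/
noncomputable def ker2 (e : ℝ) (u : V) : ℝ := ∫ x in cube, ker e x * ker e (x - u)

end Vale.Agent.P204.Torus
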