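import Vale.Agent.P204.Torus.Cube

/-!
P204 on the four-torus: Fourier series of scalar periodic functions.
-/

open MeasureTheory Set Filter Topology UnitAddTorus
open scoped BigOperators ComplexConjugate ENNReal

namespace Vale.Agent.P204.Torus

attribute [local instance] circleSpace circleHaar circleProb

lemma proj_sec (t : TT) : proj (sec t) = t := funext fun _ => AddCircle.coe_equivIoc

lemma bdd_periodic {α : Type*} [NormedAddCommGroup α] {f : V → α} (hf : Continuous f)
    (hp : Periodic f) : ∃ M, 0 ≤ M ∧ ∀ x, ‖f x‖ ≤ M := by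
  obtain ⟨C, hC⟩ := isCompact_univ.exists_bound_of_continuousOn (continuous_lift' hp hf).continuousOn
  refine ⟨C, (norm_nonneg _).trans (hC (proj 0) (mem_univ _)), fun x => ?_⟩
  simpa [lift'_proj hp] using hC (proj x) (mem_univ _)

lemma integrable_chr_mul {f : V → ℂ} (hf : Integrable f (volume.restrict cube)) (ξ : Freq) :
    Integrable (fun x => chr ξ x * f x) (volume.restrict cube) :=
  hf.bdd_mul (continuous_chr ξ).aestronglyMeasurable
    (Eventually.of_forall fun x => (norm_chr ξ x).le)

lemma coefS_conj (f : V → ℂ) (ξ : Freq) : coefS (fun x => conj (f x)) ξ = conj (coefS f (-ξ)) := by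
  rw [coefS, coefS, ← integral_conj]
  refine integral_congr_ae (Eventually.of_forall fun x => ?_)
  simp [← chr_neg]

lemma coefS_add {f g : V → ℂ} (hf : Integrable f (volume.restrict cube))
    (hg : Integrable g (volume.restrict cube)) (ξ : Freq) :
    coefS (fun x => f x + g x) ξ = coefS f ξ + coefS g ξ := by
  simp only [coefS, mul_add]
  exact integral_add (integrable_chr_mul hf _) (integrable_chr_mul hg _)

lemma coefS_sub {f g : V → ℂ} (hf : Integrable f (volume.restrict cube))
    (hg : Integrable g (volume.restrict cube)) (ξ : Freq) :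
    coefS (fun x => f x - g x) ξ = coefS f ξ - coefS g ξ := by
  simp only [coefS, mul_sub]
  exact integral_sub (integrable_chr_mul hf _) (integrable_chr_mul hg _)

lemma coefS_const_mul (a : ℂ) (f : V → ℂ) (ξ : Freq) :
    coefS (fun x => a * f x) ξ = a * coefS f ξ := by
  rw [coefS, coefS, ← integral_const_mul]
  simp [mul_left_comm]

lemma coefS_congr {f g : V → ℂ} (h : f =ᵐ[volume.restrict cube] g) (ξ : Freq) :
    coefS f ξ = coefS g ξ :=
  integral_congr_ae (h.mono fun x hx => by simp [hx])

lemma norm_coefS_le {f : V → ℂ} {M : ℝ} (hM : ∀ x, ‖f x‖ ≤ M) (ξ : Freq) : ‖coefS f ξ‖ ≤ M :=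
  (norm_integral_le_of_norm_le_const (C := M) (Eventually.of_forall fun x => by
    simpa [norm_chr] using hM x)).trans (by simp)

lemma coefS_chr (ξ η : Freq) : coefS (chr ξ) η = if ξ = η then 1 else 0 := by
  classical
  rw [coefS_eq, show lift' (chr ξ) = ⇑(mFourier ξ) from funext fun t => by
    rw [show lift' (chr ξ) t = chr ξ (sec t) from rfl, ← mFourier_proj, proj_sec]]
  rw [← mFourierCoeff_toLp, ← mFourierBasis_repr, mFourierBasis.repr_apply_apply, coe_mFourierBasis]
  show inner ℂ (mFourierLp 2 η) (mFourierLp 2 ξ) = _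
  rw [orthonormal_iff_ite.1 orthonormal_mFourier]
  simp only [eq_comm]

lemma integral_chr (ξ : Freq) : ∫ x in cube, chr ξ x = if ξ = 0 then 1 else 0 := by
  have := coefS_chr ξ 0
  simpa [coefS, chr_zero] using this

lemma periodic_chr_smul {α : Type*} [SMul ℂ α] {f : V → α} (hf : Periodic f) (ξ : Freq) :
    Periodic fun x => chr ξ x • f x := fun x n => by
  show chr ξ (x + intVec n) • f (x + intVec n) = chr ξ x • f x
  rw [chr_periodic ξ x n, hf x n]

/-- Translating the argument. -/
lemma coefS_translate {f : V → ℂ} (hf : Periodic f) (v : V) (ξ : Freq) :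
    coefS (fun x => f (x + v)) ξ = chr ξ v * coefS f ξ := by
  rw [coefS, coefS, ← integral_const_mul]
  have hp : Periodic fun y => chr (-ξ) (y - v) * f y := fun y n => by
    show chr (-ξ) (y + intVec n - v) * f (y + intVec n) = _
    rw [add_sub_right_comm, chr_periodic, hf]
  have h := integral_cube_add hp v
  simp only [add_sub_cancel_right] at h
  rw [h]
  refine integral_congr_ae (Eventually.of_forall fun y => ?_)
  show chr (-ξ) (y - v) * f y = _
  rw [sub_eq_add_neg, chr_add_right, chr_neg_right, neg_neg]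
  ring

/-! ### Parseval -/

lemma mFourierCoeff_toLp' {f : V → ℂ} (hf : MemLp f 2 (volume.restrict cube)) (ξ : Freq) :
    mFourierCoeff ((memLp_lift hf).toLp (lift' f)) ξ = coefS f ξ := by
  rw [coefS_eq, mFourierCoeff, mFourierCoeff]
  exact integral_congr_ae ((memLp_lift hf).coeFn_toLp.mono fun t ht => by simp [ht])

lemma parsevalS {f g : V → ℂ} (hf : MemLp f 2 (volume.restrict cube))
    (hg : MemLp g 2 (volume.restrict cube)) :
    HasSum (fun ξ => conj (coefS f ξ) * coefS g ξ) (∫ x in cube, conj (f x) * g x) := by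
  have h := hasSum_prod_mFourierCoeff ((memLp_lift hf).toLp _) ((memLp_lift hg).toLp _)
  have h' := h.congr_fun (g := fun ξ => conj (coefS f ξ) * coefS g ξ) fun ξ => by
    rw [mFourierCoeff_toLp' hf, mFourierCoeff_toLp' hg]
  convert h' using 1
  rw [← integral_torus]
  refine integral_congr_ae ?_
  filter_upwards [(memLp_lift hf).coeFn_toLp, (memLp_lift hg).coeFn_toLp] with t h1 h2
  rw [h1, h2]
  rfl

/-! ### Series -/

lemma coefS_series {c : Freq → ℂ} (hc : Summable fun ξ => ‖c ξ‖) (η : Freq) :
    coefS (fun x => ∑' ξ, chr ξ x * c ξ) η = c η := by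
  simp only [coefS, ← tsum_mul_left]
  rw [← integral_tsum_of_summable_integral_norm]
  · have : ∀ ξ, ∫ x in cube, chr (-η) x * (chr ξ x * c ξ) = if ξ = η then c η else 0 := fun ξ => by
      have h := coefS_chr ξ η
      rw [coefS] at h
      simp only [← mul_assoc, integral_mul_const, h]
      split_ifs with e <;> simp [e]
    simp only [this, tsum_ite_eq]
  · exact fun ξ => ((integrable_chr_mul (integrable_const (c ξ)) ξ).bdd_mul
      (continuous_chr _).aestronglyMeasurable (Eventually.of_forall fun x => (norm_chr _ x).le))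
  · simpa [norm_chr] using hc

lemma hasSum_series {f : V → ℂ} (hf : Continuous f) (hp : Periodic f)
    (hs : Summable (coefS f)) (x : V) : HasSum (fun ξ => chr ξ x * coefS f ξ) (f x) := by
  let F : C(TT, ℂ) := ⟨lift' f, continuous_lift' hp hf⟩
  have hF : mFourierCoeff F = coefS f := funext fun ξ => (coefS_eq f ξ).symm
  have h := hasSum_mFourier_series_apply_of_summable (f := F) (by rwa [hF]) (proj x)
  rw [show F (proj x) = f x from lift'_proj hp x] at h
  simpa [hF, mFourier_proj, mul_comm] using h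

lemma exists_L2S {c : Freq → ℂ} (hc : Summable fun ξ => ‖c ξ‖ ^ 2) :
    ∃ f : V → ℂ, Measurable f ∧ Periodic f ∧ MemLp f 2 (volume.restrict cube) ∧ coefS f = c := by
  have hm : Memℓp c 2 := (memℓp_gen_iff (by norm_num)).2 (by simpa using hc)
  let g : Lp ℂ 2 (volume : Measure TT) := mFourierBasis.repr.symm ⟨c, hm⟩
  have hg : Measurable (g : TT → ℂ) := (Lp.stronglyMeasurable g).measurable
  refine ⟨fun x => g (proj x), hg.comp continuous_proj.measurable, fun x n => ?_,
    (Lp.memLp g).comp_measurePreserving measurePreserving_proj, funext fun ξ => ?_⟩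
  · show g (proj (x + intVec n)) = g (proj x)
    congr 1
    funext i
    simp [proj, intVec]
  · rw [coefS_eq, show lift' (fun x => g (proj x)) = g from funext fun t => congrArg _ (proj_sec t),
      ← mFourierBasis_repr]
    simp [g]

/-! ### Derivatives -/

lemma periodic_fderiv_apply {α : Type*} [NormedAddCommGroup α] [NormedSpace ℝ α] {f : V → α}
    (hf : Periodic f) (v : V) : Periodic fun x => fderiv ℝ f x v := fun x n => by
  show fderiv ℝ f (x + intVec n) v = fderiv ℝ f x v
  rw [← fderiv_comp_add_right (intVec n) (f := f), show (fun y => f (y + intVec n)) = f from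
    funext fun y => hf y n]

lemma integral_fderiv_eq_zero {F : V → ℂ} (hF : ContDiff ℝ 1 F) (hp : Periodic F) (v : V) :
    ∫ x in cube, fderiv ℝ F x v = 0 := by
  have hc : Continuous fun x => fderiv ℝ F x v :=
    (hF.continuous_fderiv (by norm_num)).clm_apply continuous_const
  obtain ⟨M, -, hM⟩ := bdd_periodic hc (periodic_fderiv_apply hp v)
  have key := (hasDerivAt_integral_of_dominated_loc_of_deriv_le
    (μ := volume.restrict cube) (F := fun (s : ℝ) x => F (x + s • v)) (x₀ := (0 : ℝ))
    (bound := fun _ => M) (F' := fun (s : ℝ) x => fderiv ℝ F (x + s • v) v)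
    (Filter.univ_mem : (Set.univ : Set ℝ) ∈ 𝓝 0)
    (Eventually.of_forall fun s => (hF.continuous.comp (by fun_prop)).aestronglyMeasurable)
    (integrableOn_cube (hF.continuous.comp (by fun_prop)))
    (hc.comp (by fun_prop : Continuous fun x : V => x + (0 : ℝ) • v)).aestronglyMeasurable
    (ae_of_all _ fun x s _ => hM _) (integrable_const M)
    (ae_of_all _ fun x s _ => by
      have h1 : HasDerivAt (fun r : ℝ => x + r • v) v s := by
        simpa using ((hasDerivAt_id s).smul_const v).const_add x
      exact ((hF.differentiable (by norm_num)).differentiableAt.hasFDerivAt.comp_hasDerivAt s h1))).2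
  simp only [integral_cube_add hp, zero_smul, add_zero] at key
  exact key.unique (hasDerivAt_const _ _)

lemma hasFDerivAt_chr (ξ : Freq) (x : V) :
    HasFDerivAt (chr ξ) (chr ξ x • Complex.I • Complex.ofRealCLM.comp (phase ξ)) x := by
  rw [show chr ξ = fun x => Complex.exp ((phase ξ x : ℂ) * Complex.I) from funext (chr_eq_phase ξ)]
  exact ((Complex.ofRealCLM.hasFDerivAt.comp x (phase ξ).hasFDerivAt).mul_const Complex.I).cexp

lemma phase_e (ξ : Freq) (i : Fin 4) : phase ξ (e i) = 2 * Real.pi * (ξ i : ℝ) := by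
  simp [phase_apply, e, Pi.single_apply]

lemma coefS_fderiv {f : V → ℂ} (hf : ContDiff ℝ 1 f) (hp : Periodic f) (v : V) (ξ : Freq) :
    coefS (fun x => fderiv ℝ f x v) ξ = Complex.I * (phase ξ v : ℂ) * coefS f ξ := by
  have hd : ∀ x, fderiv ℝ (fun x => chr (-ξ) x * f x) x v =
      chr (-ξ) x * fderiv ℝ f x v - Complex.I * (phase ξ v : ℂ) * (chr (-ξ) x * f x) := fun x => by
    rw [((hasFDerivAt_chr (-ξ) x).fun_mul
      (hf.differentiable (by norm_num)).differentiableAt.hasFDerivAt).fderiv]
    simp [phase_apply]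
    ring
  have hF : ContDiff ℝ 1 fun x => chr (-ξ) x * f x := (contDiff_chr _).mul hf
  have h := integral_fderiv_eq_zero hF (periodic_chr_smul hp (-ξ)) v
  simp only [hd] at h
  rw [integral_sub, integral_const_mul, sub_eq_zero] at h
  · exact h
  · exact integrableOn_cube ((continuous_chr _).mul
      ((hf.continuous_fderiv (by norm_num)).clm_apply continuous_const))
  · exact (integrableOn_cube ((continuous_chr _).mul hf.continuous)).const_mul _

lemma Smooth.fderiv_apply {α : Type*} [NormedAddCommGroup α] [NormedSpace ℝ α] {f : V → α}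
    (hf : Smooth f) (v : V) : Smooth fun x => fderiv ℝ f x v :=
  ⟨(hf.smooth.fderiv_right (by norm_cast)).clm_apply contDiff_const,
    periodic_fderiv_apply hf.periodic v⟩

/-- The operator `1 - (2π)⁻² ∂ᵢ²`. -/
noncomputable def lop (i : Fin 4) (f : V → ℂ) (x : V) : ℂ :=
  f x - ((4 * Real.pi ^ 2 : ℝ) : ℂ)⁻¹ * fderiv ℝ (fun y => fderiv ℝ f y (e i)) x (e i)

lemma smooth_lop {f : V → ℂ} (hf : Smooth f) (i : Fin 4) : Smooth (lop i f) := by
  have h := (hf.fderiv_apply (e i)).fderiv_apply (e i)
  exact ⟨hf.smooth.sub (contDiff_const.mul h.smooth), fun x n => by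
    simp only [lop]
    exact congrArg₂ (fun a b => a - _ * b) (hf.periodic x n) (h.periodic x n)⟩

lemma coefS_lop {f : V → ℂ} (hf : Smooth f) (i : Fin 4) (ξ : Freq) :
    coefS (lop i f) ξ = ((1 + (ξ i : ℝ) ^ 2 : ℝ) : ℂ) * coefS f ξ := by
  have h1 := hf.fderiv_apply (e i)
  have h := h1.fderiv_apply (e i)
  unfold lop
  rw [coefS_sub (integrableOn_cube hf.smooth.continuous)
    ((integrableOn_cube h.smooth.continuous).const_mul _), coefS_const_mul,
    coefS_fderiv (h1.smooth.of_le (by norm_cast)) h1.periodic,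
    coefS_fderiv (hf.smooth.of_le (by norm_cast)) hf.periodic, phase_e]
  have hπ : (Real.pi : ℂ) ≠ 0 := by exact_mod_cast Real.pi_ne_zero
  field_simp
  push_cast
  ring_nf
  rw [Complex.I_sq]
  ring

lemma rapidS {f : V → ℂ} (hf : Smooth f) (j : ℕ) : ∃ M, ∀ ξ, wt ξ ^ j * ‖coefS f ξ‖ ≤ M := by
  induction j generalizing f with
  | zero =>
    obtain ⟨M, -, hM⟩ := bdd_periodic hf.smooth.continuous hf.periodic
    exact ⟨M, fun ξ => by simpa using norm_coefS_le hM ξ⟩
  | succ j ih =>
    have h0 := smooth_lop hf 0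
    have h1 := smooth_lop h0 1
    have h2 := smooth_lop h1 2
    have h3 := smooth_lop h2 3
    obtain ⟨M, hM⟩ := ih h3
    refine ⟨M, fun ξ => (le_of_eq ?_).trans (hM ξ)⟩
    rw [coefS_lop h2, coefS_lop h1, coefS_lop h0, coefS_lop hf]
    simp only [norm_mul, Complex.norm_real, Real.norm_eq_abs]
    rw [pow_succ, wt, Fin.prod_univ_four]
    simp only [abs_of_nonneg (show (0 : ℝ) ≤ 1 + _ ^ 2 by positivity)]
    ring

lemma summable_rapidS {f : V → ℂ} (hf : Smooth f) (j : ℕ) :
    Summable fun ξ => wt ξ ^ j * ‖coefS f ξ‖ := by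
  obtain ⟨M, hM⟩ := rapidS hf (j + 1)
  refine Summable.of_nonneg_of_le (fun ξ => by have := wt_pos ξ; positivity) (fun ξ => ?_)
    (summable_wt_inv.mul_left M)
  rw [← div_eq_mul_inv, le_div_iff₀ (wt_pos ξ)]
  calc _ = wt ξ ^ (j + 1) * ‖coefS f ξ‖ := by ring
    _ ≤ M := hM ξ

end Vale.Agent.P204.Torus
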