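import Vale.Agent.P204.Torus.GOp

/-!
P204 on the four-torus: a closed form with prescribed anti-invariant part.
-/

open MeasureTheory Filter Topology
open scoped BigOperators ComplexConjugate ENNReal

namespace Vale.Agent.P204.Torus

lemma eq_of_coef {f g : V → Form} (hf : Smooth f) (hg : Smooth g) (h : coef f = coef g) (x : V) :
    f x = g x := by
  rw [← synth_coef hf.smooth.continuous hf.periodic (coef_rapid hf).summable x, h,
    synth_coef hg.smooth.continuous hg.periodic (coef_rapid hg).summable x]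

lemma wgt_le_wt {e : ℝ} (he : 0 < e) (he1 : e ≤ 1 / 8) (n : ℕ) (ξ : Freq) :
    wgt e n ξ ≤ wt ξ ^ n := by
  rw [wgt, zpow_natCast]
  refine pow_le_pow_left₀ (wgt_base_pos e ξ).le ?_ n
  refine Finset.prod_le_prod (fun i _ => by positivity) fun i _ => ?_
  have h : 4 * Real.pi ^ 2 * e ^ 2 ≤ 1 := by
    nlinarith [Real.pi_lt_four, Real.pi_pos, pow_le_pow_left₀ he.le he1 2, sq_nonneg e]
  nlinarith [sq_nonneg (ξ i : ℝ), mul_le_mul_of_nonneg_right h (sq_nonneg (ξ i : ℝ))]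

lemma wt_le_wgt {e : ℝ} (he : 0 < e) (he1 : e ≤ 1 / 8) (n : ℕ) (ξ : Freq) :
    ((4 * Real.pi ^ 2 * e ^ 2) ^ 4) ^ n * wt ξ ^ n ≤ wgt e n ξ := by
  rw [wgt, zpow_natCast, ← mul_pow]
  refine pow_le_pow_left₀ (by have := wt_pos ξ; positivity) ?_ n
  have h : 4 * Real.pi ^ 2 * e ^ 2 ≤ 1 := by
    nlinarith [Real.pi_lt_four, Real.pi_pos, pow_le_pow_left₀ he.le he1 2, sq_nonneg e]
  rw [show (4 * Real.pi ^ 2 * e ^ 2) ^ 4 = ∏ _i : Fin 4, (4 * Real.pi ^ 2 * e ^ 2) by simp, wt,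
    ← Finset.prod_mul_distrib]
  refine Finset.prod_le_prod (fun i _ => by positivity) fun i _ => ?_
  linarith

namespace Setup

variable (S : Setup)

lemma opT_solution {n : ℕ} {e : ℝ} (he : 0 < e) (he1 : e ≤ 1 / 8) {c0 : ℝ} (h0 : 0 < c0)
    (hc : ∀ a, Good a → c0 * SQ a ≤ PQ a (S.opT e n a)) {b v : Freq → CForm} (hb : Rapid b)
    (hbh : Herm b) (hv : Good v) (hLv : S.opL v = b) :
    Good (wm e n v) ∧ SQ (wm e n v) ≤ (6 / c0) ^ 2 * ∑' ξ, (wt ξ ^ n * ‖b ξ‖) ^ 2 := by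
  have he1' : e ≤ 1 := he1.trans (by norm_num)
  obtain ⟨cL, hcL, hco⟩ := S.opL_coercive
  have hle : ∀ ξ, ‖wm e n b ξ‖ ^ 2 ≤ (wt ξ ^ n * ‖b ξ‖) ^ 2 := fun ξ => by
    refine pow_le_pow_left₀ (norm_nonneg _) ?_ 2
    rw [wm, norm_smul, Complex.norm_real, Real.norm_of_nonneg (wgt_pos e _ ξ).le]
    exact mul_le_mul_of_nonneg_right (wgt_le_wt he he1 n ξ) (norm_nonneg _)
  have hg : Good (wm e n b) :=
    ⟨wm_herm e _ hbh, (hb.summable_sq n).of_nonneg_of_le (fun _ => sq_nonneg _) hle⟩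
  have hop := S.opT_isOp (n := n) he he1'
  obtain ⟨u, hu, hTu⟩ := solve hop h0 hc hg
  have hLu : S.opL (wm e (-(n : ℤ)) u) = b := by
    have := congrArg (wm e (-(n : ℤ))) hTu
    rwa [opT, wm_wm', wm_wm'] at this
  have heq : wm e n v = u := by
    rw [coer_inj S.opL_isOp hcL hco hv (good_wm_nonpos e n hu) (hLv.trans hLu.symm), wm_wm]
  rw [heq]
  refine ⟨hu, (coer_bound hop h0 hc hu).trans (mul_le_mul_of_nonneg_left ?_ (sq_nonneg _))⟩
  rw [hTu]
  exact hg.2.tsum_le_tsum hle (hb.summable_sq n)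

lemma exists_sol : ∃ C, 0 ≤ C ∧ ∀ β, Smooth β →
    ∃ v, Smooth v ∧ S.opL (coef v) = coef β ∧ N v ≤ C * N β := by
  obtain ⟨cL, hcL, hco⟩ := S.opL_coercive
  obtain ⟨e₁, he₁, he₁', c₁, hc₁, hco₁⟩ := S.opT_coercive 1
  set k := (4 * Real.pi ^ 2 * e₁ ^ 2) ^ 4
  have hk : 0 < k := by positivity
  refine ⟨6 / c₁ / k, by positivity, fun β hβ => ?_⟩
  have hb := coef_rapid hβ
  have hbg : Good (coef β) := ⟨coef_herm β, by simpa using hb.summable_sq 0⟩
  obtain ⟨v, hv, hLv⟩ := solve S.opL_isOp hcL hco hbg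
  have hrapid : Rapid v := fun j => by
    obtain ⟨e, he, he', c0, hc0, hco'⟩ := S.opT_coercive (j + 1)
    obtain ⟨hu, -⟩ := S.opT_solution he he' hc0 hco' hb (coef_herm β) hv hLv
    set k' := ((4 * Real.pi ^ 2 * e ^ 2) ^ 4) ^ (j + 1)
    have hk' : 0 < k' := by positivity
    have hle : ∀ ξ, wt ξ ^ (j + 1) * ‖v ξ‖ ≤ ‖wm e (j + 1 : ℕ) v ξ‖ / k' := fun ξ => by
      rw [le_div_iff₀ hk', wm, norm_smul, Complex.norm_real,
        Real.norm_of_nonneg (wgt_pos e _ ξ).le]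
      calc wt ξ ^ (j + 1) * ‖v ξ‖ * k' = k' * wt ξ ^ (j + 1) * ‖v ξ‖ := by ring
        _ ≤ _ := mul_le_mul_of_nonneg_right (wt_le_wgt he he' _ ξ) (norm_nonneg _)
    have hs : Summable fun ξ => (wt ξ ^ (j + 1) * ‖v ξ‖) ^ 2 :=
      (hu.2.div_const (k' ^ 2)).of_nonneg_of_le (fun _ => sq_nonneg _) fun ξ =>
        (pow_le_pow_left₀ (by have := wt_pos ξ; positivity) (hle ξ) 2).trans_eq (div_pow _ _ 2)
    have hw : Summable fun ξ => (wt ξ)⁻¹ ^ 2 := by
      simpa [inv_pow] using summable_wt_pow_inv one_le_two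
    refine (cs_tsum (fun ξ => inv_nonneg.2 (wt_pos ξ).le)
      (fun ξ => by have := wt_pos ξ; positivity) hw hs).1.congr fun ξ => ?_
    have := (wt_pos ξ).ne'
    rw [pow_succ]
    field_simp
  have hsm := smooth_synth hrapid
  have hcv : coef (synth v) = v := coef_synth hrapid.summable hv.1
  refine ⟨synth v, hsm, by rw [hcv]; exact hLv, ?_⟩
  obtain ⟨hu, hu'⟩ := S.opT_solution he₁ he₁' hc₁ hco₁ hb (coef_herm β) hv hLv
  have hle : ∀ ξ, (wt ξ * ‖v ξ‖) ^ 2 ≤ ‖wm e₁ (1 : ℕ) v ξ‖ ^ 2 / k ^ 2 := fun ξ => by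
    rw [← div_pow]
    refine pow_le_pow_left₀ (by have := wt_pos ξ; positivity) ?_ 2
    rw [le_div_iff₀ hk, wm, norm_smul, Complex.norm_real, Real.norm_of_nonneg (wgt_pos e₁ _ ξ).le]
    have := wt_le_wgt he₁ he₁' 1 ξ
    rw [pow_one, pow_one] at this
    calc wt ξ * ‖v ξ‖ * k = k * wt ξ * ‖v ξ‖ := by ring
      _ ≤ _ := mul_le_mul_of_nonneg_right this (norm_nonneg _)
  simp only [pow_one] at hu'
  unfold N
  rw [hcv, Real.sqrt_le_iff]
  refine ⟨by positivity, ?_⟩
  rw [mul_pow, Real.sq_sqrt (tsum_nonneg fun _ => sq_nonneg _)]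
  refine ((summable_N hsm).congr fun ξ => by rw [hcv]).tsum_le_tsum hle (hu.2.div_const _)
    |>.trans ?_
  rw [tsum_div_const, div_pow (6 / c₁) k, div_mul_eq_mul_div]
  exact div_le_div_of_nonneg_right hu' (sq_nonneg k)

lemma smooth_synth_Pic {v : V → Form} (hv : Smooth v) :
    Smooth (synth (Pic (coef fun x => S.PMf x (v x)))) :=
  smooth_synth (coef_rapid (S.smooth_PMf.apply hv)).Pic

lemma coef_synth_Pic {v : V → Form} (hv : Smooth v) :
    coef (synth (Pic (coef fun x => S.PMf x (v x)))) = Pic (cmul S.PMf (coef v)) := by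
  rw [coef_synth (coef_rapid (S.smooth_PMf.apply hv)).Pic.summable (piC_herm (coef_herm _)),
    coef_mul S.smooth_PMf (hv.memLp 2)]

lemma good_coef {f : V → Form} (hf : Smooth f) : Good (coef f) :=
  ⟨coef_herm f, (parseval_norm (hf.memLp 2)).summable⟩

/-- `G α` is closed, with the same anti-invariant part as `α`. -/
theorem exists_G : ∃ (G : (V → Form) → V → Form) (C : ℝ), 0 ≤ C ∧
    ∀ α, Smooth α → Smooth (G α) ∧ Closed (G α) ∧
      (∀ x, piM (S.J x) (G α x) = piM (S.J x) (α x)) ∧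
      (∀ x, ‖G α x‖ ≤ C * N α) ∧
      ((∀ x, piM (S.J x) (α x) = 0) → ∀ x, G α x = 0) ∧
      (∀ β, Smooth β → ∀ x, G (fun y => α y + β y) x = G α x + G β x) ∧
      (∀ a : ℝ, ∀ x, G (fun y => a • α y) x = a • G α x) := by
  classical
  obtain ⟨C, hC, hsol⟩ := S.exists_sol
  obtain ⟨C₀, hC₀, hsup⟩ := norm_le_N
  obtain ⟨CM, hCM⟩ := N_mul_le S.smooth_PMf
  obtain ⟨cL, hcL, hco⟩ := S.opL_coercive
  have hex : ∀ α, ∃ v, Smooth α → Smooth v ∧
      S.opL (coef v) = coef (fun x => S.PMf x (α x)) ∧ N v ≤ C * N (fun x => S.PMf x (α x)) :=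
    fun α => by
    by_cases h : Smooth α
    · obtain ⟨v, hv⟩ := hsol _ (S.smooth_PMf.apply h)
      exact ⟨v, fun _ => hv⟩
    · exact ⟨0, fun h' => absurd h' h⟩
  choose vf hvf using hex
  refine ⟨fun α => synth (Pic (coef fun x => S.PMf x (vf α x))),
    C₀ * (2 * (max CM 0 * (C * max CM 0))), by positivity, fun α hα => ?_⟩
  obtain ⟨hv, hLv, hNv⟩ := hvf α hα
  have hh := S.smooth_synth_Pic hv
  have hch := S.coef_synth_Pic hv
  set h := synth (Pic (coef fun x => S.PMf x (vf α x)))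
  have hadd : ∀ β, Smooth β → Smooth fun y => α y + β y := fun β hβ =>
    ⟨hα.smooth.add hβ.smooth, fun x n => by simp only [hα.periodic x n, hβ.periodic x n]⟩
  refine ⟨hh, closed_synth_Pic (coef_rapid (S.smooth_PMf.apply hv)) (coef_herm _), fun x => ?_,
    fun x => ?_, fun h0 x => ?_, fun β hβ x => ?_, fun a x => ?_⟩
  · have h1 : Smooth fun x => S.PMf x (h x) + S.WFf x (vf α x) :=
      ⟨(S.smooth_PMf.apply hh).smooth.add (S.smooth_WFf.apply hv).smooth, fun x n => by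
        simp only [(S.smooth_PMf.apply hh).periodic x n, (S.smooth_WFf.apply hv).periodic x n]⟩
    have h2 := eq_of_coef h1 (S.smooth_PMf.apply hα) (by
      rw [coef_add ((S.smooth_PMf.apply hh).memLp 2) ((S.smooth_WFf.apply hv).memLp 2),
        coef_mul S.smooth_PMf (hh.memLp 2), coef_mul S.smooth_WFf (hv.memLp 2), hch]
      exact hLv) x
    have h3 := congrArg (piM (S.J x)) h2
    simp only [PMf_apply, piM_add, S.piM_piM, S.piM_WFf, add_zero] at h3
    exact h3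
  · refine (hsup h hh x).trans ?_
    have hN0 := N_nonneg α
    have h1 : N h ≤ 2 * N (fun x => S.PMf x (vf α x)) := by
      unfold N
      rw [← Real.sqrt_sq (show (0 : ℝ) ≤ 2 by norm_num), ← Real.sqrt_mul (sq_nonneg _)]
      refine Real.sqrt_le_sqrt ?_
      rw [← tsum_mul_left]
      refine (summable_N hh).tsum_le_tsum (fun ξ => ?_) ((summable_N (S.smooth_PMf.apply hv)).mul_left _)
      rw [← mul_pow, hch, ← coef_mul S.smooth_PMf (hv.memLp 2)]
      refine pow_le_pow_left₀ (by have := wt_pos ξ; positivity) ?_ 2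
      calc wt ξ * ‖Pic (coef fun x => S.PMf x (vf α x)) ξ‖
          ≤ wt ξ * (2 * ‖coef (fun x => S.PMf x (vf α x)) ξ‖) :=
            mul_le_mul_of_nonneg_left (norm_piC_le _ _) (wt_pos ξ).le
        _ = _ := by ring
    have h2 : N (fun x => S.PMf x (vf α x)) ≤ max CM 0 * N (vf α) :=
      (hCM _ hv).trans (mul_le_mul_of_nonneg_right (le_max_left _ _) (N_nonneg _))
    have h3 : N (fun x => S.PMf x (α x)) ≤ max CM 0 * N α :=
      (hCM _ hα).trans (mul_le_mul_of_nonneg_right (le_max_left _ _) (N_nonneg _))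
    have hm : 0 ≤ max CM 0 := le_max_right _ _
    calc C₀ * N h ≤ C₀ * (2 * (max CM 0 * (C * (max CM 0 * N α)))) :=
          mul_le_mul_of_nonneg_left (h1.trans (mul_le_mul_of_nonneg_left (h2.trans
            (mul_le_mul_of_nonneg_left (hNv.trans (mul_le_mul_of_nonneg_left h3 hC)) hm))
            (by norm_num))) hC₀
      _ = _ := by ring
  · have hz : coef (fun x => S.PMf x (α x)) = 0 := by
      rw [show (fun x => S.PMf x (α x)) = fun _ => (0 : Form) from funext h0]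
      funext ξ; ext k
      simp [coef_apply, coefS]
    have hv0 : coef (vf α) = 0 :=
      eq_zero_of_SQ (good_coef hv).2 (le_of_le_of_eq
        (coer_bound S.opL_isOp hcL hco (good_coef hv)) (by rw [hLv, hz]; simp [SQ]))
    have hh0 : coef h = 0 := by
      rw [hch, hv0]
      have := cmul_smul S.PMf 0 (0 : Freq → CForm)
      simp only [zero_smul] at this
      rw [this]
      simpa using Pic_smul 0 0
    exact eq_of_coef hh ⟨contDiff_const, fun _ _ => rfl⟩
      (hh0.trans (by funext ξ; ext k; simp [coef_apply, coefS])) x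
  · obtain ⟨hw, hLw, -⟩ := hvf β hβ
    obtain ⟨hs, hLs, -⟩ := hvf _ (hadd β hβ)
    have hc : coef (vf fun y => α y + β y) = coef (vf α) + coef (vf β) := by
      refine coer_inj S.opL_isOp hcL hco (good_coef hs) ((good_coef hv).add (good_coef hw)) ?_
      rw [S.opL_isOp.add _ _ (good_coef hv) (good_coef hw), hLv, hLw, hLs,
        ← coef_add ((S.smooth_PMf.apply hα).memLp 2) ((S.smooth_PMf.apply hβ).memLp 2)]
      simp [map_add]
    refine eq_of_coef (S.smooth_synth_Pic hs) (g := fun x => h x + synth (Pic (coef fun x => S.PMf x (vf β x))) x)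
      ⟨hh.smooth.add (S.smooth_synth_Pic hw).smooth, fun x n => by
        simp only [hh.periodic x n, (S.smooth_synth_Pic hw).periodic x n]⟩ ?_ x
    rw [coef_add (hh.memLp 2) ((S.smooth_synth_Pic hw).memLp 2), hch, S.coef_synth_Pic hw,
      S.coef_synth_Pic hs, hc, cmul_add S.smooth_PMf (good_coef hv).2 (good_coef hw).2, Pic_add]
  · have ha : Smooth fun y => a • α y :=
      ⟨hα.smooth.const_smul a, fun x n => by simp only [hα.periodic x n]⟩
    obtain ⟨hs, hLs, -⟩ := hvf _ ha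
    have hc : coef (vf fun y => a • α y) = (a : ℂ) • coef (vf α) := by
      refine coer_inj S.opL_isOp hcL hco (good_coef hs) ((good_coef hv).smul a) ?_
      rw [S.opL_isOp.smul a _ (good_coef hv), hLv, hLs, ← coef_smul]
      simp [map_smul]
    refine eq_of_coef (S.smooth_synth_Pic hs) (g := fun x => a • h x)
      ⟨hh.smooth.const_smul a, fun x n => by simp only [hh.periodic x n]⟩ ?_ x
    rw [coef_smul, hch, S.coef_synth_Pic hs, hc, cmul_smul, Pic_smul]

end Setup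

end Vale.Agent.P204.Torus
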