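import Vale.Agent.P204.Torus.FourierDefs

/-!
P204 on the four-torus: the one-dimensional kernels `k1` and `k2`.
-/

open MeasureTheory Set Filter Topology intervalIntegral
open scoped BigOperators ComplexConjugate

namespace Vale.Agent.P204.Torus

lemma tdist_nonneg (t : ℝ) : 0 ≤ tdist t := abs_nonneg _

lemma tdist_le_sub_int (t : ℝ) (n : ℤ) : tdist t ≤ |t - n| := round_le t n

lemma tdist_le_half (t : ℝ) : tdist t ≤ 1 / 2 := abs_sub_round t

lemma tdist_periodic : Function.Periodic tdist 1 := fun t => by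
  simp [tdist, round_add_one]

lemma tdist_neg (t : ℝ) : tdist (-t) = tdist t := by
  refine le_antisymm ?_ ?_
  · refine (tdist_le_sub_int (-t) (-round t)).trans_eq ?_
    rw [tdist, ← abs_neg]; push_cast; ring_nf
  · refine (tdist_le_sub_int t (-round (-t))).trans_eq ?_
    rw [tdist, ← abs_neg]; push_cast; ring_nf

lemma tdist_add_le (a b : ℝ) : tdist (a + b) ≤ tdist a + tdist b := by
  refine (tdist_le_sub_int (a + b) (round a + round b)).trans ?_
  refine le_of_eq_of_le (congrArg abs ?_) (abs_add_le (a - round a) (b - round b))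
  push_cast; ring

lemma continuous_tdist : Continuous tdist := by
  refine (LipschitzWith.of_dist_le_mul (K := 1) fun a b => ?_).continuous
  have h1 := tdist_add_le (a - b) b
  have h2 := tdist_add_le (b - a) a
  have h3 : tdist (a - b) ≤ |a - b| := by simpa using tdist_le_sub_int (a - b) 0
  have h4 : tdist (b - a) ≤ |a - b| := by rw [abs_sub_comm]; simpa using tdist_le_sub_int (b - a) 0
  rw [sub_add_cancel] at h1 h2
  simp only [Real.dist_eq, NNReal.coe_one, one_mul, abs_le]
  constructor <;> linarith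

lemma sinh_pos_of {e : ℝ} (he : 0 < e) : 0 < Real.sinh (1 / (2 * e)) :=
  Real.sinh_pos_iff.2 (by positivity)

lemma k1_periodic (e : ℝ) : Function.Periodic (k1 e) 1 := fun t => by
  simp only [k1, tdist_periodic t]

lemma k1_even (e t : ℝ) : k1 e (-t) = k1 e t := by simp only [k1, tdist_neg]

lemma continuous_k1 (e : ℝ) : Continuous (k1 e) := by
  unfold k1
  have := continuous_tdist
  fun_prop

lemma k1_nonneg {e : ℝ} (he : 0 < e) (t : ℝ) : 0 ≤ k1 e t := by
  have := sinh_pos_of he
  have := Real.cosh_pos ((1 / 2 - tdist t) / e)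
  unfold k1; positivity

lemma k1_eq {e t : ℝ} (ht : t ∈ Icc (0 : ℝ) 1) :
    k1 e t = Real.cosh ((t - 1 / 2) / e) / (2 * e * Real.sinh (1 / (2 * e))) := by
  have h : tdist t = if t ≤ 1 / 2 then t else 1 - t := by
    split_ifs with h
    · refine le_antisymm ((tdist_le_sub_int t 0).trans_eq (by simp [abs_of_nonneg ht.1])) ?_
      unfold tdist
      rcases le_or_gt (round t) 0 with h' | h'
      · have : (round t : ℝ) ≤ 0 := by exact_mod_cast h'
        rw [abs_of_nonneg (by linarith [ht.1])]; linarith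
      · have : (1 : ℝ) ≤ round t := by exact_mod_cast h'
        rw [abs_of_nonpos (by linarith)]; linarith
    · refine le_antisymm ((tdist_le_sub_int t 1).trans_eq ?_) ?_
      · rw [abs_of_nonpos (by push_cast; linarith [ht.2])]; push_cast; ring
      unfold tdist
      rcases le_or_gt (round t) 0 with h' | h'
      · have : (round t : ℝ) ≤ 0 := by exact_mod_cast h'
        rw [abs_of_nonneg (by linarith [ht.1])]; linarith
      · have : (1 : ℝ) ≤ round t := by exact_mod_cast h'
        rw [abs_of_nonpos (by linarith [ht.2])]; linarith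
  simp only [k1, h]
  split_ifs
  · rw [← Real.cosh_neg]; congr 2; ring
  · congr 2; ring

/-- The exponential `exp (2 π i n t)`. -/
noncomputable def ee1 (n : ℤ) (t : ℝ) : ℂ := Complex.exp (2 * Real.pi * Complex.I * n * t)

lemma norm_ee1 (n : ℤ) (t : ℝ) : ‖ee1 n t‖ = 1 := by
  rw [ee1, show (2 : ℂ) * Real.pi * Complex.I * n * t = ((2 * Real.pi * n * t : ℝ) : ℂ) * Complex.I by
    push_cast; ring]
  exact Complex.norm_exp_ofReal_mul_I _

lemma continuous_ee1 (n : ℤ) : Continuous (ee1 n) := by unfold ee1; fun_prop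

lemma ee1_sub (n : ℤ) (t s : ℝ) : ee1 n (t - s) = ee1 n t * ee1 (-n) s := by
  simp only [ee1, ← Complex.exp_add]
  congr 1
  push_cast
  ring

/-- The multiplier of `k1`. -/
noncomputable def m1 (e : ℝ) (n : ℤ) : ℝ := (1 + 4 * Real.pi ^ 2 * e ^ 2 * (n : ℝ) ^ 2)⁻¹

lemma m1_pos (e : ℝ) (n : ℤ) : 0 < m1 e n := by unfold m1; positivity

lemma m1_le_one (e : ℝ) (n : ℤ) : m1 e n ≤ 1 :=
  inv_le_one_of_one_le₀ (le_add_of_nonneg_right (by positivity))

lemma summable_m1 {e : ℝ} (he : 0 < e) : Summable (m1 e) := by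
  have h : Summable fun k : ℤ => 1 / (k : ℝ) ^ 2 := Real.summable_one_div_int_pow.2 one_lt_two
  refine Summable.of_nonneg_of_le (fun n => (m1_pos e n).le) (fun n => ?_)
    ((h.mul_left (4 * Real.pi ^ 2 * e ^ 2)⁻¹).add (summable_of_ne_finset_zero (s := {0})
      (f := fun k : ℤ => if k = 0 then (1 : ℝ) else 0) fun b hb => by simp at hb; simp [hb]))
  rcases eq_or_ne n 0 with rfl | hn
  · simp [m1]
  · have hn' : (0 : ℝ) < (n : ℝ) ^ 2 := by positivity
    rw [if_neg hn, add_zero, m1, one_div, ← mul_inv]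
    exact inv_anti₀ (by positivity) (le_add_of_nonneg_left zero_le_one)

lemma k1_coef {e : ℝ} (he : 0 < e) (n : ℤ) :
    ∫ t in (0 : ℝ)..1, ee1 (-n) t * (k1 e t : ℂ) = (m1 e n : ℂ) := by
  set w : ℂ := 2 * Real.pi * Complex.I * n with hw
  set a : ℂ := ((1 / e : ℝ) : ℂ) with ha
  have ha1 : a - w ≠ 0 := fun h => by
    have := congrArg Complex.re h
    simp [ha, hw, he.ne'] at this
  have ha2 : -a - w ≠ 0 := fun h => by
    have := congrArg Complex.re h
    simp [ha, hw, he.ne'] at this
  set D : ℂ := ((4 * e * Real.sinh (1 / (2 * e)) : ℝ) : ℂ) with hD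
  have hD0 : D ≠ 0 := by
    have := sinh_pos_of he
    rw [hD]; exact_mod_cast (by positivity : (4 * e * Real.sinh (1 / (2 * e)) : ℝ) ≠ 0)
  have hc : ∀ t ∈ uIcc (0 : ℝ) 1, ee1 (-n) t * (k1 e t : ℂ) =
      (Complex.exp (-(a / 2)) * Complex.exp ((a - w) * t) +
        Complex.exp (a / 2) * Complex.exp ((-a - w) * t)) / D := fun t ht => by
    rw [uIcc_of_le zero_le_one] at ht
    rw [k1_eq ht, Real.cosh_eq]
    simp only [ee1, ha, hw, hD, ← Complex.exp_add]
    push_cast
    rw [mul_div_assoc', mul_div_assoc', mul_add, ← Complex.exp_add, ← Complex.exp_add, div_div]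
    congr 1
    · congr 1 <;> congr 1 <;> (field_simp; ring)
    · ring
  rw [integral_congr hc, intervalIntegral.integral_div, intervalIntegral.integral_add
    ((Continuous.intervalIntegrable (by fun_prop) _ _)) ((Continuous.intervalIntegrable (by fun_prop) _ _)),
    intervalIntegral.integral_const_mul, intervalIntegral.integral_const_mul,
    integral_exp_mul_complex ha1, integral_exp_mul_complex ha2]
  have hexp : Complex.exp (-w) = 1 := by
    rw [hw, show -(2 * (Real.pi : ℂ) * Complex.I * n) = ((-n : ℤ) : ℂ) * (2 * Real.pi * Complex.I) by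
      push_cast; ring]
    exact Complex.exp_int_mul_two_pi_mul_I _
  have e1 : Complex.exp ((a - w) * ((1 : ℝ) : ℂ)) = Complex.exp (a / 2) * Complex.exp (a / 2) := by
    rw [Complex.ofReal_one, mul_one, sub_eq_add_neg, Complex.exp_add, hexp, mul_one, ← Complex.exp_add,
      add_halves]
  have e2 : Complex.exp ((-a - w) * ((1 : ℝ) : ℂ)) =
      Complex.exp (-(a / 2)) * Complex.exp (-(a / 2)) := by
    rw [Complex.ofReal_one, mul_one, sub_eq_add_neg, Complex.exp_add, hexp, mul_one, ← Complex.exp_add,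
      ← neg_add, add_halves]
  rw [e1, e2]
  simp only [Complex.ofReal_zero, mul_zero, Complex.exp_zero]
  set p := Complex.exp (a / 2) with hp
  have hpm : Complex.exp (-(a / 2)) = p⁻¹ := Complex.exp_neg _
  rw [hpm]
  have hp0 : p ≠ 0 := Complex.exp_ne_zero _
  have hDp : D = 2 * (e : ℂ) * (p - p⁻¹) := by
    rw [hD, Real.sinh_eq, hp, ← Complex.exp_neg, ha]
    push_cast
    rw [show (1 : ℂ) / (2 * (e : ℂ)) = 1 / (e : ℂ) / 2 by ring]
    ring
  have hs : p - p⁻¹ ≠ 0 := fun h => hD0 (by rw [hDp, h, mul_zero])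
  have hm : (m1 e n : ℂ) * (1 - (w * e) ^ 2) = 1 := by
    have hq : ((1 + 4 * Real.pi ^ 2 * e ^ 2 * (n : ℝ) ^ 2 : ℝ) : ℂ) = 1 - (w * e) ^ 2 := by
      rw [hw]; push_cast; ring_nf; rw [Complex.I_sq]; ring
    rw [← hq, ← Complex.ofReal_mul, m1, inv_mul_cancel₀ (by positivity), Complex.ofReal_one]
  have hae : a * (e : ℂ) = 1 := by
    rw [ha, ← Complex.ofReal_mul, one_div, inv_mul_cancel₀ he.ne', Complex.ofReal_one]
  have ha3 : a + w ≠ 0 := fun h => ha2 (by rw [show -a - w = -(a + w) by ring, h, neg_zero])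
  have key : 2 * a = 2 * (e : ℂ) * (m1 e n : ℂ) * ((a - w) * (a + w)) := by
    linear_combination (-2 * a) * hm +
      (-2 * a * (m1 e n : ℂ) - 2 * (e : ℂ) * (m1 e n : ℂ) * w ^ 2) * hae
  have he0 : (e : ℂ) ≠ 0 := by exact_mod_cast he.ne'
  have hp2 : p ^ 2 - 1 ≠ 0 := fun h => hs (by field_simp; linear_combination h)
  calc (p⁻¹ * ((p * p - 1) / (a - w)) + p * ((p⁻¹ * p⁻¹ - 1) / (-a - w))) / D
      = ((p - p⁻¹) / (a - w) + (p⁻¹ - p) / (-a - w)) / D := by field_simp
    _ = (p - p⁻¹) * (2 * a) / ((a - w) * (a + w)) / D := by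
      rw [show -a - w = -(a + w) by ring, div_neg, ← sub_eq_add_neg, div_sub_div _ _ ha1 ha3]
      ring
    _ = (m1 e n : ℂ) := by
      rw [key, hDp]
      field_simp

lemma k1_hasSum {e : ℝ} (he : 0 < e) (t : ℝ) :
    HasSum (fun n => (m1 e n : ℂ) * ee1 n t) (k1 e t : ℂ) := by
  have : Fact ((0 : ℝ) < 1) := ⟨one_pos⟩
  have hp : Function.Periodic (fun s => (k1 e s : ℂ)) 1 := fun s => by simp [k1_periodic e s]
  let F : C(AddCircle (1 : ℝ), ℂ) := ⟨hp.lift, (QuotientAddGroup.isQuotientMap_mk _).continuous_iff.2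
    (Complex.continuous_ofReal.comp (continuous_k1 e))⟩
  have hF : fourierCoeff (F : AddCircle (1 : ℝ) → ℂ) = fun n => (m1 e n : ℂ) := funext fun n => by
    rw [fourierCoeff_eq_intervalIntegral _ n 0, one_div, inv_one, one_smul, zero_add, ← k1_coef he n]
    refine integral_congr fun s _ => ?_
    show fourier (-n) (s : AddCircle (1 : ℝ)) • hp.lift (s : AddCircle (1 : ℝ)) = _
    rw [fourier_coe_apply, Function.Periodic.lift_coe, smul_eq_mul, ee1]
    congr 2
    push_cast
    ring
  have h := has_pointwise_sum_fourier_series_of_summable (f := F)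
    (by rw [hF]; exact Complex.ofRealCLM.summable (summable_m1 he)) (t : AddCircle (1 : ℝ))
  rw [show F (t : AddCircle (1 : ℝ)) = (k1 e t : ℂ) from hp.lift_coe t] at h
  simpa [hF, ee1, fourier_coe_apply] using h

lemma k2_hasSum {e : ℝ} (he : 0 < e) (t : ℝ) :
    HasSum (fun n => ((m1 e n ^ 2 : ℝ) : ℂ) * ee1 n t) (k2 e t : ℂ) := by
  let F : ℤ → ℝ → ℂ := fun n s => ((m1 e n : ℂ) * ee1 n t) * (ee1 (-n) s * (k1 e s : ℂ))
  have hF : ∀ n, Continuous (F n) := fun n =>
    continuous_const.mul ((continuous_ee1 _).mul (Complex.continuous_ofReal.comp (continuous_k1 e)))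
  have h := hasSum_integral_of_dominated_convergence (a := (0 : ℝ)) (b := 1) (μ := volume)
    (F := F) (f := fun s => (k1 e s : ℂ) * (k1 e (t - s) : ℂ)) (fun n s => m1 e n * k1 e s)
    (fun n => (hF n).aestronglyMeasurable)
    (fun n => Eventually.of_forall fun s _ => by
      simp [F, norm_ee1, abs_of_nonneg (k1_nonneg he s), abs_of_pos (m1_pos e n)])
    (Eventually.of_forall fun s _ => (summable_m1 he).mul_right _)
    (by simp only [tsum_mul_right]; exact (continuous_const.mul (continuous_k1 e)).intervalIntegrable _ _)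
    (Eventually.of_forall fun s _ => by
      refine ((k1_hasSum he (t - s)).mul_left (k1 e s : ℂ)).congr_fun fun n => ?_
      simp only [F, ee1_sub]; ring)
  have e1 : (∫ s in (0 : ℝ)..1, (k1 e s : ℂ) * (k1 e (t - s) : ℂ)) = (k2 e t : ℂ) := by
    simp only [← Complex.ofReal_mul]
    exact intervalIntegral.integral_ofReal
  rw [e1] at h
  refine h.congr_fun fun n => ?_
  simp only [F, intervalIntegral.integral_const_mul, k1_coef he n]
  push_cast; ring

lemma summable_m1_sq {e : ℝ} (he : 0 < e) : Summable fun n => m1 e n ^ 2 :=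
  (summable_m1 he).of_nonneg_of_le (fun n => sq_nonneg _) fun n => by
    rw [sq]; exact mul_le_of_le_one_left (m1_pos e n).le (m1_le_one e n)

lemma k2_nonneg {e : ℝ} (he : 0 < e) (t : ℝ) : 0 ≤ k2 e t :=
  integral_nonneg zero_le_one fun s _ => mul_nonneg (k1_nonneg he s) (k1_nonneg he _)

lemma k1_integral {e : ℝ} (he : 0 < e) : ∫ t in (0 : ℝ)..1, k1 e t = 1 := by
  have h := k1_coef he 0
  simp only [ee1, neg_zero, Int.cast_zero, mul_zero, zero_mul, Complex.exp_zero, one_mul] at h
  rw [intervalIntegral.integral_ofReal] at h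
  rw [Complex.ofReal_inj.1 h, m1]
  simp

lemma k1_le {e : ℝ} (he : 0 < e) (he2 : e ≤ 2) (t : ℝ) :
    k1 e t ≤ 3 / e * Real.exp (-tdist t / e) := by
  have hs := sinh_pos_of he
  have hh := tdist_le_half t
  have h1 : Real.cosh ((1 / 2 - tdist t) / e) ≤ Real.exp ((1 / 2 - tdist t) / e) := by
    have hx : 0 ≤ (1 / 2 - tdist t) / e := div_nonneg (by linarith) he.le
    rw [Real.cosh_eq]
    linarith [Real.exp_le_exp.2 (by linarith : -((1 / 2 - tdist t) / e) ≤ (1 / 2 - tdist t) / e)]
  have h2 : Real.exp (1 / (2 * e)) ≤ 6 * Real.sinh (1 / (2 * e)) := by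
    rw [Real.sinh_eq]
    have ha : 1 / 4 ≤ 1 / (2 * e) := by
      rw [div_le_div_iff₀ (by norm_num) (by positivity)]; linarith
    have h3 : Real.exp (-(1 / (2 * e))) * (3 / 2) ≤ Real.exp (1 / (2 * e)) := by
      calc Real.exp (-(1 / (2 * e))) * (3 / 2)
          ≤ Real.exp (-(1 / (2 * e))) * Real.exp (2 * (1 / (2 * e))) := by
            refine mul_le_mul_of_nonneg_left ?_ (Real.exp_pos _).le
            linarith [Real.add_one_le_exp (2 * (1 / (2 * e)))]
        _ = _ := by rw [← Real.exp_add]; ring_nf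
    linarith
  rw [k1, div_le_iff₀ (by positivity)]
  refine h1.trans ?_
  have h4 : Real.exp ((1 / 2 - tdist t) / e) = Real.exp (1 / (2 * e)) * Real.exp (-tdist t / e) := by
    rw [← Real.exp_add]; congr 1; field_simp; ring
  rw [h4]
  calc Real.exp (1 / (2 * e)) * Real.exp (-tdist t / e)
      ≤ 6 * Real.sinh (1 / (2 * e)) * Real.exp (-tdist t / e) :=
        mul_le_mul_of_nonneg_right h2 (Real.exp_pos _).le
    _ = _ := by field_simp; ring

lemma le_k1 {e : ℝ} (he : 0 < e) (t : ℝ) : Real.exp (-tdist t / e) / (2 * e) ≤ k1 e t := by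
  have hs := sinh_pos_of he
  have h1 : Real.exp ((1 / 2 - tdist t) / e) / 2 ≤ Real.cosh ((1 / 2 - tdist t) / e) := by
    rw [Real.cosh_eq]; linarith [Real.exp_pos (-((1 / 2 - tdist t) / e))]
  have h2 : Real.sinh (1 / (2 * e)) ≤ Real.exp (1 / (2 * e)) / 2 := by
    rw [Real.sinh_eq]; linarith [Real.exp_pos (-(1 / (2 * e)))]
  have h4 : Real.exp ((1 / 2 - tdist t) / e) = Real.exp (1 / (2 * e)) * Real.exp (-tdist t / e) := by
    rw [← Real.exp_add]; congr 1; field_simp; ring
  rw [k1, div_le_div_iff₀ (by positivity) (by positivity)]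
  calc Real.exp (-tdist t / e) * (2 * e * Real.sinh (1 / (2 * e)))
      ≤ Real.exp (-tdist t / e) * (2 * e * (Real.exp (1 / (2 * e)) / 2)) :=
        mul_le_mul_of_nonneg_left (mul_le_mul_of_nonneg_left h2 (by positivity)) (Real.exp_pos _).le
    _ = Real.exp ((1 / 2 - tdist t) / e) / 2 * (2 * e) := by rw [h4]; ring
    _ ≤ _ := mul_le_mul_of_nonneg_right h1 (by positivity)

lemma k2_le {e : ℝ} (he : 0 < e) (he2 : e ≤ 2) (t : ℝ) :
    k2 e t ≤ 36 / e * Real.exp (-tdist t / (2 * e)) := by
  have h : ∀ s, k1 e s * k1 e (t - s) ≤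
      (36 / e * Real.exp (-tdist t / (2 * e))) * k1 (2 * e) s := fun s => by
    have hs : tdist t ≤ tdist s + tdist (t - s) := by simpa using tdist_add_le s (t - s)
    have h2 : 0 < 2 * e := by positivity
    calc k1 e s * k1 e (t - s)
        ≤ (3 / e * Real.exp (-tdist s / e)) * (3 / e * Real.exp (-tdist (t - s) / e)) :=
          mul_le_mul (k1_le he he2 s) (k1_le he he2 _) (k1_nonneg he _) (by positivity)
      _ = 9 / e ^ 2 * Real.exp (-(tdist s + tdist (t - s)) / e) := by
          rw [neg_add, add_div, Real.exp_add]; ring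
      _ ≤ 9 / e ^ 2 * Real.exp (-tdist t / (2 * e) + -tdist s / (2 * e)) := by
          refine mul_le_mul_of_nonneg_left (Real.exp_le_exp.2 ?_) (by positivity)
          rw [← add_div, div_le_div_iff₀ he h2]
          nlinarith [tdist_nonneg (t - s)]
      _ = (36 / e * Real.exp (-tdist t / (2 * e))) *
          (Real.exp (-tdist s / (2 * e)) / (2 * (2 * e))) := by
          rw [Real.exp_add]; field_simp; ring
      _ ≤ _ := mul_le_mul_of_nonneg_left (le_k1 h2 s) (by positivity)
  refine (integral_mono_on zero_le_one ?_ ?_ fun s _ => h s).trans_eq ?_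
  · exact ((continuous_k1 e).mul ((continuous_k1 e).comp (by fun_prop))).intervalIntegrable _ _
  · exact (continuous_const.mul (continuous_k1 _)).intervalIntegrable _ _
  · rw [intervalIntegral.integral_const_mul, k1_integral (by positivity), mul_one]

lemma le_k2 {e : ℝ} (he : 0 < e) (he2 : e ≤ 4) (t : ℝ) :
    Real.exp (-tdist t / e) / (24 * e) ≤ k2 e t := by
  have h : ∀ s, (Real.exp (-tdist t / e) / (24 * e)) * k1 (e / 2) s ≤ k1 e s * k1 e (t - s) :=
    fun s => by
    have hs : tdist (t - s) ≤ tdist t + tdist s := by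
      simpa [sub_eq_add_neg, tdist_neg] using tdist_add_le t (-s)
    calc (Real.exp (-tdist t / e) / (24 * e)) * k1 (e / 2) s
        ≤ (Real.exp (-tdist t / e) / (24 * e)) * (3 / (e / 2) * Real.exp (-tdist s / (e / 2))) :=
          mul_le_mul_of_nonneg_left (k1_le (half_pos he) (by linarith) s) (by positivity)
      _ = 1 / (4 * e ^ 2) * Real.exp (-(tdist t + 2 * tdist s) / e) := by
          rw [show -(tdist t + 2 * tdist s) / e = -tdist t / e + -tdist s / (e / 2) by
            field_simp; ring, Real.exp_add]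
          field_simp; ring
      _ ≤ 1 / (4 * e ^ 2) * Real.exp (-tdist s / e + -tdist (t - s) / e) := by
          refine mul_le_mul_of_nonneg_left (Real.exp_le_exp.2 ?_) (by positivity)
          rw [← add_div]
          exact div_le_div_of_nonneg_right (by linarith) he.le
      _ = (Real.exp (-tdist s / e) / (2 * e)) * (Real.exp (-tdist (t - s) / e) / (2 * e)) := by
          rw [Real.exp_add]; field_simp; ring
      _ ≤ _ := mul_le_mul (le_k1 he s) (le_k1 he _) (by positivity) (k1_nonneg he s)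
  refine le_trans (le_of_eq ?_) (integral_mono_on zero_le_one ?_ ?_ fun s _ => h s)
  · rw [intervalIntegral.integral_const_mul, k1_integral (half_pos he), mul_one]
  · exact (continuous_const.mul (continuous_k1 _)).intervalIntegrable _ _
  · exact ((continuous_k1 e).mul ((continuous_k1 e).comp (by fun_prop))).intervalIntegrable _ _

end Vale.Agent.P204.Torus
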