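import Vale.Agent.P204.Torus.Fourier

/-!
P204 on the four-torus: multiplication by smooth fields in coefficients, and commutators with
weights.
-/

open MeasureTheory Set Filter Topology
open scoped BigOperators ComplexConjugate ENNReal

namespace Vale.Agent.P204.Torus

/-! ### Sums -/

lemma cs_tsum {ι : Type*} {a b : ι → ℝ} (ha : ∀ i, 0 ≤ a i) (hb : ∀ i, 0 ≤ b i)
    (hA : Summable fun i => a i ^ 2) (hB : Summable fun i => b i ^ 2) :
    (Summable fun i => a i * b i) ∧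
      ∑' i, a i * b i ≤ Real.sqrt (∑' i, a i ^ 2) * Real.sqrt (∑' i, b i ^ 2) := by
  have h : ∀ s : Finset ι,
      ∑ i ∈ s, a i * b i ≤ Real.sqrt (∑' i, a i ^ 2) * Real.sqrt (∑' i, b i ^ 2) := fun s => by
    refine (Real.sum_mul_le_sqrt_mul_sqrt s a b).trans ?_
    gcongr
    · exact hA.sum_le_tsum s fun i _ => sq_nonneg _
    · exact hB.sum_le_tsum s fun i _ => sq_nonneg _
  exact ⟨summable_of_sum_le (fun i => mul_nonneg (ha i) (hb i)) h,
    Real.tsum_le_of_sum_le (fun i => mul_nonneg (ha i) (hb i)) h⟩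

lemma summable_conv_l2 {a b : Freq → ℝ} (ha : ∀ l, 0 ≤ a l) (hA : Summable a)
    (hB : Summable fun η => b η ^ 2) (ξ : Freq) : Summable fun l => a l * |b (ξ - l)| := by
  refine Summable.of_nonneg_of_le (fun l => mul_nonneg (ha l) (abs_nonneg _)) (fun l => ?_)
    (hA.mul_right (Real.sqrt (∑' η, b η ^ 2)))
  refine mul_le_mul_of_nonneg_left ?_ (ha l)
  exact Real.abs_le_sqrt (hB.le_tsum (ξ - l) fun _ _ => sq_nonneg _)

/-- Young's inequality. -/
lemma young {a b : Freq → ℝ} (ha : ∀ l, 0 ≤ a l) (hA : Summable a)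
    (hB : Summable fun η => b η ^ 2) {T : Freq → ℝ} (h0 : ∀ ξ, 0 ≤ T ξ)
    (hT : ∀ ξ, T ξ ≤ ∑' l, a l * |b (ξ - l)|) :
    (Summable fun ξ => T ξ ^ 2) ∧ ∑' ξ, T ξ ^ 2 ≤ (∑' l, a l) ^ 2 * ∑' η, b η ^ 2 := by
  let e : Freq × Freq ≃ Freq × Freq :=
    { toFun := fun p => (p.2, p.1 - p.2)
      invFun := fun p => (p.1 + p.2, p.1)
      left_inv := fun p => by simp
      right_inv := fun p => by simp }
  have hP : Summable fun p : Freq × Freq => a p.1 * b p.2 ^ 2 :=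
    hA.mul_of_nonneg hB ha fun η => sq_nonneg _
  have hQ : Summable fun p : Freq × Freq => a p.2 * b (p.1 - p.2) ^ 2 := e.summable_iff.2 hP
  have hsum : ∑' ξ, ∑' l, a l * b (ξ - l) ^ 2 = (∑' l, a l) * ∑' η, b η ^ 2 := by
    rw [hA.tsum_mul_tsum hB hP, ← e.tsum_eq (fun p : Freq × Freq => a p.1 * b p.2 ^ 2)]
    exact hQ.tsum_prod.symm
  have hle : ∀ ξ, T ξ ^ 2 ≤ (∑' l, a l) * ∑' l, a l * b (ξ - l) ^ 2 := fun ξ => by
    have hs := hQ.prod_factor ξ
    have h := cs_tsum (a := fun l => Real.sqrt (a l))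
      (b := fun l => Real.sqrt (a l * b (ξ - l) ^ 2)) (fun _ => Real.sqrt_nonneg _)
      (fun _ => Real.sqrt_nonneg _) (hA.congr fun l => (Real.sq_sqrt (ha l)).symm)
      (hs.congr fun l => (Real.sq_sqrt (mul_nonneg (ha l) (sq_nonneg _))).symm)
    have e1 : ∀ l, Real.sqrt (a l) * Real.sqrt (a l * b (ξ - l) ^ 2) = a l * |b (ξ - l)| :=
      fun l => by
        rw [Real.sqrt_mul (ha l), Real.sqrt_sq_eq_abs, ← mul_assoc, Real.mul_self_sqrt (ha l)]
    simp only [e1, fun l => Real.sq_sqrt (ha l),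
      fun l => Real.sq_sqrt (mul_nonneg (ha l) (sq_nonneg (b (ξ - l))))] at h
    refine (pow_le_pow_left₀ (h0 ξ) ((hT ξ).trans h.2) 2).trans_eq ?_
    rw [mul_pow, Real.sq_sqrt (tsum_nonneg ha),
      Real.sq_sqrt (tsum_nonneg fun l => mul_nonneg (ha l) (sq_nonneg _))]
  have hR : Summable fun ξ => (∑' l, a l) * ∑' l, a l * b (ξ - l) ^ 2 :=
    ((hQ.hasSum.prod_fiberwise fun ξ => (hQ.prod_factor ξ).hasSum).summable).mul_left _
  have hS : Summable fun ξ => T ξ ^ 2 := hR.of_nonneg_of_le (fun ξ => sq_nonneg _) hle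
  refine ⟨hS, (hS.tsum_le_tsum hle hR).trans_eq ?_⟩
  rw [tsum_mul_left, hsum]
  ring

/-! ### Coefficients of smooth fields of endomorphisms -/

/-- A coefficient of an entry of `A`. -/
noncomputable def aC (A : V → Form →L[ℝ] Form) (k m : Fin 6) (l : Freq) : ℂ :=
  coefS (fun x => (A x (EuclideanSpace.single m 1) k : ℂ)) l

/-- The size of a coefficient of `A`. -/
noncomputable def amp (A : V → Form →L[ℝ] Form) (l : Freq) : ℝ := ∑ k, ∑ m, ‖aC A k m l‖

lemma amp_nonneg (A : V → Form →L[ℝ] Form) (l : Freq) : 0 ≤ amp A l :=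
  Finset.sum_nonneg fun _ _ => Finset.sum_nonneg fun _ _ => norm_nonneg _

lemma smooth_entry {A : V → Form →L[ℝ] Form} (hA : Smooth A) (k m : Fin 6) :
    Smooth fun x => (A x (EuclideanSpace.single m 1) k : ℂ) :=
  Smooth.coord (f := fun x => A x (EuclideanSpace.single m 1))
    ⟨hA.smooth.clm_apply contDiff_const,
      fun x n => congrArg (fun T : Form →L[ℝ] Form => T (EuclideanSpace.single m 1))
        (hA.periodic x n)⟩ k

lemma summable_amp {A : V → Form →L[ℝ] Form} (hA : Smooth A) (j : ℕ) :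
    Summable fun l => amp A l * wt l ^ j := by
  refine (summable_sum fun k (_ : k ∈ Finset.univ) => summable_sum fun m (_ : m ∈ Finset.univ) =>
    summable_rapidS (smooth_entry hA k m) j).congr fun l => ?_
  rw [mul_comm (amp A l)]
  simp only [amp, aC, Finset.mul_sum]

lemma cmul_apply (A : V → Form →L[ℝ] Form) (c : Freq → CForm) (ξ : Freq) (k : Fin 6) :
    cmul A c ξ k = ∑' l, ∑ m, aC A k m l * c (ξ - l) m := rfl

lemma term_le (A : V → Form →L[ℝ] Form) (k : Fin 6) (l : Freq) (v : CForm) :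
    ‖∑ m, aC A k m l * v m‖ ≤ (∑ m, ‖aC A k m l‖) * ‖v‖ := by
  refine (norm_sum_le _ _).trans ?_
  rw [Finset.sum_mul]
  exact Finset.sum_le_sum fun m _ => by
    rw [norm_mul]; exact mul_le_mul_of_nonneg_left (coord_le v m) (norm_nonneg _)

lemma summable_term {A : V → Form →L[ℝ] Form} {c : Freq → CForm} {ξ : Freq}
    (h : Summable fun l => amp A l * ‖c (ξ - l)‖) (k : Fin 6) :
    Summable fun l => ∑ m, aC A k m l * c (ξ - l) m :=
  Summable.of_norm_bounded h fun l => (term_le A k l _).trans <| mul_le_mul_of_nonneg_right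
    (Finset.single_le_sum (f := fun k => ∑ m, ‖aC A k m l‖)
      (fun _ _ => Finset.sum_nonneg fun _ _ => norm_nonneg _) (Finset.mem_univ k)) (norm_nonneg _)

lemma norm_series_le {A : V → Form →L[ℝ] Form} {v : Freq → CForm}
    (h : Summable fun l => amp A l * ‖v l‖) :
    ‖(WithLp.toLp 2 fun k => ∑' l, ∑ m, aC A k m l * v l m : CForm)‖ ≤
      ∑' l, amp A l * ‖v l‖ := by
  have hk : ∀ k, Summable fun l => (∑ m, ‖aC A k m l‖) * ‖v l‖ := fun k =>
    h.of_nonneg_of_le (fun l => mul_nonneg (Finset.sum_nonneg fun _ _ => norm_nonneg _)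
      (norm_nonneg _)) fun l => mul_le_mul_of_nonneg_right
      (Finset.single_le_sum (f := fun k => ∑ m, ‖aC A k m l‖)
        (fun _ _ => Finset.sum_nonneg fun _ _ => norm_nonneg _) (Finset.mem_univ k)) (norm_nonneg _)
  refine (norm_le_sum_coord _).trans ((Finset.sum_le_sum fun k _ =>
    tsum_of_norm_bounded (hk k).hasSum fun l => term_le A k l (v l)).trans_eq ?_)
  rw [← Summable.tsum_finsetSum fun k _ => hk k]
  simp [amp, Finset.sum_mul]

lemma norm_cmul_le {A : V → Form →L[ℝ] Form} {c : Freq → CForm} {ξ : Freq}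
    (h : Summable fun l => amp A l * ‖c (ξ - l)‖) :
    ‖cmul A c ξ‖ ≤ ∑' l, amp A l * ‖c (ξ - l)‖ :=
  norm_series_le (v := fun l => c (ξ - l)) h

lemma cmul_l2 {A : V → Form →L[ℝ] Form} (hA : Smooth A) {c : Freq → CForm}
    (hc : Summable fun ξ => ‖c ξ‖ ^ 2) :
    (Summable fun ξ => ‖cmul A c ξ‖ ^ 2) ∧
      ∑' ξ, ‖cmul A c ξ‖ ^ 2 ≤ (∑' l, amp A l) ^ 2 * ∑' ξ, ‖c ξ‖ ^ 2 := by
  have h0 : Summable (amp A) := by simpa using summable_amp hA 0
  have hb : ∀ ξ, Summable fun l => amp A l * ‖c (ξ - l)‖ := fun ξ => by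
    simpa using summable_conv_l2 (b := fun η => ‖c η‖) (amp_nonneg A) h0 hc ξ
  exact young (b := fun η => ‖c η‖) (amp_nonneg A) h0 hc (fun _ => norm_nonneg _) fun ξ => by
    simpa using norm_cmul_le (hb ξ)

lemma coefS_mul {a f : V → ℂ} (ha : Smooth a) (hf : Integrable f (volume.restrict cube))
    (ξ : Freq) : coefS (fun x => a x * f x) ξ = ∑' l, coefS a l * coefS f (ξ - l) := by
  have hs : Summable fun l => ‖coefS a l‖ := by simpa using summable_rapidS ha 0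
  have hx : ∀ x, chr (-ξ) x * (a x * f x) = ∑' l, coefS a l * (chr (-(ξ - l)) x * f x) := fun x => by
    rw [← (hasSum_series ha.smooth.continuous ha.periodic hs.of_norm x).tsum_eq, ← tsum_mul_right,
      ← tsum_mul_left]
    refine tsum_congr fun l => ?_
    rw [show -(ξ - l) = -ξ + l by abel, chr_add]
    ring
  rw [coefS]
  simp only [hx]
  rw [← integral_tsum_of_summable_integral_norm]
  · exact tsum_congr fun l => integral_const_mul _ _
  · exact fun l => (integrable_chr_mul hf _).const_mul _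
  · simp only [norm_mul, norm_chr, one_mul, integral_const_mul]
    exact hs.mul_right _

theorem coef_mul {A : V → Form →L[ℝ] Form} (hA : Smooth A) {f : V → Form}
    (hf : MemLp f 2 (volume.restrict cube)) :
    coef (fun x => A x (f x)) = cmul A (coef f) := by
  funext ξ
  ext k
  have hfm : ∀ m, Integrable (fun x => (f x m : ℂ)) (volume.restrict cube) := fun m =>
    (memLp_coord hf m).integrable one_le_two
  have hi : ∀ m, Integrable (fun x => (A x (EuclideanSpace.single m 1) k : ℂ) * (f x m : ℂ))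
      (volume.restrict cube) := fun m => by
    obtain ⟨M, -, hM⟩ := bdd_periodic (smooth_entry hA k m).smooth.continuous
      (smooth_entry hA k m).periodic
    exact (hfm m).bdd_mul (smooth_entry hA k m).smooth.continuous.aestronglyMeasurable
      (Eventually.of_forall hM)
  have hx : ∀ x, (A x (f x) k : ℂ) =
      ∑ m, (A x (EuclideanSpace.single m 1) k : ℂ) * (f x m : ℂ) := fun x => by
    have he : f x = ∑ m, f x m • EuclideanSpace.single m (1 : ℝ) := by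
      simpa using ((EuclideanSpace.basisFun (Fin 6) ℝ).sum_repr (f x)).symm
    conv_lhs => rw [he]
    simp [map_sum, map_smul, mul_comm]
  rw [coef_apply, cmul_apply]
  simp only [hx]
  rw [coefS]
  simp only [Finset.mul_sum]
  rw [integral_finsetSum _ fun m _ => integrable_chr_mul (hi m) (-ξ)]
  have hs : ∀ m, Summable fun l => aC A k m l * coef f (ξ - l) m := fun m => by
    refine Summable.of_norm_bounded (((summable_amp hA 0)).mul_right (∫ x in cube, ‖(f x m : ℂ)‖))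
      fun l => ?_
    rw [norm_mul, pow_zero, mul_one]
    refine mul_le_mul ?_ ((norm_integral_le_integral_norm _).trans_eq (by simp [norm_chr]))
      (norm_nonneg _) (amp_nonneg A l)
    exact le_trans (Finset.single_le_sum (f := fun m => ‖aC A k m l‖) (fun _ _ => norm_nonneg _)
      (Finset.mem_univ m)) (Finset.single_le_sum (f := fun k => ∑ m, ‖aC A k m l‖)
      (fun _ _ => Finset.sum_nonneg fun _ _ => norm_nonneg _) (Finset.mem_univ k))
  rw [Summable.tsum_finsetSum fun m _ => hs m]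
  exact Finset.sum_congr rfl fun m _ => coefS_mul (smooth_entry hA k m) (hfm m) ξ

lemma Smooth.apply {A : V → Form →L[ℝ] Form} (hA : Smooth A) {f : V → Form} (hf : Smooth f) :
    Smooth fun x => A x (f x) :=
  ⟨hA.smooth.clm_apply hf.smooth, fun x n => by simp [hA.periodic x n, hf.periodic x n]⟩

lemma summable_N {f : V → Form} (hf : Smooth f) :
    Summable fun ξ => (wt ξ * ‖coef f ξ‖) ^ 2 := by
  simpa using (coef_rapid hf).summable_sq 1

theorem N_mul_le {A : V → Form →L[ℝ] Form} (hA : Smooth A) :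
    ∃ C, ∀ f, Smooth f → N (fun x => A x (f x)) ≤ C * N f := by
  refine ⟨∑' l, 16 * (amp A l * wt l), fun f hf => ?_⟩
  have ha : ∀ l, 0 ≤ 16 * (amp A l * wt l) := fun l => by
    have := amp_nonneg A l; have := wt_pos l; positivity
  have hA1 : Summable fun l => 16 * (amp A l * wt l) := by
    simpa using (summable_amp hA 1).mul_left 16
  have h0 : Summable (amp A) := by simpa using summable_amp hA 0
  have hc : Summable fun ξ => ‖coef f ξ‖ ^ 2 := (parseval_norm (hf.memLp 2)).summable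
  let b : Freq → ℝ := fun η => wt η * ‖coef f η‖
  have hle : ∀ ξ, wt ξ * ‖coef (fun x => A x (f x)) ξ‖ ≤
      ∑' l, (16 * (amp A l * wt l)) * |b (ξ - l)| := fun ξ => by
    have hs : Summable fun l => amp A l * ‖coef f (ξ - l)‖ := by
      simpa using summable_conv_l2 (b := fun η => ‖coef f η‖) (amp_nonneg A) h0 hc ξ
    rw [coef_mul hA (hf.memLp 2)]
    refine (mul_le_mul_of_nonneg_left (norm_cmul_le hs) (wt_pos ξ).le).trans ?_
    rw [← tsum_mul_left]
    refine (hs.mul_left _).tsum_le_tsum (fun l => ?_) (summable_conv_l2 ha hA1 (summable_N hf) ξ)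
    have h : wt ξ ≤ 16 * (wt l * wt (ξ - l)) := by simpa using wt_add_le l (ξ - l)
    rw [abs_of_nonneg (by have := wt_pos (ξ - l); positivity)]
    calc wt ξ * (amp A l * ‖coef f (ξ - l)‖)
        ≤ (16 * (wt l * wt (ξ - l))) * (amp A l * ‖coef f (ξ - l)‖) :=
          mul_le_mul_of_nonneg_right h (mul_nonneg (amp_nonneg A l) (norm_nonneg _))
      _ = _ := by ring
  obtain ⟨-, h⟩ := young ha hA1 (summable_N hf)
    (fun ξ => mul_nonneg (wt_pos ξ).le (norm_nonneg _)) hle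
  refine (Real.sqrt_le_sqrt h).trans_eq ?_
  rw [Real.sqrt_mul (sq_nonneg _), Real.sqrt_sq (tsum_nonneg ha), N]

theorem N_nonneg (f : V → Form) : 0 ≤ N f := Real.sqrt_nonneg _

theorem norm_le_N : ∃ C, 0 ≤ C ∧ ∀ f, Smooth f → ∀ x, ‖f x‖ ≤ C * N f := by
  refine ⟨Real.sqrt (∑' ξ, (wt ξ)⁻¹ ^ 2), Real.sqrt_nonneg _, fun f hf x => ?_⟩
  have hw : Summable fun ξ => (wt ξ)⁻¹ ^ 2 := by
    simpa [inv_pow] using summable_wt_pow_inv one_le_two
  have h := cs_tsum (fun ξ => inv_nonneg.2 (wt_pos ξ).le)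
    (fun ξ => mul_nonneg (wt_pos ξ).le (norm_nonneg (coef f ξ))) hw (summable_N hf)
  have e : ∀ ξ, (wt ξ)⁻¹ * (wt ξ * ‖coef f ξ‖) = ‖coef f ξ‖ := fun ξ => by
    rw [← mul_assoc, inv_mul_cancel₀ (wt_pos ξ).ne', one_mul]
  simp only [e] at h
  rw [← synth_coef hf.smooth.continuous hf.periodic h.1 x]
  exact (norm_synth_le h.1 x).trans h.2

lemma coef_chr_smul {ξ : Freq} {a : Form} {s : V → ℝ} (u v : ℂ)
    (hs : ∀ x, (s x : ℂ) = u * chr ξ x + v * chr (-ξ) x) (η : Freq) :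
    coef (fun x => s x • a) η =
      (u * (if ξ = η then 1 else 0) + v * (if -ξ = η then 1 else 0)) • cplx a := by
  ext k
  have hi : ∀ (w : ℂ) (ζ : Freq), Integrable (fun x => w * chr ζ x) (volume.restrict cube) :=
    fun w ζ => (integrableOn_cube (continuous_chr ζ)).const_mul _
  simp only [coef_apply, PiLp.smul_apply, smul_eq_mul, Complex.ofReal_mul, cplx_apply, hs,
    mul_comm _ ((a k : ℝ) : ℂ)]
  rw [coefS_const_mul, coefS_add (hi u ξ) (hi v (-ξ)), coefS_const_mul, coefS_const_mul,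
    coefS_chr, coefS_chr]

lemma N_pair_le {ξ : Freq} {a : Form} {s : V → ℝ} (u v : ℂ) (hu : ‖u‖ ≤ 1) (hv : ‖v‖ ≤ 1)
    (hs : ∀ x, (s x : ℂ) = u * chr ξ x + v * chr (-ξ) x) :
    N (fun x => s x • a) ≤ 4 * wt ξ * ‖a‖ := by
  classical
  have hone : ∀ (w : ℂ) (P : Prop) [Decidable P], ‖w‖ ≤ 1 → ‖w * (if P then 1 else 0)‖ ≤ 1 :=
    fun w P _ hw => by split_ifs <;> simp [hw]
  have hb : ∀ η, (wt η * ‖coef (fun x => s x • a) η‖) ^ 2 ≤
      if η ∈ ({ξ, -ξ} : Finset Freq) then (2 * wt ξ * ‖a‖) ^ 2 else 0 := fun η => by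
    rw [coef_chr_smul u v hs, norm_smul, norm_cplx]
    by_cases hη : η ∈ ({ξ, -ξ} : Finset Freq)
    · rw [if_pos hη]
      have hw : wt η = wt ξ := by
        simp at hη
        rcases hη with rfl | rfl <;> simp [wt_neg]
      refine pow_le_pow_left₀ (mul_nonneg (wt_pos η).le (mul_nonneg (norm_nonneg _) (norm_nonneg _))) ?_ 2
      rw [hw, mul_comm 2, mul_assoc]
      exact mul_le_mul_of_nonneg_left (mul_le_mul_of_nonneg_right ((norm_add_le _ _).trans
        ((add_le_add (hone u _ hu) (hone v _ hv)).trans (by norm_num))) (norm_nonneg _)) (wt_pos ξ).le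
    · rw [if_neg hη]
      simp at hη
      simp [Ne.symm hη.1, Ne.symm hη.2]
  have hs' : HasSum (fun η => if η ∈ ({ξ, -ξ} : Finset Freq) then (2 * wt ξ * ‖a‖) ^ 2 else 0)
      (∑ η ∈ ({ξ, -ξ} : Finset Freq), (2 * wt ξ * ‖a‖) ^ 2) := by
    rw [← Finset.sum_congr rfl fun η (hη : η ∈ ({ξ, -ξ} : Finset Freq)) =>
      if_pos (t := (2 * wt ξ * ‖a‖) ^ 2) (e := 0) hη]
    exact hasSum_sum_of_ne_finset_zero fun η hη => if_neg hη
  have hN := (hs'.summable.of_nonneg_of_le (fun η => sq_nonneg _) hb).tsum_le_tsum hb hs'.summable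
  rw [hs'.tsum_eq, Finset.sum_const, nsmul_eq_mul] at hN
  have := wt_pos ξ
  rw [N, Real.sqrt_le_iff]
  refine ⟨by positivity, hN.trans ?_⟩
  have : (({ξ, -ξ} : Finset Freq).card : ℝ) ≤ 2 := by exact_mod_cast Finset.card_le_two
  nlinarith [sq_nonneg (2 * wt ξ * ‖a‖)]

theorem N_chr_le :
    ∃ C, ∀ (ξ : Freq) (a : Form), N (fun x => (chr ξ x).re • a) ≤ C * wt ξ * ‖a‖ ∧
      N (fun x => (chr ξ x).im • a) ≤ C * wt ξ * ‖a‖ := by
  refine ⟨4, fun ξ a => ⟨N_pair_le (1 / 2) (1 / 2) (by norm_num) (by norm_num) fun x => ?_,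
    N_pair_le (-Complex.I / 2) (Complex.I / 2) (by simp; norm_num) (by simp; norm_num) fun x => ?_⟩⟩
  · rw [chr_neg, Complex.re_eq_add_conj]; ring
  · rw [chr_neg]
    apply Complex.ext <;> simp <;> ring

/-! ### Commutators -/

lemma wgt_base_pos (e : ℝ) (ξ : Freq) :
    0 < ∏ i, (1 + 4 * Real.pi ^ 2 * e ^ 2 * (ξ i : ℝ) ^ 2) :=
  Finset.prod_pos fun i _ => by positivity

lemma wgt_pos (e : ℝ) (j : ℤ) (ξ : Freq) : 0 < wgt e j ξ := zpow_pos (wgt_base_pos e ξ) j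

lemma factor_ratio {e : ℝ} (he : 0 < e) (he1 : e ≤ 1) (a d : ℝ) :
    |(1 + 4 * Real.pi ^ 2 * e ^ 2 * (a + d) ^ 2) / (1 + 4 * Real.pi ^ 2 * e ^ 2 * a ^ 2) - 1| ≤
      50 * e * (1 + d ^ 2) := by
  have hp : 0 < 1 + 4 * Real.pi ^ 2 * e ^ 2 * a ^ 2 := by positivity
  rw [div_sub_one hp.ne', abs_div, abs_of_pos hp, div_le_iff₀ hp]
  have hπ : 4 * Real.pi ^ 2 ≤ 50 := by nlinarith [Real.pi_lt_d2, Real.pi_pos]
  set s := 2 * Real.pi * e
  have hs : 0 ≤ s := by positivity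
  have h1 : |s * a| ≤ (1 + 4 * Real.pi ^ 2 * e ^ 2 * a ^ 2) / 2 := by
    rw [abs_le]; constructor <;> nlinarith [sq_nonneg (s * a - 1), sq_nonneg (s * a + 1)]
  have h2 : |1 + 4 * Real.pi ^ 2 * e ^ 2 * (a + d) ^ 2 - (1 + 4 * Real.pi ^ 2 * e ^ 2 * a ^ 2)| ≤
      2 * |s * a| * (s * |d|) + s ^ 2 * d ^ 2 := by
    rw [show 1 + 4 * Real.pi ^ 2 * e ^ 2 * (a + d) ^ 2 - (1 + 4 * Real.pi ^ 2 * e ^ 2 * a ^ 2) =
      2 * (s * a) * (s * d) + s ^ 2 * d ^ 2 by ring]
    refine (abs_add_le _ _).trans_eq ?_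
    simp [abs_mul, abs_of_nonneg hs]
  refine h2.trans ?_
  have h3 : s * |d| ≤ e * (4 * (1 + d ^ 2)) := by
    calc s * |d| = e * (Real.pi * (2 * |d|)) := by simp only [s]; ring
      _ ≤ e * (4 * (1 + d ^ 2)) := mul_le_mul_of_nonneg_left (mul_le_mul Real.pi_lt_four.le
          (by nlinarith [sq_abs d, sq_nonneg (|d| - 1)]) (by positivity) (by norm_num)) he.le
  have h4 : s ^ 2 * d ^ 2 ≤ e * (4 * (1 + d ^ 2)) * 10 := by
    have : e ^ 2 ≤ e := by nlinarith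
    have h40 : 4 * Real.pi ^ 2 ≤ 40 := by nlinarith [Real.pi_lt_d2, Real.pi_pos]
    calc s ^ 2 * d ^ 2 = (4 * Real.pi ^ 2) * e ^ 2 * d ^ 2 := by simp only [s]; ring
      _ ≤ 40 * e * (1 + d ^ 2) := by gcongr; linarith
      _ = _ := by ring
  have h5 : 0 ≤ e * (4 * (1 + d ^ 2)) := by positivity
  have h6 : 0 ≤ 4 * Real.pi ^ 2 * e ^ 2 * a ^ 2 := by positivity
  nlinarith [mul_le_mul h1 h3 (by positivity) (by positivity), mul_nonneg h6 h5]

lemma near_one_mul {e r₁ r₂ C₁ C₂ W₁ W₂ : ℝ} (he : 0 ≤ e) (he1 : e ≤ 1) (hC₁ : 0 ≤ C₁)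
    (hC₂ : 0 ≤ C₂) (hW₁ : 1 ≤ W₁) (hW₂ : 1 ≤ W₂) (h₁ : |r₁ - 1| ≤ C₁ * e * W₁)
    (h₂ : |r₂ - 1| ≤ C₂ * e * W₂) :
    |r₁ * r₂ - 1| ≤ (C₁ * (1 + C₂) + C₂) * e * (W₁ * W₂) := by
  rw [show r₁ * r₂ - 1 = (r₁ - 1) * r₂ + (r₂ - 1) by ring]
  refine (abs_add_le _ _).trans ?_
  rw [abs_mul]
  have h3 : |r₂| ≤ (1 + C₂) * W₂ := by
    have h := abs_sub_abs_le_abs_sub r₂ 1
    rw [abs_one] at h
    nlinarith [mul_le_of_le_one_right (mul_nonneg hC₂ (zero_le_one.trans hW₂)) he1]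
  have h4 := mul_le_mul h₁ h3 (abs_nonneg _) (by positivity)
  have h5 : C₂ * e * W₂ ≤ C₂ * e * (W₁ * W₂) :=
    mul_le_mul_of_nonneg_left (le_mul_of_one_le_left (by linarith) hW₁) (by positivity)
  nlinarith

lemma wgt_ratio (j : ℤ) : ∃ (C : ℝ) (n : ℕ), 0 ≤ C ∧ ∀ e, 0 < e → e ≤ 1 → ∀ ξ l : Freq,
    |wgt e j ξ / wgt e j (ξ - l) - 1| ≤ C * e * wt l ^ n := by
  obtain ⟨K, hK, hbase⟩ : ∃ K, 0 ≤ K ∧ ∀ e, 0 < e → e ≤ 1 → ∀ ξ l : Freq,
      |wgt e 1 ξ / wgt e 1 (ξ - l) - 1| ≤ K * e * wt l := by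
    refine ⟨((50 * (1 + 50) + 50) * (1 + 50) + 50) * (1 + 50) + 50, by norm_num,
      fun e he he1 ξ l => ?_⟩
    have hf : ∀ i, |(1 + 4 * Real.pi ^ 2 * e ^ 2 * (ξ i : ℝ) ^ 2) /
        (1 + 4 * Real.pi ^ 2 * e ^ 2 * ((ξ - l) i : ℝ) ^ 2) - 1| ≤
          50 * e * (1 + (l i : ℝ) ^ 2) := fun i => by
      have := factor_ratio he he1 ((ξ - l) i : ℝ) (l i : ℝ)
      simpa using this
    have h1 : ∀ i, (1 : ℝ) ≤ 1 + (l i : ℝ) ^ 2 := fun i => le_add_of_nonneg_right (sq_nonneg _)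
    simp only [wgt, zpow_one]
    rw [← Finset.prod_div_distrib]
    simp only [wt, Fin.prod_univ_four]
    exact near_one_mul he.le he1 (by norm_num) (by norm_num)
      (one_le_mul_of_one_le_of_one_le (one_le_mul_of_one_le_of_one_le (h1 0) (h1 1)) (h1 2)) (h1 3)
      (near_one_mul he.le he1 (by norm_num) (by norm_num)
        (one_le_mul_of_one_le_of_one_le (h1 0) (h1 1)) (h1 2)
        (near_one_mul he.le he1 (by norm_num) (by norm_num) (h1 0) (h1 1) (hf 0) (hf 1)) (hf 2))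
      (hf 3)
  have hnat : ∀ n : ℕ, ∃ C, 0 ≤ C ∧ ∀ e, 0 < e → e ≤ 1 → ∀ ξ l : Freq,
      |wgt e n ξ / wgt e n (ξ - l) - 1| ≤ C * e * wt l ^ n := fun n => by
    induction n with
    | zero => exact ⟨0, le_rfl, fun e _ _ ξ l => by simp [wgt]⟩
    | succ n ih =>
      obtain ⟨C, hC, hn⟩ := ih
      refine ⟨C * (1 + K) + K, by positivity, fun e he he1 ξ l => ?_⟩
      have := near_one_mul he.le he1 hC hK (one_le_pow₀ (one_le_wt l)) (one_le_wt l)
        (hn e he he1 ξ l) (hbase e he he1 ξ l)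
      rw [pow_succ]
      convert this using 2
      simp only [wgt, zpow_natCast, zpow_one, pow_succ, mul_div_mul_comm]
  rcases Int.eq_nat_or_neg j with ⟨n, rfl | rfl⟩
  · obtain ⟨C, hC, h⟩ := hnat n
    exact ⟨C, n, hC, h⟩
  · obtain ⟨C, hC, h⟩ := hnat n
    refine ⟨C, n, hC, fun e he he1 ξ l => ?_⟩
    have := h e he he1 (ξ - l) (-l)
    rw [wt_neg, sub_neg_eq_add, sub_add_cancel] at this
    simp only [wgt, zpow_neg, zpow_natCast, inv_div_inv] at this ⊢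
    exact this

lemma commutator_eq {A : V → Form →L[ℝ] Form} {c : Freq → CForm} (w : Freq → ℝ) (ξ : Freq)
    (h1 : Summable fun l => amp A l * ‖(w (ξ - l) : ℂ) • c (ξ - l)‖)
    (h2 : Summable fun l => amp A l * ‖c (ξ - l)‖) :
    cmul A (fun l => (w l : ℂ) • c l) ξ - (w ξ : ℂ) • cmul A c ξ =
      WithLp.toLp 2 fun k => ∑' l, ∑ m, aC A k m l *
        (((w (ξ - l) - w ξ : ℝ) : ℂ) • c (ξ - l)) m := by
  ext k
  rw [PiLp.sub_apply, PiLp.smul_apply, cmul_apply, cmul_apply, smul_eq_mul, ← tsum_mul_left,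
    ← Summable.tsum_sub (summable_term (c := fun l => (w l : ℂ) • c l) h1 k) ((summable_term h2 k).mul_left _)]
  refine tsum_congr fun l => ?_
  rw [Finset.mul_sum, ← Finset.sum_sub_distrib]
  refine Finset.sum_congr rfl fun m _ => ?_
  simp only [PiLp.smul_apply, smul_eq_mul, Complex.ofReal_sub]
  ring

theorem cmul_commutator {A : V → Form →L[ℝ] Form} (hA : Smooth A) (j : ℤ) :
    ∃ C, 0 ≤ C ∧ ∀ e, 0 < e → e ≤ 1 → ∀ c : Freq → CForm,
      Summable (fun ξ => ‖(wgt e j ξ : ℂ) • c ξ‖ ^ 2) →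
      Summable (fun ξ => ‖cmul A (fun l => (wgt e j l : ℂ) • c l) ξ -
        (wgt e j ξ : ℂ) • cmul A c ξ‖ ^ 2) ∧
      ∑' ξ, ‖cmul A (fun l => (wgt e j l : ℂ) • c l) ξ - (wgt e j ξ : ℂ) • cmul A c ξ‖ ^ 2 ≤
        (C * e) ^ 2 * ∑' ξ, ‖(wgt e j ξ : ℂ) • c ξ‖ ^ 2 := by
  obtain ⟨C, n, hC, hr⟩ := wgt_ratio j
  refine ⟨C * ∑' l, amp A l * wt l ^ n,
    mul_nonneg hC (tsum_nonneg fun l => mul_nonneg (amp_nonneg A l) (pow_nonneg (wt_pos l).le n)),
    fun e he he1 c hc => ?_⟩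
  set w := wgt e j
  let b : Freq → ℝ := fun η => ‖(w η : ℂ) • c η‖
  have h0 : Summable (amp A) := by simpa using summable_amp hA 0
  have ha : ∀ l, 0 ≤ C * e * (amp A l * wt l ^ n) := fun l => by
    have := wt_pos l; have := amp_nonneg A l; positivity
  have hS : Summable fun l => C * e * (amp A l * wt l ^ n) := (summable_amp hA n).mul_left _
  have hd : ∀ ξ l, ‖((w (ξ - l) - w ξ : ℝ) : ℂ) • c (ξ - l)‖ ≤ C * e * wt l ^ n * |b (ξ - l)| :=
    fun ξ l => by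
    have hw := wgt_pos e j (ξ - l)
    rw [abs_norm, norm_smul, norm_smul, Complex.norm_real, Complex.norm_real, Real.norm_eq_abs,
      Real.norm_eq_abs, abs_of_pos hw, ← mul_assoc]
    refine mul_le_mul_of_nonneg_right ?_ (norm_nonneg _)
    have := hr e he he1 ξ l
    rw [div_sub_one hw.ne', abs_div, abs_of_pos hw, div_le_iff₀ hw] at this
    rwa [abs_sub_comm]
  have hsd : ∀ ξ, Summable fun l => amp A l * ‖((w (ξ - l) - w ξ : ℝ) : ℂ) • c (ξ - l)‖ :=
    fun ξ => (summable_conv_l2 (b := b) ha hS hc ξ).of_nonneg_of_le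
      (fun l => mul_nonneg (amp_nonneg A l) (norm_nonneg _))
      fun l => (mul_le_mul_of_nonneg_left (hd ξ l) (amp_nonneg A l)).trans_eq (by ring)
  have h2 : ∀ ξ, Summable fun l => amp A l * ‖c (ξ - l)‖ := fun ξ => by
    refine (((hsd ξ).add (summable_conv_l2 (b := b) (amp_nonneg A) h0 hc ξ)).div_const
      (w ξ)).of_nonneg_of_le (fun l => mul_nonneg (amp_nonneg A l) (norm_nonneg _)) fun l => ?_
    rw [le_div_iff₀ (wgt_pos e j ξ), ← mul_add, mul_assoc]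
    refine mul_le_mul_of_nonneg_left ?_ (amp_nonneg A l)
    rw [norm_smul, Complex.norm_real, Real.norm_eq_abs,
      show |b (ξ - l)| = |w (ξ - l)| * ‖c (ξ - l)‖ by simp [b, norm_smul, abs_mul], ← add_mul]
    rw [mul_comm]
    refine mul_le_mul_of_nonneg_right ?_ (norm_nonneg _)
    have := le_abs_self (w (ξ - l))
    have := neg_abs_le (w (ξ - l) - w ξ)
    linarith
  have h1 : ∀ ξ, Summable fun l => amp A l * ‖(w (ξ - l) : ℂ) • c (ξ - l)‖ := fun ξ => by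
    simpa [b] using summable_conv_l2 (b := b) (amp_nonneg A) h0 hc ξ
  obtain ⟨hs, hle⟩ := young (b := b) ha hS hc (T := fun ξ =>
      ‖cmul A (fun l => (w l : ℂ) • c l) ξ - (w ξ : ℂ) • cmul A c ξ‖)
    (fun _ => norm_nonneg _) fun ξ => by
    rw [commutator_eq w ξ (h1 ξ) (h2 ξ)]
    exact (norm_series_le (hsd ξ)).trans ((hsd ξ).tsum_le_tsum
      (fun l => (mul_le_mul_of_nonneg_left (hd ξ l) (amp_nonneg A l)).trans_eq (by ring))
      (summable_conv_l2 ha hS hc ξ))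
  refine ⟨hs, hle.trans_eq ?_⟩
  rw [tsum_mul_left]
  ring

lemma tendsto_wgt_slope (ξ : Freq) :
    Tendsto (fun e => (wgt e (-2) ξ - 1) / e) (𝓝[>] (0 : ℝ)) (𝓝 0) := by
  have hd : HasDerivAt (fun e => wgt e (-2) ξ) 0 0 := by
    have hp := HasDerivAt.fun_finsetProd (u := Finset.univ)
      (f := fun i e => 1 + 4 * Real.pi ^ 2 * e ^ 2 * (ξ i : ℝ) ^ 2) (f' := fun _ => (0 : ℝ))
      (x := (0 : ℝ)) fun i _ => by
        simpa using ((((hasDerivAt_id (0 : ℝ)).pow 2).const_mul (4 * Real.pi ^ 2)).mul_const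
          ((ξ i : ℝ) ^ 2)).const_add 1
    have hz := (hasDerivAt_zpow (-2) _ (Or.inl (wgt_base_pos 0 ξ).ne')).comp (0 : ℝ) hp
    simpa [wgt, Function.comp_def] using hz
  have := hd.tendsto_slope_zero_right
  simpa [wgt, div_eq_inv_mul] using this

/-- For square summable coefficients the commutator is `o(e)`. -/
theorem cmul_commutator_small {A : V → Form →L[ℝ] Form} (hA : Smooth A) {c : Freq → CForm}
    (hc : Summable fun ξ => ‖c ξ‖ ^ 2) :
    Tendsto (fun e => (∑' ξ, ‖cmul A (fun l => (wgt e (-2) l : ℂ) • c l) ξ -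
      (wgt e (-2) ξ : ℂ) • cmul A c ξ‖ ^ 2) / e ^ 2) (𝓝[>] (0 : ℝ)) (𝓝 0) := by
  obtain ⟨C, n, hC, hr⟩ := wgt_ratio (-2)
  let b : Freq → ℝ := fun η => ‖c η‖
  have h0 : Summable (amp A) := by simpa using summable_amp hA 0
  have ha : ∀ l, 0 ≤ C * (amp A l * wt l ^ n) := fun l => by
    have := wt_pos l; have := amp_nonneg A l; positivity
  have hS : Summable fun l => C * (amp A l * wt l ^ n) := (summable_amp hA n).mul_left _
  have hw1 : ∀ e η, wgt e (-2) η ≤ 1 := fun e η => zpow_le_one_of_nonpos₀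
    (Finset.one_le_prod fun i _ => le_add_of_nonneg_right (by positivity)) (by norm_num)
  let F : ℝ → Freq → Freq → ℝ := fun e ξ l =>
    amp A l * (|wgt e (-2) (ξ - l) - wgt e (-2) ξ| / e * ‖c (ξ - l)‖)
  let G : Freq → Freq → ℝ := fun ξ l => C * (amp A l * wt l ^ n) * |b (ξ - l)|
  have hGs : ∀ ξ, Summable (G ξ) := fun ξ => summable_conv_l2 ha hS hc ξ
  have hF0 : ∀ e, 0 < e → ∀ ξ l, 0 ≤ F e ξ l := fun e he ξ l =>
    mul_nonneg (amp_nonneg A l) (mul_nonneg (div_nonneg (abs_nonneg _) he.le) (norm_nonneg _))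
  have hFG : ∀ e, 0 < e → e ≤ 1 → ∀ ξ l, F e ξ l ≤ G ξ l := fun e he he1 ξ l => by
    have hw := wgt_pos e (-2) (ξ - l)
    have h := hr e he he1 ξ l
    rw [div_sub_one hw.ne', abs_div, abs_of_pos hw, div_le_iff₀ hw] at h
    have h' : |wgt e (-2) (ξ - l) - wgt e (-2) ξ| ≤ C * e * wt l ^ n := by
      rw [abs_sub_comm]
      exact h.trans (mul_le_of_le_one_right (by have := wt_pos l; positivity) (hw1 e (ξ - l)))
    simp only [F, G, b, abs_norm]
    rw [← mul_assoc]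
    refine mul_le_mul_of_nonneg_right ?_ (norm_nonneg _)
    calc amp A l * (|wgt e (-2) (ξ - l) - wgt e (-2) ξ| / e)
        ≤ amp A l * (C * e * wt l ^ n / e) :=
          mul_le_mul_of_nonneg_left (div_le_div_of_nonneg_right h' he.le) (amp_nonneg A l)
      _ = _ := by field_simp
  have hG2 := young ha hS hc (fun ξ => tsum_nonneg fun l => mul_nonneg (ha l) (abs_nonneg _))
    fun ξ => le_refl (∑' l, G ξ l)
  have hev : ∀ᶠ e in 𝓝[>] (0 : ℝ), 0 < e ∧ e ≤ 1 := by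
    filter_upwards [self_mem_nhdsWithin, nhdsWithin_le_nhds (Iic_mem_nhds one_pos)] with e h1 h2
    exact ⟨h1, h2⟩
  have hpt : ∀ ξ, Tendsto (fun e => ∑' l, F e ξ l) (𝓝[>] (0 : ℝ)) (𝓝 0) := fun ξ => by
    suffices h : Tendsto (fun e => ∑' l, F e ξ l) (𝓝[>] (0 : ℝ)) (𝓝 (∑' _ : Freq, (0 : ℝ))) by
      simpa using h
    refine tendsto_tsum_of_dominated_convergence (hGs ξ) (fun l => ?_) ?_
    · have h := ((tendsto_wgt_slope (ξ - l)).sub (tendsto_wgt_slope ξ)).abs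
      simp only [sub_zero, abs_zero] at h
      have h' := (h.mul_const ‖c (ξ - l)‖).const_mul (amp A l)
      simp only [zero_mul, mul_zero] at h'
      refine h'.congr' ?_
      filter_upwards [hev] with e he
      simp only [F, ← sub_div, sub_sub_sub_cancel_right, abs_div, abs_of_pos he.1]
    · filter_upwards [hev] with e he l
      rw [Real.norm_of_nonneg (hF0 e he.1 ξ l)]
      exact hFG e he.1 he.2 ξ l
  have hout : Tendsto (fun e => ∑' ξ, (∑' l, F e ξ l) ^ 2) (𝓝[>] (0 : ℝ)) (𝓝 0) := by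
    suffices h : Tendsto (fun e => ∑' ξ, (∑' l, F e ξ l) ^ 2) (𝓝[>] (0 : ℝ))
        (𝓝 (∑' _ : Freq, (0 : ℝ))) by simpa using h
    refine tendsto_tsum_of_dominated_convergence hG2.1
      (fun ξ => by simpa using (hpt ξ).pow 2) ?_
    filter_upwards [hev] with e he ξ
    rw [Real.norm_of_nonneg (sq_nonneg _)]
    exact pow_le_pow_left₀ (tsum_nonneg (hF0 e he.1 ξ))
      (((hGs ξ).of_nonneg_of_le (hF0 e he.1 ξ) (hFG e he.1 he.2 ξ)).tsum_le_tsum
        (hFG e he.1 he.2 ξ) (hGs ξ)) 2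
  refine squeeze_zero' ?_ ?_ hout
  · filter_upwards with e
    exact div_nonneg (tsum_nonneg fun _ => sq_nonneg _) (sq_nonneg e)
  filter_upwards [hev] with e he
  rw [← tsum_div_const]
  have h2 : ∀ ξ, Summable fun l => amp A l * ‖c (ξ - l)‖ := fun ξ => by
    simpa [b] using summable_conv_l2 (b := b) (amp_nonneg A) h0 hc ξ
  have h1 : ∀ ξ, Summable fun l => amp A l * ‖(wgt e (-2) (ξ - l) : ℂ) • c (ξ - l)‖ := fun ξ =>
    (h2 ξ).of_nonneg_of_le (fun l => mul_nonneg (amp_nonneg A l) (norm_nonneg _)) fun l => by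
      refine mul_le_mul_of_nonneg_left ?_ (amp_nonneg A l)
      rw [norm_smul, Complex.norm_real, Real.norm_of_nonneg (wgt_pos e _ _).le]
      exact mul_le_of_le_one_left (norm_nonneg _) (hw1 _ _)
  have hFs : ∀ ξ, Summable (F e ξ) := fun ξ =>
    (hGs ξ).of_nonneg_of_le (hF0 e he.1 ξ) (hFG e he.1 he.2 ξ)
  have hb : ∀ ξ, ‖cmul A (fun l => (wgt e (-2) l : ℂ) • c l) ξ -
      (wgt e (-2) ξ : ℂ) • cmul A c ξ‖ ^ 2 / e ^ 2 ≤ (∑' l, F e ξ l) ^ 2 := fun ξ => by
    rw [← div_pow, commutator_eq _ ξ (h1 ξ) (h2 ξ)]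
    refine pow_le_pow_left₀ (div_nonneg (norm_nonneg _) he.1.le) ?_ 2
    rw [div_le_iff₀ he.1, ← tsum_mul_right]
    have e1 : ∀ l, F e ξ l * e = amp A l *
        ‖((wgt e (-2) (ξ - l) - wgt e (-2) ξ : ℝ) : ℂ) • c (ξ - l)‖ := fun l => by
      have := he.1.ne'
      simp only [F, norm_smul, Complex.norm_real, Real.norm_eq_abs]
      field_simp
    rw [tsum_congr e1]
    exact norm_series_le (((hFs ξ).mul_right e).congr e1)
  have hR : Summable fun ξ => (∑' l, F e ξ l) ^ 2 :=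
    hG2.1.of_nonneg_of_le (fun ξ => sq_nonneg _) fun ξ =>
      pow_le_pow_left₀ (tsum_nonneg (hF0 e he.1 ξ))
        ((hFs ξ).tsum_le_tsum (hFG e he.1 he.2 ξ) (hGs ξ)) 2
  exact (hR.of_nonneg_of_le (fun ξ => div_nonneg (sq_nonneg _) (sq_nonneg _)) hb).tsum_le_tsum
    hb hR

end Vale.Agent.P204.Torus
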