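import Vale.Agent.P204.Torus.UCoef

/-!
P204 on the four-torus: the exact current extending a separating positive current, and its square
integrable limit.
-/

open MeasureTheory Filter Topology Set
open scoped BigOperators ComplexConjugate ENNReal

namespace Vale.Agent.P204.Torus

lemma sqrt_SQ_coef {f : V → Form} (hf : MemLp f 2 (volume.restrict cube)) :
    Real.sqrt (SQ (coef f)) = l2 f := by rw [SQ_coef hf, l2]

lemma coef_sub {f g : V → Form} (hf : MemLp f 2 (volume.restrict cube))
    (hg : MemLp g 2 (volume.restrict cube)) :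
    coef (fun x => f x - g x) = coef f - coef g := by
  have e : (fun x => f x - g x) = fun x => f x + (-1 : ℝ) • g x := by
    funext x; rw [neg_one_smul, sub_eq_add_neg]
  rw [e, coef_add (g := fun x => (-1 : ℝ) • g x) hf (hg.const_smul (-1 : ℝ)), coef_smul]
  simp [sub_eq_add_neg]

lemma abs_integral_q_le {f g : V → Form} (hf : MemLp f 2 (volume.restrict cube))
    (hg : MemLp g 2 (volume.restrict cube)) :
    |∫ x in cube, q (f x) (g x)| ≤ 6 * (l2 f * l2 g) := by
  rw [← PQ_coef hf hg, ← sqrt_SQ_coef hf, ← sqrt_SQ_coef hg]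
  exact abs_PQ_le (parseval_norm hf).summable (parseval_norm hg).summable

lemma integrable_q_L2 {f g : V → Form} (hf : MemLp f 2 (volume.restrict cube))
    (hg : MemLp g 2 (volume.restrict cube)) :
    Integrable (fun x => q (f x) (g x)) (volume.restrict cube) := by
  refine Integrable.mono' ((hf.norm.integrable_mul hg.norm).const_mul 6) ?_
    (Eventually.of_forall fun x => abs_q_le (f x) (g x))
  exact (Setup.continuous_q continuous_fst continuous_snd).comp_aestronglyMeasurable (hf.1.prodMk hg.1)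

lemma tendsto_weighted {a : Freq → ℝ} {b : Freq → ℝ} (hb : Summable b) (hab : ∀ ξ, |a ξ| ≤ b ξ) :
    Tendsto (fun e => ∑' ξ, wgt e (-2) ξ * a ξ) (𝓝[>] (0 : ℝ)) (𝓝 (∑' ξ, a ξ)) :=
  tendsto_tsum_of_dominated_convergence hb
    (fun ξ => by simpa using (tendsto_wgt_one ξ).mul_const (a ξ))
    (Eventually.of_forall fun e ξ => by
      rw [norm_mul, Real.norm_of_nonneg (wgt_pos e _ ξ).le]
      exact (mul_le_of_le_one_left (norm_nonneg _) (wgt_le_one e ξ)).trans (hab ξ))

/-- A pairing with an `L²` field is small on bounded sequences tending to zero in `L¹`. -/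
lemma small_pairing {f : V → Form} (hfm : Measurable f) (hf : MemLp f 2 (volume.restrict cube))
    (C : ℝ) {δ : ℝ} (hδ : 0 < δ) :
    ∃ η > 0, ∀ w : V → Form, MemLp w 2 (volume.restrict cube) → l2 w ≤ C → l1 w ≤ η →
      |∫ x in cube, q (f x) (w x)| ≤ δ := by
  let tail : ℕ → V → Form := fun M x => if (M : ℝ) < ‖f x‖ then f x else 0
  have htm : ∀ M, Measurable (tail M) := fun M =>
    Measurable.ite (measurableSet_lt measurable_const hfm.norm) hfm measurable_const
  have htle : ∀ M x, ‖tail M x‖ ≤ ‖f x‖ := fun M x => by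
    simp only [tail]; split_ifs <;> simp
  have htL : ∀ M, MemLp (tail M) 2 (volume.restrict cube) := fun M =>
    hf.of_le (htm M).aestronglyMeasurable (Eventually.of_forall (htle M))
  have hlim : Tendsto (fun M => l2 (tail M)) atTop (𝓝 0) := by
    have h : Tendsto (fun M : ℕ => ∫ x in cube, ‖tail M x‖ ^ 2) atTop
        (𝓝 (∫ _x in cube, (0 : ℝ))) := by
      refine tendsto_integral_of_dominated_convergence (fun x => ‖f x‖ ^ 2)
        (fun M => ((htm M).norm.pow_const 2).aestronglyMeasurable) hf.norm.integrable_sq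
        (fun M => Eventually.of_forall fun x => ?_) (Eventually.of_forall fun x => ?_)
      · rw [Real.norm_of_nonneg (sq_nonneg _)]
        exact pow_le_pow_left₀ (norm_nonneg _) (htle M x) 2
      · refine tendsto_const_nhds.congr' ?_
        filter_upwards [eventually_ge_atTop ⌈‖f x‖⌉₊] with M hM
        have : ¬ ((M : ℝ) < ‖f x‖) := not_lt.2 (Nat.ceil_le.1 hM)
        simp [tail, this]
    simpa [l2] using h.sqrt
  set C' := max C 0 + 1
  have hC' : 0 < C' := by positivity
  obtain ⟨M, hM⟩ := ((tendsto_order.1 hlim).2 (δ / (12 * C')) (by positivity)).exists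
  refine ⟨δ / (12 * (M + 1)), by positivity, fun w hw hC hl => ?_⟩
  have hsplit : ∀ x, |q (f x) (w x)| ≤ |q (tail M x) (w x)| + 6 * M * ‖w x‖ := fun x => by
    simp only [tail]
    split_ifs with h
    · exact le_add_of_nonneg_right (by positivity)
    · rw [q_zero_left, abs_zero, zero_add]
      refine (abs_q_le _ _).trans ?_
      rw [mul_assoc]
      gcongr
      exact not_lt.1 h
  have hi := integrable_q_L2 (htL M) hw
  have hw1 : Integrable (fun x => ‖w x‖) (volume.restrict cube) := (hw.integrable one_le_two).norm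
  have hmid : ∫ x in cube, |q (tail M x) (w x)| ≤ 6 * (l2 (tail M) * l2 w) := by
    have hn := (htL M).norm.integrable_mul hw.norm
    calc ∫ x in cube, |q (tail M x) (w x)| ≤ ∫ x in cube, 6 * (‖tail M x‖ * ‖w x‖) :=
          integral_mono hi.abs (hn.const_mul 6) fun x => abs_q_le _ _
      _ = 6 * ∫ x in cube, ‖tail M x‖ * ‖w x‖ := integral_const_mul _ _
      _ ≤ 6 * (l2 (tail M) * l2 w) := by
        refine mul_le_mul_of_nonneg_left ?_ (by norm_num)
        have := integral_mul_norm_le_Lp_mul_Lq (μ := volume.restrict cube)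
          (f := fun x => ‖tail M x‖) (g := fun x => ‖w x‖)
          Real.HolderConjugate.two_two (by simpa using (htL M).norm) (by simpa using hw.norm)
        simpa [l2, Real.sqrt_eq_rpow] using this
  have hl2 : 0 ≤ l2 (tail M) := Real.sqrt_nonneg _
  have hw2 : 0 ≤ l2 w := Real.sqrt_nonneg _
  calc |∫ x in cube, q (f x) (w x)| ≤ ∫ x in cube, |q (f x) (w x)| := abs_integral_le_integral_abs
    _ ≤ ∫ x in cube, (|q (tail M x) (w x)| + 6 * M * ‖w x‖) :=
        integral_mono (integrable_q_L2 hf hw).abs (hi.abs.fun_add (hw1.const_mul _)) hsplit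
    _ = (∫ x in cube, |q (tail M x) (w x)|) + 6 * M * l1 w := by
        rw [integral_add hi.abs (hw1.const_mul _), integral_const_mul, l1]
    _ ≤ 6 * (δ / (12 * C') * C') + 6 * M * (δ / (12 * (M + 1))) :=
        add_le_add (hmid.trans (mul_le_mul_of_nonneg_left (mul_le_mul hM.le
          (hC.trans ((le_max_left C 0).trans (by simp [C']))) hw2 (by positivity)) (by norm_num)))
          (mul_le_mul_of_nonneg_left hl (by positivity))
    _ ≤ δ := by
        have h1 : 6 * (δ / (12 * C') * C') = δ / 2 := by field_simp; ring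
        have h2 : 6 * (M : ℝ) * (δ / (12 * (M + 1))) ≤ δ / 2 := by
          rw [mul_div_assoc', div_le_div_iff₀ (by positivity) two_pos]
          nlinarith
        linarith

namespace Current

variable {S : Setup} (T : Current S)

/-- The exact current, with its coefficients. -/
lemma exists_exact (hT : T.Separating) : ∃ (U : (V → Form) → ℝ) (u : Freq → CForm) (C : ℝ),
    (∀ α β, Smooth α → Smooth β → U (fun x => α x + β x) = U α + U β) ∧
    (∀ (a : ℝ) α, Smooth α → U (fun x => a • α x) = a * U α) ∧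
    (∀ α, Smooth α → (∀ x, piM (S.J x) (α x) = 0) → U α = T.app α) ∧
    (∀ α, Smooth α → Closed α → U α = 0) ∧
    0 ≤ C ∧ Herm u ∧ (∀ ξ, ‖u ξ‖ ≤ C * wt ξ) ∧
    (∀ α, Smooth α → HasSum (fun ξ => (qC (u ξ) (cconj (coef α ξ))).re) (U α)) ∧
    u 0 = 0 ∧ (∀ ξ, qC (u ξ) (cconj (u ξ)) = 0) ∧
    ∀ ξ, ∃ c : Fin 4 → ℂ, ∀ k, u ξ k = (ξ (fi k) : ℂ) * c (se k) - (ξ (se k) : ℂ) * c (fi k) := by
  have := T.finite
  obtain ⟨G, CG, hCG, hG⟩ := S.exists_G
  obtain ⟨M, hM, hb⟩ := T.exists_h_bound
  obtain ⟨C₀, hC₀, hsup⟩ := norm_le_N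
  let U : (V → Form) → ℝ := fun α => T.app fun x => α x - G α x
  have hsub : ∀ α, Smooth α → Smooth fun x => α x - G α x := fun α hα =>
    smooth_sub hα (hG α hα).1
  have hadd : ∀ α β, Smooth α → Smooth β → U (fun x => α x + β x) = U α + U β := fun α β hα hβ => by
    simp only [U]
    rw [← T.app_add (hsub α hα) (hsub β hβ)]
    congr 1
    funext x
    rw [(hG α hα).2.2.2.2.2.1 β hβ x]
    abel
  have hsmul : ∀ (a : ℝ) α, Smooth α → U (fun x => a • α x) = a * U α := fun a α hα => by
    simp only [U]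
    rw [← T.app_smul]
    congr 1
    funext x
    rw [(hG α hα).2.2.2.2.2.2 a x, smul_sub]
  have hinv : ∀ α, Smooth α → (∀ x, piM (S.J x) (α x) = 0) → U α = T.app α := fun α hα h => by
    simp only [U]
    congr 1
    funext x
    rw [(hG α hα).2.2.2.2.1 h x, sub_zero]
  have hclosed : ∀ α, Smooth α → Closed α → U α = 0 := fun α hα hc => by
    refine hT.annihilates _ ⟨hsub α hα, closed_sub hα (hG α hα).1 hc (hG α hα).2.1, fun x => ?_⟩
    rw [piM_sub, (hG α hα).2.2.1 x, sub_self]
  have hbd : ∀ α, Smooth α → |U α| ≤ (6 * M * (C₀ + CG) * T.ν.real univ) * N α := fun α hα => by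
    have h := norm_integral_le_of_norm_le_const (μ := T.ν)
      (f := fun y => q (T.h y) (α y - G α y)) (C := 6 * M * ((C₀ + CG) * N α))
      (Eventually.of_forall fun y => by
        refine (abs_q_le _ _).trans ?_
        rw [mul_assoc]
        gcongr
        · exact hb y
        · refine (norm_sub_le _ _).trans ?_
          rw [add_mul]
          exact add_le_add (hsup α hα y) ((hG α hα).2.2.2.1 y))
    exact h.trans_eq (by ring)
  obtain ⟨u, C, hh, hu, hsum, hex⟩ := functional_coef (U := U)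
    (by positivity) hadd hsmul hbd
  obtain ⟨h0, hnull, hform⟩ := hex hclosed
  refine ⟨U, u, C, hadd, hsmul, hinv, hclosed, ?_, hh, hu, hsum, h0, hnull, hform⟩
  exact nonneg_of_mul_nonneg_left ((norm_nonneg _).trans (hu 0)) (wt_pos 0)

lemma mc_herm : Herm T.mc := fun ξ => by
  ext k
  simp only [mc, cconj_apply, ← integral_conj, map_mul, Complex.conj_ofReal, chr_neg,
    Complex.conj_conj]

lemma norm_mc_le' : ∃ M, 0 ≤ M ∧ ∀ ξ, ‖T.mc ξ‖ ≤ M * wt ξ := by
  obtain ⟨M, hM, h⟩ := T.norm_mc_le
  exact ⟨M, hM, fun ξ => (h ξ).trans (le_mul_of_one_le_right hM (one_le_wt ξ))⟩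

end Current

/-- Coefficients annihilated by pairing with invariant forms are anti-invariant. -/
lemma cmul_PPf_eq_zero (S : Setup) {s : Freq → CForm} {K : ℝ} (hs : ∀ ξ, ‖s ξ‖ ≤ K * wt ξ)
    (hz : ∀ β, Smooth β → ∑' ξ, (qC (s ξ) (cconj (coef (fun x => S.PPf x (β x)) ξ))).re = 0)
    {F : ℝ → V → Form} (hF : ∀ e, 0 < e → MemLp (F e) 2 (volume.restrict cube))
    (hFc : ∀ e, 0 < e → coef (F e) = fun ξ => (wgt e (-2) ξ : ℂ) • s ξ) :
    cmul S.PPf s = 0 := by
  funext ξ
  have hA := S.smooth_PPf
  have hsum : Summable fun l => amp S.PPf l * ‖s (ξ - l)‖ := by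
    refine ((summable_amp hA 1).mul_left (16 * |K| * wt ξ)).of_nonneg_of_le
      (fun l => mul_nonneg (amp_nonneg _ l) (norm_nonneg _)) fun l => ?_
    have hw : wt (ξ - l) ≤ 16 * (wt ξ * wt l) := by
      simpa [sub_eq_add_neg, wt_neg] using wt_add_le ξ (-l)
    calc amp S.PPf l * ‖s (ξ - l)‖ ≤ amp S.PPf l * (|K| * (16 * (wt ξ * wt l))) := by
          refine mul_le_mul_of_nonneg_left ((hs _).trans ?_) (amp_nonneg _ l)
          exact (mul_le_mul_of_nonneg_right (le_abs_self K) (wt_pos _).le).trans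
            (mul_le_mul_of_nonneg_left hw (abs_nonneg K))
      _ = _ := by ring
  ext k
  have hL : Tendsto (fun e => cmul S.PPf (fun η => (wgt e (-2) η : ℂ) • s η) ξ k) (𝓝[>] (0 : ℝ))
      (𝓝 (cmul S.PPf s ξ k)) := by
    simp only [cmul_apply]
    refine tendsto_tsum_of_dominated_convergence hsum (fun l => ?_)
      (Eventually.of_forall fun e l => ?_)
    · refine tendsto_finsetSum _ fun m _ => Tendsto.const_mul _ ?_
      have := ((Complex.continuous_ofReal.tendsto 1).comp (tendsto_wgt_one (ξ - l))).mul_const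
        (s (ξ - l) m)
      simpa using this
    · refine (term_le S.PPf k l _).trans (mul_le_mul ?_ ?_ (norm_nonneg _) (amp_nonneg _ l))
      · exact Finset.single_le_sum (f := fun k => ∑ m, ‖aC S.PPf k m l‖)
          (fun _ _ => Finset.sum_nonneg fun _ _ => norm_nonneg _) (Finset.mem_univ k)
      · rw [norm_smul, Complex.norm_real, Real.norm_of_nonneg (wgt_pos e _ _).le]
        exact mul_le_of_le_one_left (norm_nonneg _) (wgt_le_one e _)
  have hpair : ∀ β, Smooth β → Tendsto (fun e => ∫ x in cube, q (S.PPf x (F e x)) (β x))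
      (𝓝[>] (0 : ℝ)) (𝓝 0) := fun β hβ => by
    set β' := fun x => S.PPf x (β x)
    have hβ' : Smooth β' := hA.apply hβ
    have h := tendsto_weighted (a := fun η => (qC (s η) (cconj (coef β' η))).re)
      ((coef_rapid hβ' 1).mul_left (6 * K)) fun η => by
        refine (abs_qC_le _ _).trans ((mul_le_mul_of_nonneg_left
          (mul_le_mul_of_nonneg_right (hs η) (norm_nonneg _)) (by norm_num)).trans_eq ?_)
        ring
    rw [hz β hβ] at h
    refine h.congr' ?_
    filter_upwards [self_mem_nhdsWithin] with e he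
    have hq : ∫ x in cube, q (S.PPf x (F e x)) (β x) = ∫ x in cube, q (F e x) (β' x) := by
      simp only [β', Setup.PPf_apply, S.q_piP_left]
    rw [hq, ← PQ_coef (hF e he) (hβ'.memLp 2), PQ, hFc e he]
    exact tsum_congr fun η => (qC_smul_cconj _ _ _).symm
  have hint : ∀ e, 0 < e → Integrable (fun x => chr (-ξ) x * (S.PPf x (F e x) k : ℂ))
      (volume.restrict cube) := fun e he =>
    integrable_chr_mul ((memLp_coord (memLp_apply hA (hF e he)) k).integrable one_le_two) _
  have hre : ∀ e, 0 < e → (cmul S.PPf (fun η => (wgt e (-2) η : ℂ) • s η) ξ k).re =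
      ∫ x in cube, q (S.PPf x (F e x)) ((chr ξ x).re • EuclideanSpace.single (sw k) 1) := fun e he => by
    rw [← hFc e he, ← coef_mul hA (hF e he), coef_apply, coefS]
    refine ((integral_re (𝕜 := ℂ) (hint e he)).symm.trans ?_)
    refine integral_congr_ae (Eventually.of_forall fun x => ?_)
    show (chr (-ξ) x * _).re = _
    simp only [q_eq_sum]
    simp [chr_neg, sw_sw, mul_comm]
  have him : ∀ e, 0 < e → (cmul S.PPf (fun η => (wgt e (-2) η : ℂ) • s η) ξ k).im =
      -∫ x in cube, q (S.PPf x (F e x)) ((chr ξ x).im • EuclideanSpace.single (sw k) 1) := fun e he => by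
    rw [← hFc e he, ← coef_mul hA (hF e he), coef_apply, coefS, ← integral_neg]
    refine ((integral_im (𝕜 := ℂ) (hint e he)).symm.trans ?_)
    refine integral_congr_ae (Eventually.of_forall fun x => ?_)
    show (chr (-ξ) x * _).im = _
    simp only [q_eq_sum]
    simp [chr_neg, sw_sw, mul_comm]
  have h1 := hpair _ (smooth_re_chr ξ (EuclideanSpace.single (sw k) 1))
  have h2 := (hpair _ (smooth_im_chr ξ (EuclideanSpace.single (sw k) 1))).neg
  rw [neg_zero] at h2
  refine Complex.ext ?_ ?_
  · refine tendsto_nhds_unique ((Complex.continuous_re.tendsto _).comp hL) (h1.congr' ?_)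
    filter_upwards [self_mem_nhdsWithin] with e he using (hre e he).symm
  · refine tendsto_nhds_unique ((Complex.continuous_im.tendsto _).comp hL) (h2.congr' ?_)
    filter_upwards [self_mem_nhdsWithin] with e he using (him e he).symm

namespace UData

variable {S : Setup} {T : Current S} (D : UData T)

lemma slimit_of_coef {s : Freq → CForm} (hh : Herm s)
    (hSf : ∀ α, Smooth α → HasSum (fun ξ => (qC (s ξ) (cconj (coef α ξ))).re) (D.Sf α))
    (hzero : cmul S.PPf s = 0)
    (hL : ∀ e, 0 < e → MemLp (D.Se e) 2 (volume.restrict cube))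
    (hcoef : ∀ e, 0 < e → coef (D.Se e) = fun ξ => (wgt e (-2) ξ : ℂ) • s ξ) (hb : D.Bounded) :
    Nonempty D.SLimit := by
  obtain ⟨C, ε₀, hε₀, hbd⟩ := hb
  have hev : ∀ᶠ e in 𝓝[>] (0 : ℝ), 0 < e ∧ e ≤ ε₀ := by
    filter_upwards [self_mem_nhdsWithin, nhdsWithin_le_nhds (Iic_mem_nhds hε₀)] with e h1 h2
    exact ⟨h1, h2⟩
  have hC : 0 ≤ C := (Real.sqrt_nonneg _).trans (hbd ε₀ hε₀ le_rfl)
  have hfin : ∀ A : Finset Freq, ∑ ξ ∈ A, ‖s ξ‖ ^ 2 ≤ C ^ 2 := fun A => by
    have ht : Tendsto (fun e => ∑ ξ ∈ A, ‖(wgt e (-2) ξ : ℂ) • s ξ‖ ^ 2) (𝓝[>] (0 : ℝ))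
        (𝓝 (∑ ξ ∈ A, ‖s ξ‖ ^ 2)) := tendsto_finsetSum _ fun ξ _ => by
      have := (((Complex.continuous_ofReal.tendsto 1).comp (tendsto_wgt_one ξ)).smul_const
        (s ξ)).norm.pow 2
      simpa using this
    refine le_of_tendsto ht ?_
    filter_upwards [hev] with e he
    have hs := parseval_norm (hL e he.1)
    rw [hcoef e he.1] at hs
    refine ((hs.summable.sum_le_tsum A fun _ _ => sq_nonneg _).trans ?_)
    rw [hs.tsum_eq, ← Real.sq_sqrt (show 0 ≤ ∫ x in cube, ‖D.Se e x‖ ^ 2 from
      integral_nonneg fun _ => sq_nonneg _)]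
    exact pow_le_pow_left₀ (Real.sqrt_nonneg _) (hbd e he.1 he.2) 2
  have hs2 : Summable fun ξ => ‖s ξ‖ ^ 2 := summable_of_sum_le (fun _ => sq_nonneg _) hfin
  obtain ⟨f, hfm, -, hf, hfc⟩ := exists_L2 hs2 hh
  have hPf : MemLp (fun x => S.PPf x (f x)) 2 (volume.restrict cube) := memLp_apply S.smooth_PPf hf
  have hPz : ∀ᵐ x ∂volume.restrict cube, piP (S.J x) (f x) = 0 := by
    have h := parseval_norm hPf
    rw [coef_mul S.smooth_PPf hf, hfc, hzero] at h
    have h0 : ∫ x in cube, ‖S.PPf x (f x)‖ ^ 2 = 0 := by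
      have := h.tsum_eq
      simpa using this.symm
    filter_upwards [(integral_eq_zero_iff_of_nonneg (fun x => sq_nonneg _) hPf.norm.integrable_sq).1 h0]
      with x hx
    simpa [Setup.PPf_apply] using hx
  have hPQ : ∀ w : V → Form, MemLp w 2 (volume.restrict cube) →
      PQ s (coef w) = ∫ x in cube, q (f x) (w x) := fun w hw => by rw [← PQ_coef hf hw, hfc]
  have hSfi : ∀ α, Smooth α → D.Sf α = ∫ x in cube, q (f x) (α x) := fun α hα => by
    rw [← (hSf α hα).tsum_eq, ← hPQ α (hα.memLp 2), PQ]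
  obtain ⟨c, hc, hq⟩ := S.exists_q_anti
  have hσ : c * SQ s ≤ PQ s s := by
    conv_lhs => rw [← hfc, SQ_coef hf, ← integral_const_mul]
    conv_rhs => rw [← hfc, PQ_coef hf hf]
    refine integral_mono_ae (hf.norm.integrable_sq.const_mul _) (integrable_q_L2 hf hf) ?_
    filter_upwards [hPz] with x hx
    exact hq x _ hx
  have hdiff : Tendsto (fun e => l2 (fun x => D.Se e x - f x)) (𝓝[>] (0 : ℝ)) (𝓝 0) := by
    have h : Tendsto (fun e => ∑' ξ, ‖(wgt e (-2) ξ : ℂ) • s ξ - s ξ‖ ^ 2) (𝓝[>] (0 : ℝ))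
        (𝓝 (∑' _ξ : Freq, (0 : ℝ))) := by
      refine tendsto_tsum_of_dominated_convergence (hs2.mul_left 4) (fun ξ => ?_)
        (Eventually.of_forall fun e ξ => ?_)
      · have := ((((Complex.continuous_ofReal.tendsto 1).comp (tendsto_wgt_one ξ)).smul_const
          (s ξ)).sub_const (s ξ)).norm.pow 2
        simpa using this
      · rw [Real.norm_of_nonneg (sq_nonneg _)]
        refine (pow_le_pow_left₀ (norm_nonneg _) ((norm_sub_le _ _).trans (add_le_add ?_ le_rfl)) 2).trans_eq
          (show (‖s ξ‖ + ‖s ξ‖) ^ 2 = 4 * ‖s ξ‖ ^ 2 by ring)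
        rw [norm_smul, Complex.norm_real, Real.norm_of_nonneg (wgt_pos e _ _).le]
        exact mul_le_of_le_one_left (norm_nonneg _) (wgt_le_one e _)
    have h' := h.sqrt
    rw [tsum_zero, Real.sqrt_zero] at h'
    refine h'.congr' ?_
    filter_upwards [self_mem_nhdsWithin] with e he
    rw [← sqrt_SQ_coef (f := fun x => D.Se e x - f x) ((hL e he).sub hf),
      coef_sub (hL e he) hf, hcoef e he, hfc]
    rfl
  refine ⟨{ σ := PQ s s
            σ_nonneg := le_trans (mul_nonneg hc.le (SQ_nonneg s)) hσ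
            σ_zero := fun h0 α hα => ?_
            σ_lim := ?_
            piP_small := ?_
            Sf_bound := ⟨6 * l2 f, fun α hα => ?_⟩
            Sf_small := fun C δ hδ => ?_
            Se_small := fun C δ hδ => ?_ }⟩
  · have hs0 : s = 0 := eq_zero_of_SQ hs2 (by
      have : c * SQ s ≤ 0 := h0 ▸ hσ
      exact nonpos_of_mul_nonpos_right this hc)
    refine (hSf α hα).unique ?_
    simp only [hs0, Pi.zero_apply, qC, PiLp.zero_apply, zero_mul, add_zero, Complex.zero_re]
    exact hasSum_zero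
  · have h : Tendsto (fun e => ∑' ξ, wgt e (-2) ξ * (wgt e (-2) ξ * (qC (s ξ) (cconj (s ξ))).re))
        (𝓝[>] (0 : ℝ)) (𝓝 (PQ s s)) := by
      refine tendsto_tsum_of_dominated_convergence (hs2.mul_left 6) (fun ξ => ?_)
        (Eventually.of_forall fun e ξ => ?_)
      · simpa using (tendsto_wgt_one ξ).mul ((tendsto_wgt_one ξ).mul_const (qC (s ξ) (cconj (s ξ))).re)
      · rw [norm_mul, norm_mul, Real.norm_of_nonneg (wgt_pos e _ ξ).le]
        refine (mul_le_of_le_one_left (mul_nonneg (wgt_pos e _ ξ).le (norm_nonneg _))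
          (wgt_le_one e ξ)).trans ((mul_le_of_le_one_left (norm_nonneg _) (wgt_le_one e ξ)).trans ?_)
        exact (abs_qC_le _ _).trans_eq (by ring)
    refine h.congr' ?_
    filter_upwards [self_mem_nhdsWithin] with e he
    rw [← (parseval_q (hL e he) (hL e he)).tsum_eq, hcoef e he]
    exact tsum_congr fun ξ => by rw [qC_smul_cconj, qC_cconj_smul]
  · have h := (cmul_commutator_small S.smooth_PPf hs2).sqrt
    rw [Real.sqrt_zero] at h
    refine h.congr' ?_
    filter_upwards [self_mem_nhdsWithin] with e he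
    have he' : (0 : ℝ) < e := he
    have e1 : ∀ ξ, cmul S.PPf (fun l => (wgt e (-2) l : ℂ) • s l) ξ -
        (wgt e (-2) ξ : ℂ) • cmul S.PPf s ξ = coef (fun x => S.PPf x (D.Se e x)) ξ := fun ξ => by
      rw [hzero, Pi.zero_apply, smul_zero, sub_zero, coef_mul S.smooth_PPf (hL e he'), hcoef e he']
    simp only [e1]
    rw [Real.sqrt_div (tsum_nonneg fun _ => sq_nonneg _), Real.sqrt_sq he'.le]
    congr 1
    exact sqrt_SQ_coef (memLp_apply S.smooth_PPf (hL e he'))
  · have hα' := memLp_apply S.smooth_PMf (hα.memLp 2)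
    have h1 : ∫ x in cube, q (f x) (α x) = ∫ x in cube, q (f x) (S.PMf x (α x)) := by
      refine integral_congr_ae ?_
      filter_upwards [hPz] with x hx
      conv_lhs => rw [← piP_add_piM (S.J x) (α x)]
      rw [q_add_right, ← S.q_piP_left, hx, q_zero_left, zero_add]
      rfl
    rw [hSfi α hα, h1]
    refine (abs_integral_q_le hf hα').trans_eq ?_
    simp only [Setup.PMf_apply]
    ring
  · obtain ⟨η, hη, h⟩ := small_pairing hfm hf C hδ
    exact ⟨η, hη, fun w hw h2 h1 => by rw [hSfi w hw]; exact h w (hw.memLp 2) h2 h1⟩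
  · obtain ⟨η, hη, h⟩ := small_pairing hfm hf C (half_pos hδ)
    obtain ⟨e₁, he₁, hd⟩ : ∃ e₁ > 0, ∀ e, 0 < e → e < e₁ →
        l2 (fun x => D.Se e x - f x) < δ / (12 * (max C 0 + 1)) := by
      have := (tendsto_order.1 hdiff).2 (δ / (12 * (max C 0 + 1))) (by positivity)
      obtain ⟨e₁, he₁, h'⟩ := mem_nhdsGT_iff_exists_Ioo_subset.1 this
      exact ⟨e₁, he₁, fun e h1 h2 => h' ⟨h1, h2⟩⟩
    refine ⟨min η (e₁ / 2), lt_min hη (half_pos he₁), fun e he hle w hwc hwp h2 h1 => ?_⟩
    have hw := memLp_cube hwc hwp 2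
    have hsub : MemLp (fun x => D.Se e x - f x) 2 (volume.restrict cube) := (hL e he).sub hf
    have hsplit : ∫ x in cube, q (D.Se e x) (w x) =
        (∫ x in cube, q (D.Se e x - f x) (w x)) + ∫ x in cube, q (f x) (w x) := by
      rw [← integral_add (integrable_q_L2 hsub hw) (integrable_q_L2 hf hw)]
      simp only [q_sub_left, sub_add_cancel]
    rw [hsplit]
    refine (abs_add_le _ _).trans ((add_le_add (abs_integral_q_le hsub hw)
      (h w hw h2 (h1.trans (min_le_left _ _)))).trans ?_)
    have hlt := hd e he ((hle.trans (min_le_right _ _)).trans_lt (by linarith))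
    have hl : l2 w ≤ max C 0 + 1 := h2.trans ((le_max_left C 0).trans (by simp))
    have := mul_le_mul hlt.le hl (Real.sqrt_nonneg _) (by positivity)
    have e2 : 6 * (δ / (12 * (max C 0 + 1)) * (max C 0 + 1)) = δ / 2 := by field_simp; ring
    linarith

end UData

/-- The exact current extending a separating current; if its regularised anti-invariant part is
bounded, this part is square integrable. -/
theorem exists_udata_slimit {S : Setup} (T : Current S) (hT : T.Separating) :
    ∃ D : UData T, D.Bounded → Nonempty D.SLimit := by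
  have := T.finite
  obtain ⟨U, u, C, hadd, hsmul, hinv, hclosed, hC, huh, hu, hsum, h0, hnull, hform⟩ := T.exists_exact hT
  obtain ⟨M, hM, hm⟩ := T.norm_mc_le'
  set ue : ℝ → Freq → CForm := fun e ξ => (wgt e (-2) ξ : ℂ) • u ξ with hue
  set s : Freq → CForm := fun ξ => u ξ - T.mc ξ with hs
  have hsh : Herm s := fun ξ => by
    ext k; simp [hs, huh ξ, T.mc_herm ξ, cconj_apply]
  have hsb : ∀ ξ, ‖s ξ‖ ≤ (C + M) * wt ξ := fun ξ =>
    (norm_sub_le _ _).trans (by rw [add_mul]; exact add_le_add (hu ξ) (hm ξ))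
  have hues : ∀ e, 0 < e → Summable fun ξ => ‖ue e ξ‖ := fun e he =>
    ((summable_wgt he).mul_left C).of_nonneg_of_le (fun _ => norm_nonneg _) fun ξ => by
      rw [hue, norm_smul, Complex.norm_real, Real.norm_of_nonneg (wgt_pos e _ ξ).le]
      exact (mul_le_mul_of_nonneg_left (hu ξ) (wgt_pos e _ ξ).le).trans_eq (by ring)
  have hueh : ∀ e, Herm (ue e) := fun e ξ => by simp only [hue, huh ξ, wgt_neg, cconj_smul_real]
  have hUL : ∀ e, 0 < e → MemLp (synth (ue e)) 2 (volume.restrict cube) := fun e he =>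
    memLp_cube (continuous_synth (hues e he)).1 (continuous_synth (hues e he)).2 2
  have hTL : ∀ e, 0 < e → MemLp (T.reg e) 2 (volume.restrict cube) := fun e he =>
    memLp_cube (T.continuous_reg he).1 (T.continuous_reg he).2 2
  set F : ℝ → V → Form := fun e x => synth (ue e) x - T.reg e x with hFdef
  have hF : ∀ e, 0 < e → MemLp (F e) 2 (volume.restrict cube) := fun e he =>
    (hUL e he).sub (hTL e he)
  have hFc : ∀ e, 0 < e → coef (F e) = fun ξ => (wgt e (-2) ξ : ℂ) • s ξ := fun e he => by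
    funext ξ
    rw [hFdef, coef_sub (hUL e he) (hTL e he), Pi.sub_apply, coef_synth (hues e he) (hueh e),
      T.coef_reg he, hs, smul_sub]
  have hSf : ∀ α, Smooth α →
      HasSum (fun ξ => (qC (s ξ) (cconj (coef α ξ))).re) (U α - T.app α) := fun α hα => by
    refine ((hsum α hα).sub (T.hasSum_app hα)).congr_fun fun ξ => ?_
    simp only [hs, qC, PiLp.sub_apply, Complex.add_re, Complex.sub_re, sub_mul]
    ring
  have hzero : cmul S.PPf s = 0 := by
    refine cmul_PPf_eq_zero S hsb (fun β hβ => ?_) hF hFc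
    have hβ' := S.smooth_PPf.apply hβ
    rw [(hSf _ hβ').tsum_eq, hinv _ hβ' (fun x => S.piM_piP x (β x)), sub_self]
  obtain ⟨Cc, hCc, hcomm⟩ := cmul_commutator S.smooth_PPf (-2)
  let D : UData T :=
    { U := U
      Ue := fun e => synth (ue e)
      add := hadd
      smul := hsmul
      inv := hinv
      closed := hclosed
      Ue_cont := fun e he _ => (continuous_synth (hues e he)).1
      Ue_periodic := fun e he _ => (continuous_synth (hues e he)).2
      Ue_closed := fun e he _ α hα hcl => by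
        obtain ⟨hks, hkc, hkcl⟩ := ker_smooth he hα
        have h := hsum _ hks
        rw [hclosed _ hks (hkcl hcl)] at h
        rw [← PQ_coef (hUL e he) (hα.memLp 2), coef_synth (hues e he) (hueh e), PQ, ← h.tsum_eq]
        exact tsum_congr fun ξ => by simp only [hue, hkc ξ, qC_smul_cconj, qC_cconj_smul]
      Ue_q := fun e he _ => by
        rw [← PQ_coef (hUL e he) (hUL e he), coef_synth (hues e he) (hueh e), PQ]
        refine (tsum_congr fun ξ => ?_).trans tsum_zero
        simp only [hue, qC_smul_cconj, qC_cconj_smul, hnull ξ, Complex.zero_re, mul_zero]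
      Ue_exact := fun e he _ δ hδ => by
        have hc := coef_synth (hues e he) (hueh e)
        have hd : Summable fun ξ => ‖(wgt e (-2) ξ : ℂ) • ue e ξ‖ :=
          (hues e he).of_nonneg_of_le (fun _ => norm_nonneg _) fun ξ => by
            rw [norm_smul, Complex.norm_real, Real.norm_of_nonneg (wgt_pos e _ ξ).le]
            exact mul_le_of_le_one_left (norm_nonneg _) (wgt_le_one e ξ)
        obtain ⟨η, hη, h⟩ := exact_approx (c := fun ξ => (wgt e (-2) ξ : ℂ) • ue e ξ) hd
          (fun ξ => by simp only [hueh e ξ, wgt_neg, cconj_smul_real]) (by simp [hue, h0])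
          (fun ξ => by
            obtain ⟨d, hdd⟩ := hform ξ
            refine ⟨fun i => (wgt e (-2) ξ : ℂ) * ((wgt e (-2) ξ : ℂ) * d i), fun k => ?_⟩
            simp only [hue, PiLp.smul_apply, smul_eq_mul, hdd k]
            ring) hδ
        refine ⟨η, hη, fun x => ?_⟩
        rw [kconv_eq_synth he (continuous_synth (hues e he)).1 (continuous_synth (hues e he)).2
          (by rw [hc]; exact hues e he), hc]
        exact h x
      comm := ⟨Cc, 1, one_pos, fun e he he1 => by
        have hP := memLp_apply S.smooth_PPf (hF e he)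
        have hsum' := (parseval_norm (hF e he)).summable
        rw [hFc e he] at hsum'
        obtain ⟨-, h⟩ := hcomm e he he1 s hsum'
        simp only [hzero, Pi.zero_apply, smul_zero, sub_zero] at h
        show l2 (fun x => S.PPf x (F e x)) ≤ Cc * e * l2 (F e)
        rw [← sqrt_SQ_coef hP, ← sqrt_SQ_coef (hF e he), coef_mul S.smooth_PPf (hF e he), hFc e he,
          ← Real.sqrt_sq (show 0 ≤ Cc * e by positivity), ← Real.sqrt_mul (sq_nonneg _)]
        exact Real.sqrt_le_sqrt h⟩ }
  exact ⟨D, D.slimit_of_coef hsh hSf hzero hF hFc⟩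

/-- The exact current extending a separating current. -/
theorem exists_udata {S : Setup} (T : Current S) (hT : T.Separating) : Nonempty (UData T) :=
  ⟨(exists_udata_slimit T hT).choose⟩

end Vale.Agent.P204.Torus
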