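import Vale.Agent.P204.Torus.Vanish
import Vale.Agent.P204.Torus.Separation
import Vale.Agent.P204.Torus.Phase1
import Vale.Agent.P204.Torus.UCurrent
import Vale.Agent.P204.Torus.Main

/-!
P204 on the four-torus: the second estimate and the theorem.

The anti-invariant part of the exact current has zero square, so the current is exact; pairing it
with the taming form contradicts positivity.
-/

open MeasureTheory Filter Topology
open scoped BigOperators

namespace Vale.Agent.P204.Torus

namespace UData

variable {S : Setup} {T : Current S} (D : UData T)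

/-- The anti-invariant part has no mass. -/
lemma sigma_eq_zero (hd : T.DensBound) (L : D.SLimit) : L.σ = 0 := by
  refine le_antisymm ?_ L.σ_nonneg
  obtain ⟨Cl, hCl, hlow⟩ := T.exists_pairE_lower
  obtain ⟨Ct, hCt, hth⟩ := S.exists_th_compare
  obtain ⟨N, hN, hNh⟩ := T.exists_h_bound
  obtain ⟨A, hA, hA', hlim⟩ := D.exists_limit hd L
  choose l hl using hlim
  set m := T.ν.real Set.univ
  have hm : 0 ≤ m := measureReal_nonneg
  have hThc : ∀ j, Continuous (T.Th (scale j)) := fun j =>
    (fderiv_Th (T := T) (scale_pos' j)).1.smooth.continuous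
  have hlm : Measurable l :=
    measurable_of_tendsto_metrizable (fun j => (hThc j).measurable) (tendsto_pi_nhds.2 hl)
  have hl0 : ∀ y, 0 ≤ l y := fun y =>
    ge_of_tendsto' (hl y) fun j => T.Th_nonneg (scale j) y
  have hlA : ∀ y, l y ≤ A := fun y =>
    le_of_tendsto' (hl y) fun j => (hA' _ (scale_pos' j) (Mass.scale_le_one j) y).1
  -- the estimate for a fixed cut-off
  have key : ∀ τ, 0 < τ → ∀ δ, 0 < δ → L.σ ≤ Cl * Ct * (τ * m) + (2 + 6 * N * m) * δ := by
    intro τ hτ δ hδ
    obtain ⟨ε₀, hε₀, hnear⟩ := D.pairE_near_exact hd L δ hδ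
    have hE : Tendsto (fun j => ∫ x in cube, q (T.reg (scale j) x) (T.reg (scale j) x)) atTop
        (𝓝 (-L.σ)) :=
      (D.tendsto_reg_energy hd L).comp (tendsto_nhdsWithin_iff.2
        ⟨tendsto_scale, Eventually.of_forall fun j => scale_pos' j⟩)
    have hT : Tendsto (fun j => ∫ y, τ / (l y + τ) * T.Th (scale j) y ∂T.ν) atTop
        (𝓝 (∫ y, τ / (l y + τ) * l y ∂T.ν)) := by
      refine tendsto_integral_of_dominated_convergence (fun _ => A)
        (fun j => ((measurable_const.div (hlm.add_const τ)).mul
          (hThc j).measurable).aestronglyMeasurable)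
        (integrable_const A) (fun j => Eventually.of_forall fun y => ?_)
        (Eventually.of_forall fun y => (hl y).const_mul _)
      have h1 := hl0 y
      have h2 := T.Th_nonneg (scale j) y
      rw [Real.norm_eq_abs, abs_of_nonneg (by positivity)]
      exact (mul_le_of_le_one_left h2 (div_le_one_of_le₀ (le_add_of_nonneg_left h1)
        (by positivity))).trans (hA' _ (scale_pos' j) (Mass.scale_le_one j) y).1
    have hfix : ∀ᶠ j in atTop, -(Cl * Ct * ∫ y, τ / (l y + τ) * T.Th (scale j) y ∂T.ν) -
        (2 + 6 * N * m) * δ ≤ ∫ x in cube, q (T.reg (scale j) x) (T.reg (scale j) x) := by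
      filter_upwards [tendsto_scale.eventually (eventually_le_nhds hε₀)] with j hj
      set ε := scale j
      have hε : 0 < ε := scale_pos' j
      have hε1 : ε ≤ 1 := Mass.scale_le_one j
      obtain ⟨η, hη, hηd⟩ := D.Ue_exact ε hε hε1 δ hδ
      have hvan := D.tendsto_app_cut hd L hη hτ
      set g := fun k y => T.Th (scale k) y / (T.Th (scale k) y + τ)
      have hg0 : ∀ k y, 0 ≤ g k y := fun k y => by
        have := T.Th_nonneg (scale k) y
        positivity
      have hg1 : ∀ k y, g k y ≤ 1 := fun k y => by
        have := T.Th_nonneg (scale k) y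
        exact div_le_one_of_le₀ (le_add_of_nonneg_right hτ.le) (by positivity)
      have hgs : ∀ k, Smooth (g k) := fun k => by
        have hs := (fderiv_Th (T := T) (scale_pos' k)).1
        exact ⟨hs.smooth.div (hs.smooth.add contDiff_const) fun y =>
          (add_pos_of_nonneg_of_pos (T.Th_nonneg _ y) hτ).ne',
          fun y n => by simp only [g, hs.periodic y n]⟩
      have hgc : ∀ k, Continuous (g k) := fun k => (hgs k).smooth.continuous
      have hgb : ∀ k y, |g k y| ≤ 1 := fun k y => by rw [abs_of_nonneg (hg0 k y)]; exact hg1 k y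
      have hg' : ∀ k y, 1 - g k y = τ / (T.Th (scale k) y + τ) := fun k y => by
        have h1 : 0 < T.Th (scale k) y + τ :=
          add_pos_of_nonneg_of_pos (T.Th_nonneg _ y) hτ
        simp only [g]
        rw [eq_div_iff h1.ne', sub_mul, one_mul, div_mul_cancel₀ _ h1.ne']
        ring
      have hdc : Tendsto (fun k => ∫ y, (1 - g k y) * T.Th ε y ∂T.ν) atTop
          (𝓝 (∫ y, τ / (l y + τ) * T.Th ε y ∂T.ν)) := by
        refine tendsto_integral_of_dominated_convergence (fun _ => A)
          (fun k => ((continuous_const.sub (hgc k)).mul (hThc j)).aestronglyMeasurable)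
          (integrable_const A) (fun k => Eventually.of_forall fun y => ?_)
          (Eventually.of_forall fun y => ?_)
        · have h2 := T.Th_nonneg ε y
          rw [Real.norm_eq_abs, abs_of_nonneg (mul_nonneg (sub_nonneg.2 (hg1 k y)) h2)]
          exact (mul_le_of_le_one_left h2 (by linarith [hg0 k y])).trans (hA' _ hε hε1 y).1
        · simp only [hg']
          have h1 : 0 < l y + τ := add_pos_of_nonneg_of_pos (hl0 y) hτ
          exact ((tendsto_const_nhds.div ((hl y).add_const τ) h1.ne')).mul_const _
      have hk : ∀ᶠ k in atTop, -(Cl * Ct * ∫ y, (1 - g k y) * T.Th ε y ∂T.ν) -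
          (2 + 6 * N * m) * δ ≤ ∫ x in cube, q (T.reg ε x) (T.reg ε x) := by
        filter_upwards [Metric.tendsto_nhds.1 hvan δ hδ] with k hk
        rw [Real.dist_eq, sub_zero] at hk
        have hsum := T.pairE_add hε (hgc k).measurable (hg0 k) (hg1 k)
        have h1 := hnear ε hε hj (g k) (hgc k).measurable (hgb k)
        have h2 := hlow ε hε hε1 (fun y => 1 - g k y) (measurable_const.sub (hgc k).measurable)
          (fun y => sub_nonneg.2 (hg1 k y)) fun y => by linarith [hg0 k y]
        have h3 : ∫ y, (1 - g k y) * T.dens ε y ∂T.ν ≤ Ct * ∫ y, (1 - g k y) * T.Th ε y ∂T.ν := by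
          rw [← integral_const_mul]
          have hi : Integrable (fun y => Ct * ((1 - g k y) * T.Th ε y)) T.ν := by
            refine (T.integrable_bounded (F := fun y => (1 - g k y) * T.Th ε y)
              ((continuous_const.sub (hgc k)).mul
              (hThc j)).aestronglyMeasurable (C := A) fun y => ?_).const_mul Ct
            have h2 := T.Th_nonneg ε y
            rw [Real.norm_eq_abs, abs_of_nonneg (mul_nonneg (sub_nonneg.2 (hg1 k y)) h2)]
            exact (mul_le_of_le_one_left h2 (by linarith [hg0 k y])).trans (hA' _ hε hε1 y).1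
          refine integral_mono_of_nonneg (Eventually.of_forall fun y =>
            mul_nonneg (sub_nonneg.2 (hg1 k y)) (T.dens_nonneg ε y)) hi
            (Eventually.of_forall fun y => ?_)
          simp only
          rw [mul_left_comm]
          refine mul_le_mul_of_nonneg_left ?_ (sub_nonneg.2 (hg1 k y))
          rw [Current.Th, ← integral_const_mul]
          refine integral_mono_of_nonneg (Eventually.of_forall fun z => by positivity)
            ((T.integrable_th hε y).const_mul Ct) (Eventually.of_forall fun z => ?_)
          exact (hth ε hε y z).2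
        have hsk : Smooth fun x => g k x • d1 η x := ⟨(hgs k).smooth.smul (smooth_d1 hη).smooth,
          fun x n => by simp only [(hgs k).periodic x n, (smooth_d1 hη).periodic x n]⟩
        have h4 : |∫ y, g k y * q (T.h y) (kconv ε (D.Ue ε) y) ∂T.ν -
            T.app (fun x => g k x • d1 η x)| ≤ 6 * N * m * δ := by
          have hkc := continuous_kconv hε (D.Ue_cont ε hε hε1) (D.Ue_periodic ε hε hε1)
          obtain ⟨Md, hMd0, hMd⟩ := exists_bound (smooth_d1 hη).smooth.continuous
            (smooth_d1 hη).periodic
          have hi : Integrable (fun y => g k y * q (T.h y) (kconv ε (D.Ue ε) y)) T.ν := by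
            refine T.integrable_bounded ((hgc k).measurable.mul
              ((Setup.continuous_q continuous_fst continuous_snd).measurable.comp
                (T.meas.prodMk hkc.measurable))).aestronglyMeasurable
              (C := 1 * (6 * (N * (Md + δ)))) fun y => ?_
            rw [norm_mul, Real.norm_eq_abs, Real.norm_eq_abs]
            refine mul_le_mul (hgb k y) ((abs_q_le _ _).trans ?_) (abs_nonneg _) zero_le_one
            gcongr
            · exact hNh y
            · have := norm_le_norm_add_norm_sub (kconv ε (D.Ue ε) y) (d1 η y)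
              have := hηd y
              have := hMd y
              calc ‖kconv ε (D.Ue ε) y‖ ≤ ‖d1 η y‖ + ‖kconv ε (D.Ue ε) y - d1 η y‖ :=
                    norm_le_norm_add_norm_sub' _ _
                _ ≤ _ := by linarith
          simp only [Current.app]
          rw [← integral_sub hi (integrable_app hsk), ← Real.norm_eq_abs]
          refine (norm_integral_le_of_norm_le_const (μ := T.ν) (C := 6 * (N * δ))
            (Eventually.of_forall fun y => ?_)).trans ?_
          · rw [q_smul_right, ← mul_sub, ← q_sub_right, norm_mul, Real.norm_eq_abs, Real.norm_eq_abs]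
            refine (mul_le_of_le_one_left (abs_nonneg _) (hgb k y)).trans ((abs_q_le _ _).trans ?_)
            gcongr
            · exact hNh y
            · exact hηd y
          · exact le_of_eq (by simp only [m]; ring)
        have h5 := mul_le_mul_of_nonneg_left h3 hCl
        rw [abs_le] at h1 h4
        rw [abs_lt] at hk
        linarith
      exact le_of_tendsto (((hdc.const_mul (Cl * Ct)).neg).sub_const _) hk
    have h := le_of_tendsto_of_tendsto ((hT.const_mul (Cl * Ct)).neg.sub_const _) hE hfix
    have h2 : ∫ y, τ / (l y + τ) * l y ∂T.ν ≤ τ * m := by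
      refine (integral_mono_of_nonneg (Eventually.of_forall fun y => ?_) (integrable_const τ)
        (Eventually.of_forall fun y => ?_)).trans_eq (by rw [integral_const, smul_eq_mul, mul_comm])
      · have := hl0 y
        positivity
      · have := hl0 y
        simp only
        rw [div_mul_eq_mul_div, div_le_iff₀ (by positivity)]
        nlinarith
    have h3 := mul_le_mul_of_nonneg_left h2 (mul_nonneg hCl hCt.le)
    linarith
  refine le_of_forall_pos_le_add fun ε hε => ?_
  rw [zero_add]
  set K := Cl * Ct * m + (2 + 6 * N * m) with hK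
  have hK0 : 0 < K := by positivity
  refine (key (ε / K) (by positivity) (ε / K) (by positivity)).trans (le_of_eq ?_)
  rw [hK]
  field_simp

end UData

/-- On the torus every tamed almost complex structure has a compatible form. -/
theorem exists_compatible_setup (S : Setup) (hc : Closed S.om) : ∃ α, S.Compatible α := by
  by_contra hno
  obtain ⟨T, hT⟩ := exists_current S hno
  obtain ⟨D, hD⟩ := exists_udata_slimit T hT
  obtain ⟨L⟩ := hD D.bounded
  have hd : T.DensBound := D.exists_dens_bound
  have hσ := D.sigma_eq_zero hd L
  have h0 := L.σ_zero hσ S.om S.om_smooth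
  rw [UData.Sf, D.closed S.om S.om_smooth hc, zero_sub, neg_eq_zero] at h0
  have h1 : ∀ y, q (T.h y) (S.om y) = 1 := fun y => by
    rw [S.q_inv_piP (T.psd y).1]
    exact T.trace y
  simp only [Current.app, h1, integral_const, smul_eq_mul, mul_one] at h0
  exact (measureReal_ne_zero_iff (measure_ne_top _ _)).2
    (Measure.measure_univ_ne_zero.2 hT.ne_zero) h0

/-- Donaldson's question on the four-torus, for every smooth almost complex structure. -/
theorem exists_compatible_torus {J : V → V → V} {ω : V → V → V → ℝ} (hJ : TorusACS J)
    (hω : TorusTwoForm ω) (hT : Tames J ω) :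
    ∃ ω', TorusTwoForm ω' ∧ Tames J ω' ∧ InvariantFun J ω' :=
  compatible_of_setup exists_compatible_setup hJ hω hT

end Vale.Agent.P204.Torus
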