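import Vale.Agent.P204.Torus.Phase2Defs

/-!
P204 on the four-torus: the pointwise identity behind the second estimate.

For a constant vector `v` the exact form `d (ψ (ι_v Ω - w))` pairs with a positive form as the
derivative of the weight `ψ` in the direction `v` of its centre, up to controlled errors.
-/

namespace Vale.Agent.P204.Torus

open scoped BigOperators

lemma iota_add_left (u v : V) (α : Form) : iota (u + v) α = iota u α + iota v α :=
  funext fun _ => ev_add_left α u v _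

lemma iota_smul_left (a : ℝ) (v : V) (α : Form) : iota (a • v) α = a • iota v α :=
  funext fun _ => ev_smul_left α a v _

lemma wedge_add_left (a b c : V) : wedge (a + b) c = wedge a c + wedge b c := by
  ext k; simp only [wedge_apply, PiLp.add_apply, Pi.add_apply]; ring

lemma wedge_sub_left (a b c : V) : wedge (a - b) c = wedge a c - wedge b c := by
  ext k; simp only [wedge_apply, PiLp.sub_apply, Pi.sub_apply]; ring

lemma wedge_sub_right (a b c : V) : wedge a (b - c) = wedge a b - wedge a c := by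
  ext k; simp only [wedge_apply, PiLp.sub_apply, Pi.sub_apply]; ring

lemma wedge_smul_left (t : ℝ) (a b : V) : wedge (t • a) b = t • wedge a b := by
  ext k; simp only [wedge_apply, PiLp.smul_apply, Pi.smul_apply, smul_eq_mul]; ring

lemma norm_iota_le (v : V) (α : Form) : ‖iota v α‖ ≤ 12 * (‖α‖ * ‖v‖) := by
  refine (pi_norm_le_iff_of_nonneg (by positivity)).2 fun j => ?_
  rw [Real.norm_eq_abs]
  refine (abs_ev_le _ _ _).trans ?_
  gcongr
  exact mul_le_of_le_one_right (norm_nonneg _) (e_norm_le j)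

/-- The vector dual to the three-form of cyclic sums of a form-valued linear map. -/
noncomputable def dualVec (L : V →L[ℝ] Form) : V :=
  ![ev (L (e 1)) (e 2) (e 3) + ev (L (e 2)) (e 3) (e 1) + ev (L (e 3)) (e 1) (e 2),
    -(ev (L (e 0)) (e 2) (e 3) + ev (L (e 2)) (e 3) (e 0) + ev (L (e 3)) (e 0) (e 2)),
    ev (L (e 0)) (e 1) (e 3) + ev (L (e 1)) (e 3) (e 0) + ev (L (e 3)) (e 0) (e 1),
    -(ev (L (e 0)) (e 1) (e 2) + ev (L (e 1)) (e 2) (e 0) + ev (L (e 2)) (e 0) (e 1))]

lemma det4_dualVec (L : V →L[ℝ] Form) (v : V) (k : Fin 6) :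
    det4 (dualVec L) v (e (fi k)) (e (se k)) =
      ev (L v) (e (fi k)) (e (se k)) + ev (L (e (fi k))) (e (se k)) v
        + ev (L (e (se k))) v (e (fi k)) := by
  conv_rhs => arg 1; arg 1; rw [sum_e v]
  simp only [Fin.sum_univ_four, map_add, map_smul, ev_add, ev_smul]
  fin_cases k <;> simp [det4, dualVec, ev_def, e, fi, se] <;> ring

/-- Every three-form is divisible by a nondegenerate two-form. -/
lemma pfaffian_div (O : Form) (X v : V) (k : Fin 6) :
    q O O / 2 * det4 X v (e (fi k)) (e (se k)) = ev O X v * O k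
      - (iota X O (fi k) * iota v O (se k) - iota v O (fi k) * iota X O (se k)) := by
  fin_cases k <;> simp [det4, q, iota, ev_def, e, fi, se] <;> ring

lemma norm_dualVec_le (L : V →L[ℝ] Form) {M : ℝ} (hM : ∀ i, ‖L (e i)‖ ≤ M) :
    ‖dualVec L‖ ≤ 36 * M := by
  have hM0 : 0 ≤ M := (norm_nonneg _).trans (hM 0)
  have h : ∀ i j l, |ev (L (e i)) (e j) (e l)| ≤ 12 * M := fun i j l => by
    refine (abs_ev_le _ _ _).trans ?_
    calc 12 * (‖L (e i)‖ * (‖e j‖ * ‖e l‖)) ≤ 12 * (M * (1 * 1)) := by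
          gcongr
          · exact hM i
          · exact e_norm_le j
          · exact e_norm_le l
      _ = _ := by ring
  have h3 : ∀ a b c : ℝ, |a| ≤ 12 * M → |b| ≤ 12 * M → |c| ≤ 12 * M → |a + b + c| ≤ 36 * M :=
    fun a b c ha hb hc => by
      rw [abs_le] at ha hb hc ⊢
      constructor <;> linarith
  refine (pi_norm_le_iff_of_nonneg (by positivity)).2 fun i => ?_
  fin_cases i <;> simp only [dualVec, Real.norm_eq_abs, Fin.zero_eta, Fin.mk_one,
    Fin.reduceFinMk, Matrix.cons_val_zero, Matrix.cons_val_one, Matrix.cons_val, abs_neg] <;>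
    exact h3 _ _ _ (h _ _ _) (h _ _ _) (h _ _ _)

namespace Setup

variable (S : Setup)

/-- The derivative of the metric, contracted. -/
noncomputable def dgs (z a s : V) : ℝ :=
  ev (fderiv ℝ S.Om z a) s (S.J z s) + ev (S.Om z) s (fderiv ℝ S.J z a s)

/-- The weight `r² / (r² + ρ²)³`. -/
noncomputable def th3 (r : ℝ) (y z : V) : ℝ := r ^ 2 / (r ^ 2 + S.rho2 z (z - y)) ^ 3

/-- The covector cancelling the derivative of the metric. -/
noncomputable def wv (y v z : V) : V := fun j =>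
  1 / 2 * ev (fderiv ℝ S.Om z v) (sv (z - y)) (e j) -
    1 / 2 * ev (S.Om z) (sv (z - y)) (fderiv ℝ S.J z v (S.J z (e j)))

/-- The one-form of the variation. -/
noncomputable def om1 (y v z : V) : V := iota v (S.Om z) - S.wv y v z

/-- The primitive of the variation. -/
noncomputable def beta (r : ℝ) (y v z : V) : V := S.th r y z • S.om1 y v z

lemma pair_wv (y v z a : V) : pair (S.wv y v z) a =
    1 / 2 * ev (fderiv ℝ S.Om z v) (sv (z - y)) a -
      1 / 2 * ev (S.Om z) (sv (z - y)) (fderiv ℝ S.J z v (S.J z a)) := by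
  conv_rhs => rw [sum_e a]
  simp only [wv, pair, map_sum, map_smul, ev_sum_right, ev_smul_right, Finset.mul_sum,
    ← Finset.sum_sub_distrib]
  exact Finset.sum_congr rfl fun j _ => by ring

lemma pair_wv_J (y v z : V) :
    2 * pair (S.wv y v z) (S.J z (sv (z - y))) = S.dgs z v (sv (z - y)) := by
  rw [S.pair_wv, S.J_sq, map_neg, ev_neg_right, dgs]
  ring

lemma wv_add (y u v z : V) : S.wv y (u + v) z = S.wv y u z + S.wv y v z := by
  funext j
  simp only [wv, map_add, ev_add, add_apply, ev_add_right, Pi.add_apply]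
  ring

lemma wv_smul (a : ℝ) (y v z : V) : S.wv y (a • v) z = a • S.wv y v z := by
  funext j
  simp only [wv, map_smul, ev_smul, smul_apply, ev_smul_right, Pi.smul_apply, smul_eq_mul]
  ring

lemma om1_sum (y v z : V) : S.om1 y v z = ∑ i, v i • S.om1 y (e i) z := by
  conv_lhs => rw [sum_e v]
  simp only [Fin.sum_univ_four, om1, iota_add_left, iota_smul_left, wv_add, wv_smul]
  module

/-- Differentiating `J² = -1`. -/
lemma dJ_J (z v b : V) :
    fderiv ℝ S.J z v (S.J z b) + S.J z (fderiv ℝ S.J z v b) = 0 := by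
  have hJ := (S.J_smooth.differentiableAt z).hasFDerivAt
  have h1 := hJ.clm_apply (hJ.clm_apply (hasFDerivAt_const b z))
  have h2 : HasFDerivAt (fun z => S.J z (S.J z b)) (0 : V →L[ℝ] V) z := by
    rw [show (fun z => S.J z (S.J z b)) = fun _ => -b from funext fun z => S.J_sq z b]
    exact hasFDerivAt_const _ _
  have h := congrArg (fun L : V →L[ℝ] V => L v) (h1.unique h2)
  simp at h
  rw [add_comm] at h
  exact h

lemma contDiff_rho2₂ : ContDiff ℝ (⊤ : ℕ∞) fun p : V × V => S.rho2 p.1 (p.1 - p.2) := by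
  have hs : ContDiff ℝ (⊤ : ℕ∞) fun p : V × V => sv (p.1 - p.2) :=
    contDiff_sv.comp (contDiff_fst.sub contDiff_snd)
  have h1 := contDiff_form.1 S.smooth_Om.smooth
  have h2 := contDiff_pi.1 hs
  have h3 := contDiff_pi.1 ((S.J_smooth.smooth.comp contDiff_fst).clm_apply hs)
  simp only [rho2, g, ev]
  refine (ContDiff.sum fun k _ => ((h1 k).comp contDiff_fst).mul
    (((h2 _).mul (h3 _)).sub ((h3 _).mul (h2 _)))).add (ContDiff.sum fun i _ => ?_)
  fun_prop

lemma contDiff_th₂ {r : ℝ} (hr : 0 < r) :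
    ContDiff ℝ (⊤ : ℕ∞) fun p : V × V => S.th r p.2 p.1 := by
  refine contDiff_const.div ((contDiff_const.add S.contDiff_rho2₂).pow 2) fun p => ?_
  have := S.rho2_nonneg p.1 (p.1 - p.2)
  positivity

lemma contDiff_wv₂ (v : V) : ContDiff ℝ (⊤ : ℕ∞) fun p : V × V => S.wv p.2 v p.1 := by
  have hs : ContDiff ℝ (⊤ : ℕ∞) fun p : V × V => sv (p.1 - p.2) :=
    contDiff_sv.comp (contDiff_fst.sub contDiff_snd)
  have hO : ContDiff ℝ (⊤ : ℕ∞) fun p : V × V => S.Om p.1 := S.smooth_Om.smooth.comp contDiff_fst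
  have hD : ContDiff ℝ (⊤ : ℕ∞) fun p : V × V => fderiv ℝ S.Om p.1 v :=
    ((S.smooth_Om.smooth.fderiv_right (by simp)).clm_apply contDiff_const).comp contDiff_fst
  have hJ : ContDiff ℝ (⊤ : ℕ∞) fun p : V × V => fderiv ℝ S.J p.1 v :=
    ((S.J_smooth.smooth.fderiv_right (by simp)).clm_apply contDiff_const).comp contDiff_fst
  have hev : ∀ (f : V × V → Form) (a b : V × V → V), ContDiff ℝ (⊤ : ℕ∞) f →
      ContDiff ℝ (⊤ : ℕ∞) a → ContDiff ℝ (⊤ : ℕ∞) b →
      ContDiff ℝ (⊤ : ℕ∞) fun p => ev (f p) (a p) (b p) := fun f a b hf ha hb => by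
    have h1 := (contDiff_piLp 2).1 hf
    have h2 := contDiff_pi.1 ha
    have h3 := contDiff_pi.1 hb
    exact ContDiff.sum fun k _ => (h1 k).mul (((h2 _).mul (h3 _)).sub ((h3 _).mul (h2 _)))
  refine contDiff_pi.2 fun j => ?_
  exact (contDiff_const.mul (hev _ _ _ hD hs contDiff_const)).sub
    (contDiff_const.mul (hev _ _ _ hO hs
      (hJ.clm_apply ((S.J_smooth.smooth.comp contDiff_fst).clm_apply contDiff_const))))

lemma contDiff_iota_Om (v : V) : ContDiff ℝ (⊤ : ℕ∞) fun z => iota v (S.Om z) :=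
  contDiff_pi.2 fun _ => contDiff_ev S.smooth_Om.smooth contDiff_const contDiff_const

lemma contDiff_beta₂ {r : ℝ} (hr : 0 < r) (v : V) :
    ContDiff ℝ (⊤ : ℕ∞) fun p : V × V => S.beta r p.2 v p.1 :=
  (S.contDiff_th₂ hr).smul (((S.contDiff_iota_Om v).comp contDiff_fst).sub (S.contDiff_wv₂ v))

lemma th_periodic (r : ℝ) (y : V) : Periodic (S.th r y) := fun z n => by
  have h := S.rho2_periodic_sub y z n
  simp only at h
  simp only [th, h]

lemma wv_periodic (y v : V) : Periodic (S.wv y v) := fun z n => by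
  funext j
  simp only [wv]
  rw [periodic_fderiv S.smooth_Om.periodic z n, periodic_fderiv S.J_smooth.periodic z n,
    S.smooth_Om.periodic z n, S.J_smooth.periodic z n, add_sub_right_comm, sv_periodic (z - y) n]

lemma smooth_beta {r : ℝ} (hr : 0 < r) (y v : V) : Smooth (S.beta r y v) := by
  refine ⟨(S.contDiff_beta₂ hr v).comp (f := fun z : V => (z, y))
    (contDiff_id.prodMk contDiff_const), fun z n => ?_⟩
  change S.th r y (z + intVec n) •
    (iota v (S.Om (z + intVec n)) - S.wv y v (z + intVec n)) = _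
  rw [S.th_periodic r y z n, S.smooth_Om.periodic z n, S.wv_periodic y v z n]
  rfl

/-- The derivative of the squared distance, exactly. -/
lemma fderiv_rho2_sub (y z a : V) : fderiv ℝ (fun z => S.rho2 z (z - y)) z a =
    ev (fderiv ℝ S.Om z a) (sv (z - y)) (S.J z (sv (z - y)))
      + ev (S.Om z) (cs (z - y) a) (S.J z (sv (z - y)))
      + ev (S.Om z) (sv (z - y)) (S.J z (cs (z - y) a) + fderiv ℝ S.J z a (sv (z - y)))
      + ∑ k, 2 * (1 - Real.cos (2 * Real.pi * (z k - y k))) * (2 * Real.pi) *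
          Real.sin (2 * Real.pi * (z k - y k)) * a k := by
  obtain ⟨hsd, hsD⟩ := hasFDerivAt_sv_sub y z
  have hJs : DifferentiableAt ℝ (fun z => S.J z (sv (z - y))) z :=
    ((S.J_smooth.differentiableAt z).hasFDerivAt.clm_apply hsd.hasFDerivAt).differentiableAt
  have hJD : fderiv ℝ (fun z => S.J z (sv (z - y))) z a =
      S.J z (cs (z - y) a) + fderiv ℝ S.J z a (sv (z - y)) := by
    rw [((S.J_smooth.differentiableAt z).hasFDerivAt.clm_apply hsd.hasFDerivAt).fderiv]
    simp [hsD]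
  have hs : ContDiff ℝ (⊤ : ℕ∞) fun z : V => sv (z - y) :=
    contDiff_sv.comp (contDiff_id.sub contDiff_const)
  have h1 : DifferentiableAt ℝ (fun z => S.g z (sv (z - y)) (sv (z - y))) z :=
    (contDiff_ev S.smooth_Om.smooth hs (S.J_smooth.smooth.clm_apply hs)).differentiable (by simp) z
  have hcos : ∀ k : Fin 4, HasFDerivAt (fun z : V => (1 - Real.cos (2 * Real.pi * (z - y) k)) ^ 2)
      ((2 * (1 - Real.cos (2 * Real.pi * (z k - y k))) * (2 * Real.pi) *
        Real.sin (2 * Real.pi * (z k - y k))) •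
          ContinuousLinearMap.proj (R := ℝ) (φ := fun _ : Fin 4 => ℝ) k) z := by
    intro k
    have hp : HasFDerivAt (fun z : V => z k - y k)
        (ContinuousLinearMap.proj (R := ℝ) (φ := fun _ : Fin 4 => ℝ) k) z :=
      ((ContinuousLinearMap.proj (R := ℝ) (φ := fun _ : Fin 4 => ℝ) k).hasFDerivAt).sub_const (y k)
    have hh : HasDerivAt (fun t => (1 - Real.cos (2 * Real.pi * t)) ^ 2)
        (2 * (1 - Real.cos (2 * Real.pi * (z k - y k))) * (2 * Real.pi) *
          Real.sin (2 * Real.pi * (z k - y k))) (z k - y k) := by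
      have := ((((hasDerivAt_id (z k - y k)).const_mul (2 * Real.pi)).cos).const_sub 1).pow 2
      refine this.congr_deriv ?_
      simp only [id, mul_one]
      push_cast
      ring
    exact hh.comp_hasFDerivAt z hp
  have h2 := HasFDerivAt.fun_sum (u := Finset.univ) fun k (_ : k ∈ Finset.univ) => hcos k
  simp only [rho2]
  rw [fderiv_fun_add h1 h2.differentiableAt, h2.fderiv, add_apply]
  simp only [g]
  rw [fderiv_ev (S.smooth_Om.differentiableAt z) hsd hJs, hsD, hJD]
  simp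

/-- The derivative of the squared distance in the centre, exactly. -/
lemma fderiv_rho2_centre (y z v : V) : fderiv ℝ (fun y => S.rho2 z (z - y)) y v =
    -(ev (S.Om z) (cs (z - y) v) (S.J z (sv (z - y)))
      + ev (S.Om z) (sv (z - y)) (S.J z (cs (z - y) v))
      + ∑ k, 2 * (1 - Real.cos (2 * Real.pi * (z k - y k))) * (2 * Real.pi) *
          Real.sin (2 * Real.pi * (z k - y k)) * v k) := by
  have hsd : DifferentiableAt ℝ sv (z - y) := contDiff_sv.differentiable (by simp) _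
  have hsub : HasFDerivAt (fun y : V => z - y) (-ContinuousLinearMap.id ℝ V) y :=
    (hasFDerivAt_id y).const_sub z
  have hs := hsd.hasFDerivAt.comp y hsub
  have hsD : ∀ a, fderiv ℝ (fun y => sv (z - y)) y a = -cs (z - y) a := fun a => by
    have h := (hasFDerivAt_sv_sub y z).2 a
    have e1 : fderiv ℝ (fun z => sv (z - y)) z = fderiv ℝ sv (z - y) :=
      fderiv_comp_sub (f := sv) y
    rw [e1] at h
    rw [show (fun y => sv (z - y)) = sv ∘ fun y => z - y from rfl, hs.fderiv]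
    simp [h]
  have hJs : DifferentiableAt ℝ (fun y => S.J z (sv (z - y))) y :=
    (S.J z).differentiableAt.comp y hs.differentiableAt
  have hJD : fderiv ℝ (fun y => S.J z (sv (z - y))) y v = -S.J z (cs (z - y) v) := by
    have h : HasFDerivAt (fun y => S.J z (sv (z - y)))
        ((S.J z).comp (fderiv ℝ (fun y => sv (z - y)) y)) y :=
      (S.J z).hasFDerivAt.comp y hs.differentiableAt.hasFDerivAt
    rw [h.fderiv, ContinuousLinearMap.comp_apply, hsD, map_neg]
  have h1 : DifferentiableAt ℝ (fun y => S.g z (sv (z - y)) (sv (z - y))) y := by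
    have := (contDiff_ev (f := fun _ : V => S.Om z) (a := fun y => sv (z - y))
      (b := fun y => S.J z (sv (z - y))) contDiff_const
      (contDiff_sv.comp (contDiff_const.sub contDiff_id))
      ((S.J z).contDiff.comp (contDiff_sv.comp (contDiff_const.sub contDiff_id)))).differentiable
        (by simp)
    exact this y
  have hcos : ∀ k : Fin 4, HasFDerivAt (fun y : V => (1 - Real.cos (2 * Real.pi * (z - y) k)) ^ 2)
      ((2 * (1 - Real.cos (2 * Real.pi * (z k - y k))) * (2 * Real.pi) *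
        Real.sin (2 * Real.pi * (z k - y k))) •
          -(ContinuousLinearMap.proj (R := ℝ) (φ := fun _ : Fin 4 => ℝ) k)) y := by
    intro k
    have hp : HasFDerivAt (fun y : V => z k - y k)
        (-(ContinuousLinearMap.proj (R := ℝ) (φ := fun _ : Fin 4 => ℝ) k)) y :=
      ((ContinuousLinearMap.proj (R := ℝ) (φ := fun _ : Fin 4 => ℝ) k).hasFDerivAt).const_sub (z k)
    have hh : HasDerivAt (fun t => (1 - Real.cos (2 * Real.pi * t)) ^ 2)
        (2 * (1 - Real.cos (2 * Real.pi * (z k - y k))) * (2 * Real.pi) *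
          Real.sin (2 * Real.pi * (z k - y k))) (z k - y k) := by
      have := ((((hasDerivAt_id (z k - y k)).const_mul (2 * Real.pi)).cos).const_sub 1).pow 2
      refine this.congr_deriv ?_
      simp only [id, mul_one]
      push_cast
      ring
    exact hh.comp_hasFDerivAt y hp
  have h2 := HasFDerivAt.fun_sum (u := Finset.univ) fun k (_ : k ∈ Finset.univ) => hcos k
  simp only [rho2]
  rw [fderiv_fun_add h1 h2.differentiableAt, h2.fderiv, add_apply]
  simp only [g]
  have hsd' : DifferentiableAt ℝ (fun y => sv (z - y)) y := hs.differentiableAt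
  rw [fderiv_ev (differentiableAt_const _) hsd' hJs, hsD, hJD, fderiv_fun_const]
  simp [ev_def, Finset.sum_neg_distrib]
  ring

/-- Both derivatives of the squared distance to third order. -/
lemma exists_drho2 : ∃ C, 0 < C ∧ ∀ y z a,
    |fderiv ℝ (fun z => S.rho2 z (z - y)) z a -
        (2 * S.g z (sv (z - y)) a + S.dgs z a (sv (z - y)))| ≤ C * dist0 (z - y) ^ 3 * ‖a‖ ∧
      |fderiv ℝ (fun y => S.rho2 z (z - y)) y a + 2 * S.g z (sv (z - y)) a| ≤
        C * dist0 (z - y) ^ 3 * ‖a‖ := by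
  obtain ⟨M, hM0, hM⟩ := exists_bound S.smooth_Om.smooth.continuous S.smooth_Om.periodic
  obtain ⟨K, hK0, hK⟩ := exists_bound S.J_smooth.smooth.continuous S.J_smooth.periodic
  refine ⟨2 * (12 * (M * (20 * K))) + 4 * 2560, by positivity, fun y z a => ?_⟩
  rw [S.fderiv_rho2_sub, S.fderiv_rho2_centre]
  set d := dist0 (z - y)
  set s := sv (z - y)
  have hd0 : 0 ≤ d := dist0_nonneg _
  have hsn : ‖s‖ ≤ d := norm_sv_le _
  have hJn : ∀ u : V, ‖S.J z u‖ ≤ K * ‖u‖ := fun u =>
    ((S.J z).le_opNorm u).trans (mul_le_mul_of_nonneg_right (hK z) (norm_nonneg _))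
  have hc := norm_cs_sub_le (z - y) a
  have t1 : |ev (S.Om z) (cs (z - y) a - a) (S.J z s)| ≤ 12 * (M * (20 * K)) * d ^ 3 * ‖a‖ := by
    refine (abs_ev_le _ _ _).trans ?_
    calc 12 * (‖S.Om z‖ * (‖cs (z - y) a - a‖ * ‖S.J z s‖)) ≤
          12 * (M * ((20 * d ^ 2 * ‖a‖) * (K * d))) := by
          gcongr
          · exact hM z
          · exact (hJn s).trans (by gcongr)
      _ = _ := by ring
  have t2 : |ev (S.Om z) s (S.J z (cs (z - y) a - a))| ≤ 12 * (M * (20 * K)) * d ^ 3 * ‖a‖ := by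
    refine (abs_ev_le _ _ _).trans ?_
    calc 12 * (‖S.Om z‖ * (‖s‖ * ‖S.J z (cs (z - y) a - a)‖)) ≤
          12 * (M * (d * (K * (20 * d ^ 2 * ‖a‖)))) := by
          gcongr
          · exact hM z
          · exact (hJn _).trans (by gcongr)
      _ = _ := by ring
  have t3 : |∑ k, 2 * (1 - Real.cos (2 * Real.pi * (z k - y k))) * (2 * Real.pi) *
      Real.sin (2 * Real.pi * (z k - y k)) * a k| ≤ 4 * 2560 * d ^ 3 * ‖a‖ := by
    refine (Finset.abs_sum_le_sum_abs _ _).trans ((Finset.sum_le_sum fun k _ =>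
      (?_ : _ ≤ 2560 * d ^ 3 * ‖a‖)).trans (le_of_eq (by simp; ring)))
    have hk := one_sub_cos_le (z - y) k
    have hsk : |Real.sin (2 * Real.pi * (z k - y k))| ≤ 8 * d := by
      have h1 : |sv (z - y) k| ≤ d := (abs_coord_le' _ k).trans hsn
      simp only [sv, Pi.sub_apply] at h1
      rw [abs_div, abs_of_pos (by positivity : (0 : ℝ) < 2 * Real.pi),
        div_le_iff₀ (by positivity)] at h1
      refine h1.trans ?_
      nlinarith [Real.pi_le_four]
    simp only [Pi.sub_apply] at hk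
    rw [abs_mul, abs_mul, abs_mul, abs_mul, abs_of_nonneg hk.1,
      abs_of_pos (two_pos (α := ℝ)), abs_of_pos (by positivity : (0 : ℝ) < 2 * Real.pi)]
    calc 2 * (1 - Real.cos (2 * Real.pi * (z k - y k))) * (2 * Real.pi) *
        |Real.sin (2 * Real.pi * (z k - y k))| * |a k| ≤
          2 * (20 * d ^ 2) * (2 * 4) * (8 * d) * ‖a‖ := by
          gcongr
          · exact hk.2
          · exact Real.pi_le_four
          · exact abs_coord_le' a k
      _ = _ := by ring
  have hg1 : ev (S.Om z) a (S.J z s) = S.g z s a := S.g_symm z a s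
  have hg2 : ev (S.Om z) s (S.J z a) = S.g z s a := rfl
  have e1 : ev (S.Om z) (cs (z - y) a - a) (S.J z s) =
      ev (S.Om z) (cs (z - y) a) (S.J z s) - ev (S.Om z) a (S.J z s) := by
    simp only [ev_def, Pi.sub_apply]; ring
  have e2 : ev (S.Om z) s (S.J z (cs (z - y) a - a)) =
      ev (S.Om z) s (S.J z (cs (z - y) a)) - ev (S.Om z) s (S.J z a) := by
    rw [map_sub]; simp only [ev_def, Pi.sub_apply]; ring
  rw [e1] at t1
  rw [e2] at t2
  rw [dgs, ev_add_right]
  rw [abs_le] at t1 t2 t3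
  constructor <;> rw [abs_le] <;> constructor <;> linarith

/-- The derivative of `ι_v Ω - w` at the centre. -/
noncomputable def cen (z v : V) (i j : Fin 4) : ℝ := ev (fderiv ℝ S.Om z (e i)) v (e j)
  - (1 / 2 * ev (fderiv ℝ S.Om z v) (e i) (e j)
      - 1 / 2 * ev (S.Om z) (e i) (fderiv ℝ S.J z v (S.J z (e j))))

/-- Its antisymmetrisation. -/
noncomputable def cenForm (z v : V) : Form :=
  WithLp.toLp 2 fun k => S.cen z v (fi k) (se k) - S.cen z v (se k) (fi k)

lemma exists_near_cen : ∃ P, 0 < P ∧ ∀ y v z i j,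
    |fderiv ℝ (S.om1 y v) z (e i) j - S.cen z v i j| ≤ P * ‖v‖ * dist0 (z - y) := by
  obtain ⟨M, hM0, hM⟩ := exists_bound S.smooth_Om.smooth.continuous S.smooth_Om.periodic
  obtain ⟨M1, hM10, hM1⟩ := S.smooth_Om.exists_fderiv_bound
  obtain ⟨K, hK0, hK⟩ := exists_bound S.J_smooth.smooth.continuous S.J_smooth.periodic
  obtain ⟨K1, hK10, hK1⟩ := S.J_smooth.exists_fderiv_bound
  obtain ⟨M2, hM20, hM2⟩ := exists_bound
    ((S.smooth_Om.smooth.fderiv_right (m := (⊤ : ℕ∞)) (by simp)).continuous_fderiv (by simp))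
    (periodic_fderiv (periodic_fderiv S.smooth_Om.periodic))
  obtain ⟨K2, hK20, hK2⟩ := exists_bound
    ((S.J_smooth.smooth.fderiv_right (m := (⊤ : ℕ∞)) (by simp)).continuous_fderiv (by simp))
    (periodic_fderiv (periodic_fderiv S.J_smooth.periodic))
  refine ⟨12 * (M2 + 20 * M1 + M1 * K1 * K + 20 * M * K1 * K + M * (K2 * K + K1 * K1)),
    by positivity, fun y v z i j => ?_⟩
  obtain ⟨hsd, hsD⟩ := hasFDerivAt_sv_sub y z
  set d := dist0 (z - y)
  have hd0 : 0 ≤ d := dist0_nonneg _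
  have hd1 : d ≤ 1 := dist0_le_one _
  set s := sv (z - y) with hs
  set O := S.Om z
  set L := fderiv ℝ S.Om z
  set DJ := fderiv ℝ S.J z
  -- derivatives of the coefficients
  have hOmd := S.smooth_Om.differentiableAt z
  have hDO : DifferentiableAt ℝ (fderiv ℝ S.Om) z :=
    (S.smooth_Om.smooth.fderiv_right (m := (⊤ : ℕ∞)) (by simp)).differentiable (by simp) z
  have hDJ : DifferentiableAt ℝ (fderiv ℝ S.J) z :=
    (S.J_smooth.smooth.fderiv_right (m := (⊤ : ℕ∞)) (by simp)).differentiable (by simp) z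
  have hOv : DifferentiableAt ℝ (fun z => fderiv ℝ S.Om z v) z :=
    (hDO.hasFDerivAt.clm_apply (hasFDerivAt_const v z)).differentiableAt
  have hOvD : ∀ a, ‖fderiv ℝ (fun z => fderiv ℝ S.Om z v) z a‖ ≤ M2 * ‖a‖ * ‖v‖ := fun a => by
    rw [(hDO.hasFDerivAt.clm_apply (hasFDerivAt_const v z)).fderiv]
    simp only [add_apply, ContinuousLinearMap.comp_apply, zero_apply, map_zero,
      ContinuousLinearMap.flip_apply, zero_add]
    refine ((fderiv ℝ (fderiv ℝ S.Om) z).le_opNorm₂ a v).trans ?_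
    gcongr
    exact hM2 z
  have hKj : ∀ b, DifferentiableAt ℝ (fun z => fderiv ℝ S.J z v (S.J z b)) z := fun b =>
    ((hDJ.hasFDerivAt.clm_apply (hasFDerivAt_const v z)).clm_apply
      ((S.J_smooth.differentiableAt z).hasFDerivAt.clm_apply (hasFDerivAt_const b z))).differentiableAt
  have hJe : ∀ j, ‖S.J z (e j)‖ ≤ K := fun j => ((S.J z).le_opNorm _).trans
    ((mul_le_of_le_one_right (norm_nonneg _) (e_norm_le j)).trans (hK z))
  have hKjD : ∀ a j, ‖a‖ ≤ 1 →
      ‖fderiv ℝ (fun z => fderiv ℝ S.J z v (S.J z (e j))) z a‖ ≤ (K2 * K + K1 * K1) * ‖v‖ := by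
    intro a j ha
    rw [((hDJ.hasFDerivAt.clm_apply (hasFDerivAt_const v z)).clm_apply
      ((S.J_smooth.differentiableAt z).hasFDerivAt.clm_apply (hasFDerivAt_const (e j) z))).fderiv]
    simp only [add_apply, ContinuousLinearMap.comp_apply, zero_apply, map_zero,
      ContinuousLinearMap.flip_apply, zero_add]
    refine (norm_add_le _ _).trans ?_
    have b1 : ‖DJ v (DJ a (e j))‖ ≤ K1 * K1 * ‖v‖ := by
      refine ((DJ v).le_opNorm _).trans ?_
      calc ‖DJ v‖ * ‖DJ a (e j)‖ ≤ (K1 * ‖v‖) * K1 := by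
            gcongr
            · exact hK1 z v
            · refine ((DJ a).le_opNorm _).trans ((mul_le_of_le_one_right (norm_nonneg _)
                (e_norm_le j)).trans ((hK1 z a).trans (mul_le_of_le_one_right hK10.le ha)))
        _ = _ := by ring
    have b2 : ‖fderiv ℝ (fderiv ℝ S.J) z a v (S.J z (e j))‖ ≤ K2 * K * ‖v‖ := by
      refine ((fderiv ℝ (fderiv ℝ S.J) z a v).le_opNorm _).trans ?_
      calc ‖fderiv ℝ (fderiv ℝ S.J) z a v‖ * ‖S.J z (e j)‖ ≤ (K2 * ‖v‖) * K := by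
            gcongr
            · refine ((fderiv ℝ (fderiv ℝ S.J) z).le_opNorm₂ a v).trans ?_
              gcongr
              exact (mul_le_of_le_one_right (norm_nonneg _) ha).trans (hK2 z)
            · exact hJe j
        _ = _ := by ring
    refine (add_le_add ?_ ?_).trans_eq (by ring : K1 * K1 * ‖v‖ + K2 * K * ‖v‖ = _)
    · exact b1
    · exact b2
  -- the coordinates of the exterior derivative
  have hw : DifferentiableAt ℝ (S.wv y v) z :=
    ((S.contDiff_wv₂ v).comp (f := fun z : V => (z, y))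
      (contDiff_id.prodMk contDiff_const)).differentiable (by simp) z
  have hD : ∀ a j, fderiv ℝ (S.om1 y v) z a j = ev (L a) v (e j)
      - (1 / 2 * (ev (fderiv ℝ (fun z => fderiv ℝ S.Om z v) z a) s (e j)
          + ev (L v) (cs (z - y) a) (e j))
        - 1 / 2 * (ev (L a) s (DJ v (S.J z (e j))) + ev O (cs (z - y) a) (DJ v (S.J z (e j)))
          + ev O s (fderiv ℝ (fun z => fderiv ℝ S.J z v (S.J z (e j))) z a))) := by
    intro a j
    have hi : DifferentiableAt ℝ (fun z => iota v (S.Om z)) z :=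
      (S.contDiff_iota_Om v).differentiable (by simp) z
    change fderiv ℝ ((fun z => iota v (S.Om z)) - S.wv y v) z a j = _
    rw [← fderiv_coord (hi.sub hw)]
    simp only [Pi.sub_apply, iota, wv]
    have d1' : DifferentiableAt ℝ (fun z => ev (S.Om z) v (e j)) z :=
      (contDiff_ev S.smooth_Om.smooth contDiff_const contDiff_const).differentiable (by simp) z
    have d2 : DifferentiableAt ℝ (fun z => ev (fderiv ℝ S.Om z v) (sv (z - y)) (e j)) z :=
      (contDiff_ev ((S.smooth_Om.smooth.fderiv_right (by simp)).clm_apply contDiff_const)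
        (contDiff_sv.comp (contDiff_id.sub contDiff_const)) contDiff_const).differentiable
          (by simp) z
    have d3 : DifferentiableAt ℝ
        (fun z => ev (S.Om z) (sv (z - y)) (fderiv ℝ S.J z v (S.J z (e j)))) z :=
      (contDiff_ev S.smooth_Om.smooth (contDiff_sv.comp (contDiff_id.sub contDiff_const))
        (((S.J_smooth.smooth.fderiv_right (by simp)).clm_apply contDiff_const).clm_apply
          (S.J_smooth.smooth.clm_apply contDiff_const))).differentiable (by simp) z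
    rw [fderiv_fun_sub d1' ((d2.const_mul _).fun_sub (d3.const_mul _)), sub_apply,
      fderiv_fun_sub (d2.const_mul _) (d3.const_mul _), sub_apply, fderiv_const_mul d2,
      fderiv_const_mul d3, smul_apply, smul_apply, fderiv_ev hOmd (differentiableAt_const _)
        (differentiableAt_const _), fderiv_ev hOv hsd (differentiableAt_const _),
      fderiv_ev hOmd hsd (hKj (e j)), hsD, fderiv_fun_const, fderiv_fun_const]
    simp [ev_def, L, O, DJ, hs]
  have hve : ∀ j, ‖DJ v (S.J z (e j))‖ ≤ K1 * K * ‖v‖ := fun j => by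
    refine ((DJ v).le_opNorm _).trans ?_
    calc ‖DJ v‖ * ‖S.J z (e j)‖ ≤ (K1 * ‖v‖) * K := by
          gcongr
          · exact hK1 z v
          · exact hJe j
      _ = _ := by ring
  have hLa : ∀ i, ‖L (e i)‖ ≤ M1 := fun i =>
    (hM1 z _).trans (mul_le_of_le_one_right hM10.le (e_norm_le i))
  have hLa : ∀ i, ‖L (e i)‖ ≤ M1 := fun i =>
    (hM1 z _).trans (mul_le_of_le_one_right hM10.le (e_norm_le i))
  have hc : ∀ i, ‖cs (z - y) (e i) - e i‖ ≤ 20 * d := fun i =>
    (norm_cs_sub_le _ _).trans (by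
      calc 20 * d ^ 2 * ‖e i‖ ≤ 20 * d * 1 := by
            gcongr
            · nlinarith
            · exact e_norm_le i
        _ = 20 * d := by ring)
  rw [hD]
  simp only [cen]
  have a1 : |ev (fderiv ℝ (fun z => fderiv ℝ S.Om z v) z (e i)) s (e j)| ≤
      12 * M2 * ‖v‖ * d := by
    refine (abs_ev_le _ _ _).trans ?_
    calc 12 * (‖fderiv ℝ (fun z => fderiv ℝ S.Om z v) z (e i)‖ * (‖s‖ * ‖e j‖))
        ≤ 12 * ((M2 * 1 * ‖v‖) * (d * 1)) := by
          gcongr
          · exact (hOvD _).trans (by gcongr; exact e_norm_le i)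
          · exact norm_sv_le _
          · exact e_norm_le j
      _ = _ := by ring
  have a2 : |ev (L v) (cs (z - y) (e i) - e i) (e j)| ≤ 12 * (20 * M1) * ‖v‖ * d := by
    refine (abs_ev_le _ _ _).trans ?_
    calc 12 * (‖L v‖ * (‖cs (z - y) (e i) - e i‖ * ‖e j‖)) ≤ 12 * (M1 * ‖v‖ * (20 * d * 1)) := by
          gcongr
          · exact hM1 z v
          · exact hc i
          · exact e_norm_le j
      _ = _ := by ring
  have a3 : |ev (L (e i)) s (DJ v (S.J z (e j)))| ≤ 12 * (M1 * K1 * K) * ‖v‖ * d := by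
    refine (abs_ev_le _ _ _).trans ?_
    calc 12 * (‖L (e i)‖ * (‖s‖ * ‖DJ v (S.J z (e j))‖)) ≤
          12 * (M1 * (d * (K1 * K * ‖v‖))) := by
          gcongr
          · exact hLa i
          · exact norm_sv_le _
          · exact hve j
      _ = _ := by ring
  have a4 : |ev O (cs (z - y) (e i) - e i) (DJ v (S.J z (e j)))| ≤
      12 * (20 * M * K1 * K) * ‖v‖ * d := by
    refine (abs_ev_le _ _ _).trans ?_
    calc 12 * (‖O‖ * (‖cs (z - y) (e i) - e i‖ * ‖DJ v (S.J z (e j))‖)) ≤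
          12 * (M * (20 * d * (K1 * K * ‖v‖))) := by
          gcongr
          · exact hM z
          · exact hc i
          · exact hve j
      _ = _ := by ring
  have a5 : |ev O s (fderiv ℝ (fun z => fderiv ℝ S.J z v (S.J z (e j))) z (e i))| ≤
      12 * (M * (K2 * K + K1 * K1)) * ‖v‖ * d := by
    refine (abs_ev_le _ _ _).trans ?_
    calc 12 * (‖O‖ * (‖s‖ * ‖fderiv ℝ (fun z => fderiv ℝ S.J z v (S.J z (e j))) z (e i)‖)) ≤
          12 * (M * (d * ((K2 * K + K1 * K1) * ‖v‖))) := by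
          gcongr
          · exact hM z
          · exact norm_sv_le _
          · exact hKjD _ j (e_norm_le i)
      _ = _ := by ring
  have hsub : ∀ (α : Form) (a b c : V), ev α (a - b) c = ev α a c - ev α b c := fun α a b c => by
    simp only [ev_def, Pi.sub_apply]; ring
  rw [hsub] at a2 a4
  rw [abs_le] at a1 a2 a3 a4 a5 ⊢
  constructor <;> linarith

lemma exists_cen_bound : ∃ Q, 0 < Q ∧ ∀ z v i j, |S.cen z v i j| ≤ Q * ‖v‖ := by
  obtain ⟨M, hM0, hM⟩ := exists_bound S.smooth_Om.smooth.continuous S.smooth_Om.periodic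
  obtain ⟨M1, hM10, hM1⟩ := S.smooth_Om.exists_fderiv_bound
  obtain ⟨K, hK0, hK⟩ := exists_bound S.J_smooth.smooth.continuous S.J_smooth.periodic
  obtain ⟨K1, hK10, hK1⟩ := S.J_smooth.exists_fderiv_bound
  refine ⟨12 * (2 * M1 + M1 + M * K1 * K), by positivity, fun z v i j => ?_⟩
  set O := S.Om z
  set L := fderiv ℝ S.Om z
  set DJ := fderiv ℝ S.J z
  have hJe : ∀ j, ‖S.J z (e j)‖ ≤ K := fun j => ((S.J z).le_opNorm _).trans
    ((mul_le_of_le_one_right (norm_nonneg _) (e_norm_le j)).trans (hK z))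
  have hve : ∀ j, ‖DJ v (S.J z (e j))‖ ≤ K1 * K * ‖v‖ := fun j => by
    refine ((DJ v).le_opNorm _).trans ?_
    calc ‖DJ v‖ * ‖S.J z (e j)‖ ≤ (K1 * ‖v‖) * K := by
          gcongr
          · exact hK1 z v
          · exact hJe j
      _ = _ := by ring
  have hLa : ∀ i, ‖L (e i)‖ ≤ M1 := fun i =>
    (hM1 z _).trans (mul_le_of_le_one_right hM10.le (e_norm_le i))
  have hLa : ∀ i, ‖L (e i)‖ ≤ M1 := fun i =>
    (hM1 z _).trans (mul_le_of_le_one_right hM10.le (e_norm_le i))
  have a1 : |ev (L (e i)) v (e j)| ≤ 12 * M1 * ‖v‖ := by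
    refine (abs_ev_le _ _ _).trans ?_
    calc 12 * (‖L (e i)‖ * (‖v‖ * ‖e j‖)) ≤ 12 * (M1 * (‖v‖ * 1)) := by
          gcongr
          · exact hLa i
          · exact e_norm_le j
      _ = _ := by ring
  have a2 : |ev (L v) (e i) (e j)| ≤ 12 * M1 * ‖v‖ := by
    refine (abs_ev_le _ _ _).trans ?_
    calc 12 * (‖L v‖ * (‖e i‖ * ‖e j‖)) ≤ 12 * (M1 * ‖v‖ * (1 * 1)) := by
          gcongr
          · exact hM1 z v
          · exact e_norm_le i
          · exact e_norm_le j
      _ = _ := by ring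
  have a3 : |ev O (e i) (DJ v (S.J z (e j)))| ≤ 12 * (M * K1 * K) * ‖v‖ := by
    refine (abs_ev_le _ _ _).trans ?_
    calc 12 * (‖O‖ * (‖e i‖ * ‖DJ v (S.J z (e j))‖)) ≤ 12 * (M * (1 * (K1 * K * ‖v‖))) := by
          gcongr
          · exact hM z
          · exact e_norm_le i
          · exact hve j
      _ = _ := by ring
  have hMv : 0 ≤ M1 * ‖v‖ := by positivity
  have hKv : 0 ≤ M * K1 * K * ‖v‖ := by positivity
  rw [abs_le] at a1 a2 a3 ⊢
  simp only [cen]
  constructor <;> linarith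

lemma exists_q_cenForm : ∃ R, 0 < R ∧ ∀ z v h, S.Psd z h → q h (S.Om z) = 1 →
    |q h (S.cenForm z v)| ≤ R * Real.sqrt (S.B z h v v) := by
  obtain ⟨M, hM0, hM⟩ := exists_bound S.smooth_Om.smooth.continuous S.smooth_Om.periodic
  obtain ⟨M1, hM10, hM1⟩ := S.smooth_Om.exists_fderiv_bound
  obtain ⟨c0, C0, hc0, hC0, hg⟩ := S.Om_bounds
  obtain ⟨W, hW0, hW⟩ := S.exists_wedge_iota
  refine ⟨W * (12 * (M * (36 * M1)) / c0), by positivity, fun z v h hh htr => ?_⟩
  set O := S.Om z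
  set L := fderiv ℝ S.Om z
  set DJ := fderiv ℝ S.J z
  have hLa : ∀ i, ‖L (e i)‖ ≤ M1 := fun i =>
    (hM1 z _).trans (mul_le_of_le_one_right hM10.le (e_norm_le i))
  set A : Form := ofSkew fun a b =>
    1 / 2 * (ev O a (DJ v (S.J z b)) - ev O b (DJ v (S.J z a))) with hA
  have hAe : ∀ a b, ev A a b =
      1 / 2 * (ev O a (DJ v (S.J z b)) - ev O b (DJ v (S.J z a))) := fun a b =>
    ev_ofSkew (fun a b => 1 / 2 * (ev O a (DJ v (S.J z b)) - ev O b (DJ v (S.J z a))))
      (fun a b => by ring)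
      (fun a a' b => by simp only [map_add, ev_add_left, ev_add_right]; ring)
      (fun t a b => by simp only [map_smul, ev_smul_left, ev_smul_right]; ring) a b
  have hAinv : piP (S.J z) A = 0 := form_ext fun a b => by
    rw [ev_piP, hAe, hAe, ev_zero]
    have key : ∀ a b, ev O a (DJ v (S.J z b)) = ev O (S.J z a) (DJ v b) := fun a b => by
      have h0 := S.dJ_J z v b
      rw [eq_neg_of_add_eq_zero_left h0, ev_neg_right,
        ← S.ev_inv (S.piM_Om z) a (S.J z (DJ v b)), S.J_sq, ev_neg_right, neg_neg]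
    rw [key a b, key b a, S.J_sq, S.J_sq, map_neg, map_neg, ev_neg_right, ev_neg_right]
    ring
  set X := dualVec L
  set θ := (S.kap z)⁻¹ • iota X O with hθ
  have hk := S.kap_pos z
  set Z : Form := wedge θ (iota v O) - pair θ v • O with hZ
  have hcentre : ∀ k, S.cenForm z v k = A k + Z k := by
    intro k
    have e1 := det4_dualVec L v k
    have e2 := pfaffian_div O X v k
    rw [show q O O / 2 = S.kap z from rfl] at e2
    have e3 : Z k = -det4 X v (e (fi k)) (e (se k)) := by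
      simp only [hZ, hθ, PiLp.sub_apply, PiLp.smul_apply, wedge_apply, pair, Pi.smul_apply,
        smul_eq_mul]
      have e4 : ∑ i, (S.kap z)⁻¹ * iota X O i * v i = (S.kap z)⁻¹ * ev O X v := by
        rw [← pair_iota, pair, Finset.mul_sum]
        exact Finset.sum_congr rfl fun i _ => by ring
      rw [e4]
      field_simp
      linarith
    rw [e3, hA, ofSkew_apply, e1]
    simp only [cenForm, cen]
    rw [ev_skew (L v) (e (se k)) (e (fi k)), ev_skew (L (e (fi k))) (e (se k)) v]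
    ring
  have hθn : ‖θ‖ ≤ 12 * (M * (36 * M1)) / c0 := by
    rw [hθ, norm_smul, Real.norm_eq_abs, abs_inv, abs_of_pos hk, div_eq_inv_mul]
    refine mul_le_mul (inv_anti₀ hc0 (hg z z).2.2.1) ((norm_iota_le _ _).trans ?_)
      (norm_nonneg _) (by positivity)
    gcongr
    · exact hM z
    · exact norm_dualVec_le L hLa
  have hAq : q h A = 0 := by
    rw [S.q_inv_piP hh.1, hAinv, q_zero_right]
  have hZq : |q h Z| ≤ W * (12 * (M * (36 * M1)) / c0) * Real.sqrt (S.B z h v v) := by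
    rw [hZ, q_sub_right, q_smul_right, htr, mul_one]
    exact (hW z h θ v hh htr).trans
      (mul_le_mul_of_nonneg_right (mul_le_mul_of_nonneg_left hθn hW0.le) (Real.sqrt_nonneg _))

  rw [show S.cenForm z v = A + Z from by ext k; rw [PiLp.add_apply]; exact hcentre k,
    q_add_right, hAq, zero_add]
  exact hZq

/-- The exterior derivative of `ι_v Ω - w`. -/
lemma exists_d_om1 : ∃ C, 0 < C ∧ ∀ y v z,
    ‖d1 (S.om1 y v) z‖ ≤ C * ‖v‖ ∧
      ∀ h, S.Psd z h → q h (S.Om z) = 1 → |q h (d1 (S.om1 y v) z)| ≤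
        C * (Real.sqrt (S.B z h v v) + ‖v‖ * dist0 (z - y)) := by
  obtain ⟨P, hP0, hP⟩ := S.exists_near_cen
  obtain ⟨Q, hQ0, hQ⟩ := S.exists_cen_bound
  obtain ⟨R, hR0, hR⟩ := S.exists_q_cenForm
  obtain ⟨N, hN0, hN⟩ := S.exists_norm_psd
  refine ⟨12 * P + 12 * Q + R + 6 * (N * (12 * P)), by positivity, fun y v z => ?_⟩
  set d := dist0 (z - y)
  have hd0 : 0 ≤ d := dist0_nonneg _
  have hd1 : d ≤ 1 := dist0_le_one _
  have hsum : ∀ k, |(d1 (S.om1 y v) z - S.cenForm z v) k| ≤ 2 * (P * ‖v‖ * d) := fun k => by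
    rw [PiLp.sub_apply, d1_apply, cenForm]
    have b1 := abs_le.1 (hP y v z (fi k) (se k))
    have b2 := abs_le.1 (hP y v z (se k) (fi k))
    rw [abs_le]
    constructor <;> linarith
  have hdiff : ‖d1 (S.om1 y v) z - S.cenForm z v‖ ≤ 12 * P * (‖v‖ * d) :=
    (norm_le_sum _).trans ((Finset.sum_le_sum fun k _ => hsum k).trans (le_of_eq (by simp; ring)))
  have hcen : ‖S.cenForm z v‖ ≤ 12 * Q * ‖v‖ := by
    refine (norm_le_sum _).trans ((Finset.sum_le_sum fun k _ =>
      (?_ : _ ≤ 2 * (Q * ‖v‖))).trans (le_of_eq (by simp; ring)))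
    exact (abs_sub _ _).trans ((add_le_add (hQ z v _ _) (hQ z v _ _)).trans_eq (by ring))
  refine ⟨?_, fun h hh htr => ?_⟩
  · calc ‖d1 (S.om1 y v) z‖ ≤ ‖d1 (S.om1 y v) z - S.cenForm z v‖ + ‖S.cenForm z v‖ :=
          norm_le_norm_sub_add _ _
      _ ≤ 12 * P * (‖v‖ * 1) + 12 * Q * ‖v‖ := by
          refine add_le_add (hdiff.trans ?_) hcen
          gcongr
      _ = (12 * P + 12 * Q) * ‖v‖ := by ring
      _ ≤ _ := by
          refine mul_le_mul_of_nonneg_right ?_ (norm_nonneg v)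
          rw [add_assoc (12 * P + 12 * Q)]
          exact le_add_of_nonneg_right (by positivity)
  · have h1 : |q h (d1 (S.om1 y v) z - S.cenForm z v)| ≤ 6 * (N * (12 * P)) * (‖v‖ * d) := by
      refine (abs_q_le _ _).trans ?_
      have hhn : ‖h‖ ≤ N := by simpa [htr] using hN z h hh
      calc 6 * (‖h‖ * ‖d1 (S.om1 y v) z - S.cenForm z v‖) ≤
            6 * (N * (12 * P * (‖v‖ * d))) := by gcongr
        _ = _ := by ring
    rw [q_sub_right] at h1
    have h2 := hR z v h hh htr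
    have hsB := Real.sqrt_nonneg (S.B z h v v)
    have hvd : 0 ≤ ‖v‖ * d := by positivity
    have e1 := mul_nonneg hR0.le hvd
    have e2 : 0 ≤ (12 * P + 12 * Q) * (Real.sqrt (S.B z h v v) + ‖v‖ * d) := by positivity
    have e3 : 0 ≤ 6 * (N * (12 * P)) * Real.sqrt (S.B z h v v) := by positivity
    rw [abs_le] at h1 h2 ⊢
    constructor <;> linarith

/-- The differentials of the weight in the point and in the centre. -/
lemma fderiv_th {r : ℝ} (hr : 0 < r) (y z : V) :
    grad (S.th r y) z = (-2 * S.th3 r y z) • grad (fun z => S.rho2 z (z - y)) z ∧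
      ∀ v, fderiv ℝ (fun y => S.th r y z) y v =
        -2 * S.th3 r y z * fderiv ℝ (fun y => S.rho2 z (z - y)) y v := by
  have hD : 0 < r ^ 2 + S.rho2 z (z - y) := by
    have := S.rho2_nonneg z (z - y)
    positivity
  have hh : HasDerivAt (fun t => r ^ 2 / (r ^ 2 + t) ^ 2) (-2 * S.th3 r y z)
      (S.rho2 z (z - y)) := by
    have := (hasDerivAt_const (S.rho2 z (z - y)) (r ^ 2)).fun_div
      (((hasDerivAt_id (S.rho2 z (z - y))).const_add (r ^ 2)).fun_pow 2) (by positivity)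
    refine this.congr_deriv ?_
    simp only [id, th3]
    push_cast
    field_simp
    ring
  have hz : DifferentiableAt ℝ (fun z => S.rho2 z (z - y)) z :=
    (S.contDiff_rho2_sub y).differentiable (by simp) z
  have hy : DifferentiableAt ℝ (fun y => S.rho2 z (z - y)) y :=
    (S.contDiff_rho2₂.comp (f := fun y : V => (z, y))
      (contDiff_const.prodMk contDiff_id)).differentiable (by simp) y
  have h1 := hh.comp_hasFDerivAt z hz.hasFDerivAt
  have h2 := hh.comp_hasFDerivAt y hy.hasFDerivAt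
  refine ⟨?_, fun v => ?_⟩
  · funext i
    simp only [grad, Pi.smul_apply, smul_eq_mul]
    rw [show S.th r y = (fun t => r ^ 2 / (r ^ 2 + t) ^ 2) ∘ fun z => S.rho2 z (z - y) from rfl,
      h1.fderiv]
    simp
  · rw [show (fun y => S.th r y z) = (fun t => r ^ 2 / (r ^ 2 + t) ^ 2) ∘
      fun y => S.rho2 z (z - y) from rfl, h2.fderiv]
    simp

/-- The first-order sizes entering the variation. -/
lemma exists_sizes : ∃ C, 0 < C ∧ ∀ y v z,
    ‖S.wv y v z‖ ≤ C * ‖v‖ * dist0 (z - y) ∧ ‖S.om1 y v z‖ ≤ C * ‖v‖ ∧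
      ‖(fun i => S.dgs z (e i) (sv (z - y)) : V)‖ ≤ C * dist0 (z - y) ^ 2 ∧
      |S.g z (sv (z - y)) v| ≤ C * ‖v‖ * dist0 (z - y) := by
  obtain ⟨M, hM0, hM⟩ := exists_bound S.smooth_Om.smooth.continuous S.smooth_Om.periodic
  obtain ⟨M1, hM10, hM1⟩ := S.smooth_Om.exists_fderiv_bound
  obtain ⟨K, hK0, hK⟩ := exists_bound S.J_smooth.smooth.continuous S.J_smooth.periodic
  obtain ⟨K1, hK10, hK1⟩ := S.J_smooth.exists_fderiv_bound
  set A := 12 * (M1 * K + M * K1 + M1 + M * K1 * K + M * K + M)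
  refine ⟨A, by positivity, fun y v z => ?_⟩
  set d := dist0 (z - y)
  set s := sv (z - y)
  have hd0 : 0 ≤ d := dist0_nonneg _
  have hd1 : d ≤ 1 := dist0_le_one _
  have hsn : ‖s‖ ≤ d := norm_sv_le _
  have hJn : ∀ u : V, ‖S.J z u‖ ≤ K * ‖u‖ := fun u =>
    ((S.J z).le_opNorm u).trans (mul_le_mul_of_nonneg_right (hK z) (norm_nonneg _))
  have hDJ : ∀ a u : V, ‖fderiv ℝ S.J z a u‖ ≤ K1 * ‖a‖ * ‖u‖ := fun a u =>
    ((fderiv ℝ S.J z a).le_opNorm u).trans (mul_le_mul_of_nonneg_right (hK1 z a) (norm_nonneg _))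
  have p1 : 0 ≤ M1 * K := by positivity
  have p2 : 0 ≤ M * K1 := by positivity
  have p3 : 0 ≤ M * K1 * K := by positivity
  have p4 : 0 ≤ M * K := by positivity
  have hw : ‖S.wv y v z‖ ≤ 12 * (M1 + M * K1 * K) * ‖v‖ * d := by
    refine (pi_norm_le_iff_of_nonneg (by positivity)).2 fun j => ?_
    have a1 : |ev (fderiv ℝ S.Om z v) s (e j)| ≤ 12 * M1 * ‖v‖ * d := by
      refine (abs_ev_le _ _ _).trans ?_
      calc 12 * (‖fderiv ℝ S.Om z v‖ * (‖s‖ * ‖e j‖)) ≤ 12 * (M1 * ‖v‖ * (d * 1)) := by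
            gcongr
            · exact hM1 z v
            · exact e_norm_le j
        _ = _ := by ring
    have a2 : |ev (S.Om z) s (fderiv ℝ S.J z v (S.J z (e j)))| ≤
        12 * (M * K1 * K) * ‖v‖ * d := by
      refine (abs_ev_le _ _ _).trans ?_
      calc 12 * (‖S.Om z‖ * (‖s‖ * ‖fderiv ℝ S.J z v (S.J z (e j))‖)) ≤
            12 * (M * (d * (K1 * ‖v‖ * (K * 1)))) := by
            gcongr
            · exact hM z
            · exact (hDJ v _).trans (by gcongr; exact (hJn _).trans (by gcongr; exact e_norm_le j))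
        _ = _ := by ring
    rw [Real.norm_eq_abs, wv]
    rw [abs_le] at a1 a2 ⊢
    have q1 : 0 ≤ M1 * ‖v‖ * d := by positivity
    have q2 : 0 ≤ M * K1 * K * ‖v‖ * d := by positivity
    constructor <;> nlinarith
  refine ⟨hw.trans (by gcongr; simp only [A]; linarith), ?_, ?_, ?_⟩
  · refine (norm_sub_le _ _).trans ((add_le_add ((norm_iota_le _ _).trans
      (le_of_eq (rfl : 12 * (‖S.Om z‖ * ‖v‖) = _))) (hw.trans (mul_le_of_le_one_right (by positivity) hd1))).trans ?_)
    calc 12 * (‖S.Om z‖ * ‖v‖) + 12 * (M1 + M * K1 * K) * ‖v‖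
        ≤ 12 * (M * ‖v‖) + 12 * (M1 + M * K1 * K) * ‖v‖ := by gcongr; exact hM z
      _ = 12 * (M + M1 + M * K1 * K) * ‖v‖ := by ring
      _ ≤ A * ‖v‖ := by gcongr; simp only [A]; linarith
  · refine (pi_norm_le_iff_of_nonneg (by positivity)).2 fun i => ?_
    rw [Real.norm_eq_abs, dgs]
    refine (abs_add_le _ _).trans ((add_le_add (abs_ev_le _ _ _) (abs_ev_le _ _ _)).trans ?_)
    calc 12 * (‖fderiv ℝ S.Om z (e i)‖ * (‖s‖ * ‖S.J z s‖)) +
          12 * (‖S.Om z‖ * (‖s‖ * ‖fderiv ℝ S.J z (e i) s‖))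
        ≤ 12 * (M1 * 1 * (d * (K * d))) + 12 * (M * (d * (K1 * 1 * d))) := by
          gcongr
          · exact (hM1 z _).trans (by gcongr; exact e_norm_le i)
          · exact (hJn s).trans (by gcongr)
          · exact hM z
          · exact (hDJ _ s).trans (by gcongr; exact e_norm_le i)
      _ = 12 * (M1 * K + M * K1) * d ^ 2 := by ring
      _ ≤ A * d ^ 2 := by gcongr; simp only [A]; linarith
  · refine (abs_ev_le _ _ _).trans ?_
    calc 12 * (‖S.Om z‖ * (‖s‖ * ‖S.J z v‖)) ≤ 12 * (M * (d * (K * ‖v‖))) := by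
          gcongr
          · exact hM z
          · exact hJn v
      _ = 12 * (M * K) * ‖v‖ * d := by ring
      _ ≤ A * ‖v‖ * d := by gcongr; simp only [A]; linarith

lemma pair_dgs (z s v : V) : pair (fun i => S.dgs z (e i) s) v = S.dgs z v s := by
  conv_rhs => rw [sum_e v]
  simp only [pair, dgs, Fin.sum_univ_four, map_add, map_smul, ev_add, ev_smul, add_apply,
    smul_apply, ev_add_right, ev_smul_right]
  ring

/-- The derivative of `ρ²` as a covector. -/
lemma exists_grad_split : ∃ C, 0 < C ∧ ∀ y z, ∃ R : V, ‖R‖ ≤ C * dist0 (z - y) ^ 3 ∧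
    grad (fun z => S.rho2 z (z - y)) z =
      (2 : ℝ) • S.gcov z (sv (z - y)) + (fun i => S.dgs z (e i) (sv (z - y))) + R := by
  obtain ⟨C, hC, h⟩ := S.exists_drho2
  refine ⟨C, hC, fun y z => ⟨grad (fun z => S.rho2 z (z - y)) z -
    ((2 : ℝ) • S.gcov z (sv (z - y)) + fun i => S.dgs z (e i) (sv (z - y))), ?_, by abel⟩⟩
  refine (pi_norm_le_iff_of_nonneg (by have := dist0_nonneg (z - y); positivity)).2 fun i => ?_
  rw [Real.norm_eq_abs]
  refine le_trans ((h y z (e i)).1) (mul_le_of_le_one_right ?_ (e_norm_le i))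
  have := dist0_nonneg (z - y)
  positivity

/-- The weighted sum of the error monomials. -/
lemma monomials_le {c δ a b d D : ℝ} (hc : 0 < c) (hc1 : c ≤ 1) (hδ : 0 < δ)
    (_hd : 0 ≤ d) (hcd : c * d ^ 2 ≤ D) :
    a * b + d * a + d ^ 2 * b + d ^ 3 + D * b + D * d ≤
      6 / c ^ 2 * (δ * (b ^ 2 + D) + δ⁻¹ * (a ^ 2 + D ^ 2)) := by
  have hD : 0 ≤ D := le_trans (by positivity) hcd
  set X := δ * (b ^ 2 + D) + δ⁻¹ * (a ^ 2 + D ^ 2) with hX
  have hdd : d ^ 2 ≤ D / c := by rw [le_div_iff₀ hc]; linarith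
  have am : ∀ u w U W : ℝ, u ^ 2 ≤ U → w ^ 2 ≤ W → u * w ≤ δ * U + δ⁻¹ * W := by
    intro u w U W hu hw
    have h1 : u * w ≤ δ * u ^ 2 + δ⁻¹ * w ^ 2 := by
      have : 0 ≤ δ⁻¹ * ((δ * u - w) ^ 2 + δ * u * w + (δ * u - w) ^ 2 * 0) ∨ u * w ≤ 0 := by
        rcases le_total 0 (u * w) with h | h
        · exact Or.inl (mul_nonneg (inv_nonneg.2 hδ.le) (by nlinarith [sq_nonneg (δ * u - w)]))
        · exact Or.inr h
      rcases this with h | h
      · have e : δ⁻¹ * ((δ * u - w) ^ 2 + δ * u * w + (δ * u - w) ^ 2 * 0) =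
            δ * u ^ 2 + δ⁻¹ * w ^ 2 - u * w := by field_simp; ring
        linarith
      · exact h.trans (by positivity)
    exact h1.trans (by gcongr)
  have hc2 : (1 : ℝ) ≤ 1 / c ^ 2 := by
    rw [le_div_iff₀ (by positivity)]; nlinarith
  have hbD : b ^ 2 + D / c ≤ 1 / c ^ 2 * (b ^ 2 + D) := by
    have : D / c ≤ 1 / c ^ 2 * D := by
      rw [div_mul_eq_mul_div, one_mul]
      exact div_le_div_of_nonneg_left hD (by positivity) (by nlinarith)
    nlinarith [mul_le_mul_of_nonneg_right hc2 (sq_nonneg b)]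
  have haD : a ^ 2 + (D / c) ^ 2 ≤ 1 / c ^ 2 * (a ^ 2 + D ^ 2) := by
    have : (D / c) ^ 2 = 1 / c ^ 2 * D ^ 2 := by ring
    nlinarith [mul_le_mul_of_nonneg_right hc2 (sq_nonneg a)]
  have hD2 : D ^ 2 ≤ (D / c) ^ 2 :=
    pow_le_pow_left₀ hD (by rw [le_div_iff₀ hc]; nlinarith) 2
  have hd4 : (d ^ 2) ^ 2 ≤ (D / c) ^ 2 := pow_le_pow_left₀ (sq_nonneg d) hdd 2
  have key : ∀ u w : ℝ, u ^ 2 ≤ b ^ 2 + D / c → w ^ 2 ≤ a ^ 2 + (D / c) ^ 2 →
      u * w ≤ 1 / c ^ 2 * X := by
    intro u w hu hw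
    refine (am u w _ _ (hu.trans hbD) (hw.trans haD)).trans (le_of_eq ?_)
    rw [hX]; ring
  have hb2 : b ^ 2 ≤ b ^ 2 + D / c := le_add_of_nonneg_right (by positivity)
  have hdb : d ^ 2 ≤ b ^ 2 + D / c := hdd.trans (le_add_of_nonneg_left (sq_nonneg b))
  have ha2 : a ^ 2 ≤ a ^ 2 + (D / c) ^ 2 := le_add_of_nonneg_right (sq_nonneg _)
  have hda : (d ^ 2) ^ 2 ≤ a ^ 2 + (D / c) ^ 2 := hd4.trans (le_add_of_nonneg_left (sq_nonneg a))
  have hDa : D ^ 2 ≤ a ^ 2 + (D / c) ^ 2 := hD2.trans (le_add_of_nonneg_left (sq_nonneg a))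
  have t1 := key b a hb2 ha2
  have t2 := key d a hdb ha2
  have t3 := key b (d ^ 2) hb2 hda
  have t4 := key d (d ^ 2) hdb hda
  have t5 := key b D hb2 hDa
  have t6 := key d D hdb hDa
  have e : (6 : ℝ) / c ^ 2 * X = 6 * (1 / c ^ 2 * X) := by ring
  rw [e]
  linarith

/-- The sizes of the variation. -/
lemma exists_var_bound : ∃ C, 0 < C ∧ ∀ r, 0 < r → ∀ y v z,
    ‖d1 (S.beta r y v) z‖ ≤ C * ‖v‖ * (r ^ 2 / (r ^ 2 + dist0 (z - y) ^ 2) ^ 2 +
        r ^ 2 * dist0 (z - y) / (r ^ 2 + dist0 (z - y) ^ 2) ^ 3) ∧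
      |fderiv ℝ (fun y => S.th r y z) y v| ≤
        C * ‖v‖ * (r ^ 2 * dist0 (z - y) / (r ^ 2 + dist0 (z - y) ^ 2) ^ 3) := by
  obtain ⟨C1, hC1, h1⟩ := S.exists_d_om1
  obtain ⟨C2, hC2, h2⟩ := S.exists_sizes
  obtain ⟨C3, hC3, h3⟩ := S.exists_grad_split
  obtain ⟨C4, hC4, h4⟩ := S.exists_drho2
  obtain ⟨c', C5, hc', -, hρ⟩ := S.exists_rho2_bounds
  obtain ⟨M, hM0, hM⟩ := exists_bound S.smooth_Om.smooth.continuous S.smooth_Om.periodic
  obtain ⟨K, hK0, hK⟩ := exists_bound S.J_smooth.smooth.continuous S.J_smooth.periodic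
  set c := min c' 1
  have hc : 0 < c := lt_min hc' one_pos
  set A := C1 + 24 * ((24 * (M * K) + C2 + C3) * C2) + 2 * (2 * C2 + C4)
  refine ⟨A / c ^ 3, by positivity, fun r hr y v z => ?_⟩
  set d := dist0 (z - y)
  have hd0 : 0 ≤ d := dist0_nonneg _
  have hd1 : d ≤ 1 := dist0_le_one _
  have hρ0 := (hρ z (z - y)).1
  have hD : c * (r ^ 2 + d ^ 2) ≤ r ^ 2 + S.rho2 z (z - y) := by
    nlinarith [min_le_right c' 1, mul_le_mul_of_nonneg_right (min_le_left c' 1) (sq_nonneg d),
      sq_nonneg r]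
  have hp : 0 < r ^ 2 + d ^ 2 := by positivity
  have hD0 : 0 < r ^ 2 + S.rho2 z (z - y) := lt_of_lt_of_le (by positivity) hD
  have hth : S.th r y z ≤ 1 / c ^ 3 * (r ^ 2 / (r ^ 2 + d ^ 2) ^ 2) := by
    rw [th]
    calc r ^ 2 / (r ^ 2 + S.rho2 z (z - y)) ^ 2 ≤ r ^ 2 / (c * (r ^ 2 + d ^ 2)) ^ 2 := by gcongr
      _ = 1 / c ^ 2 * (r ^ 2 / (r ^ 2 + d ^ 2) ^ 2) := by field_simp
      _ ≤ _ := mul_le_mul_of_nonneg_right (one_div_le_one_div_of_le (by positivity)
          (pow_le_pow_of_le_one hc.le (min_le_right _ _) (by norm_num))) (by positivity)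
  have hth3 : S.th3 r y z * d ≤ 1 / c ^ 3 * (r ^ 2 * d / (r ^ 2 + d ^ 2) ^ 3) := by
    rw [th3]
    calc r ^ 2 / (r ^ 2 + S.rho2 z (z - y)) ^ 3 * d ≤ r ^ 2 / (c * (r ^ 2 + d ^ 2)) ^ 3 * d := by
          gcongr
      _ = _ := by field_simp
  have h30 : 0 ≤ S.th3 r y z := by rw [th3]; positivity
  have h20 : 0 ≤ S.th r y z := by rw [th]; positivity
  obtain ⟨hg, hgy⟩ := S.fderiv_th hr y z
  obtain ⟨R, hR, hgr⟩ := h3 y z
  obtain ⟨hw, hom, hG, hgv⟩ := h2 y v z
  have hgn : ‖S.gcov z (sv (z - y))‖ ≤ 12 * (M * K) * d := by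
    refine (pi_norm_le_iff_of_nonneg (by positivity)).2 fun j => ?_
    rw [Real.norm_eq_abs]
    refine (abs_ev_le _ _ _).trans ?_
    calc 12 * (‖S.Om z‖ * (‖sv (z - y)‖ * ‖S.J z (e j)‖)) ≤ 12 * (M * (d * (K * 1))) := by
          gcongr
          · exact hM z
          · exact norm_sv_le _
          · exact ((S.J z).le_opNorm _).trans (by gcongr <;> [exact hK z; exact e_norm_le j])
      _ = _ := by ring
  constructor
  · change ‖d1 (fun z => S.th r y z • S.om1 y v z) z‖ ≤ _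
    have hdth : DifferentiableAt ℝ (S.th r y) z :=
      ((S.contDiff_th₂ hr).comp (f := fun z : V => (z, y))
        (contDiff_id.prodMk contDiff_const)).differentiable (by simp) z
    have hdom : DifferentiableAt ℝ (S.om1 y v) z :=
      (((S.contDiff_iota_Om v)).sub ((S.contDiff_wv₂ v).comp (f := fun z : V => (z, y))
        (contDiff_id.prodMk contDiff_const))).differentiable (by simp) z
    rw [d1_smul hdth hdom, hg, wedge_smul_left]
    refine (norm_add_le _ _).trans ?_
    rw [norm_smul, norm_smul, Real.norm_eq_abs, Real.norm_eq_abs, abs_of_nonneg h20, abs_mul,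
      abs_neg, abs_two, abs_of_nonneg h30]
    have hgn' : ‖grad (fun z => S.rho2 z (z - y)) z‖ ≤ (24 * (M * K) + C2 + C3) * d := by
      rw [hgr]
      refine (norm_add₃_le).trans ?_
      rw [norm_smul, Real.norm_eq_abs, abs_two]
      calc 2 * ‖S.gcov z (sv (z - y))‖ + ‖fun i => S.dgs z (e i) (sv (z - y))‖ + ‖R‖
            ≤ 2 * (12 * (M * K) * d) + C2 * d ^ 2 + C3 * d ^ 3 := by gcongr
        _ ≤ 2 * (12 * (M * K) * d) + C2 * d + C3 * d := by
            gcongr <;> exact pow_le_of_le_one hd0 hd1 (by norm_num)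
        _ = _ := by ring
    calc S.th r y z * ‖d1 (S.om1 y v) z‖ + 2 * S.th3 r y z *
          ‖wedge (grad (fun z => S.rho2 z (z - y)) z) (S.om1 y v z)‖
        ≤ S.th r y z * (C1 * ‖v‖) + 2 * S.th3 r y z *
            (12 * ((24 * (M * K) + C2 + C3) * d * (C2 * ‖v‖))) := by
          gcongr
          · exact (h1 y v z).1
          · exact (norm_wedge_le _ _).trans (by gcongr)
      _ = ‖v‖ * (C1 * S.th r y z + 24 * ((24 * (M * K) + C2 + C3) * C2) * (S.th3 r y z * d)) := by
          ring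
      _ ≤ ‖v‖ * (A * (1 / c ^ 3 * (r ^ 2 / (r ^ 2 + d ^ 2) ^ 2)) +
            A * (1 / c ^ 3 * (r ^ 2 * d / (r ^ 2 + d ^ 2) ^ 3))) := by
          gcongr
          · simp only [A]
            rw [add_assoc]
            exact le_add_of_nonneg_right (by positivity)
          · simp only [A]
            exact le_trans (le_add_of_nonneg_left hC1.le) (le_add_of_nonneg_right
              (by positivity : (0 : ℝ) ≤ 2 * (2 * C2 + C4)))
      _ = _ := by ring
  · rw [hgy, abs_mul, abs_mul, abs_neg, abs_two, abs_of_nonneg h30]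
    have hy : |fderiv ℝ (fun y => S.rho2 z (z - y)) y v| ≤ (2 * C2 + C4) * ‖v‖ * d := by
      have b1 := abs_le.1 (h4 y z v).2
      have b2 := abs_le.1 hgv
      have b3 : C4 * d ^ 3 * ‖v‖ ≤ C4 * d * ‖v‖ := by
        gcongr; exact pow_le_of_le_one hd0 hd1 (by norm_num)
      rw [abs_le]; constructor <;> linarith
    calc 2 * S.th3 r y z * |fderiv ℝ (fun y => S.rho2 z (z - y)) y v|
        ≤ 2 * S.th3 r y z * ((2 * C2 + C4) * ‖v‖ * d) := by gcongr
      _ = ‖v‖ * (2 * (2 * C2 + C4) * (S.th3 r y z * d)) := by ring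
      _ ≤ ‖v‖ * (A * (1 / c ^ 3 * (r ^ 2 * d / (r ^ 2 + d ^ 2) ^ 3))) := by
          gcongr
          simp only [A]
          exact le_add_of_nonneg_left (by positivity)
      _ = _ := by ring

/-- The principal parts cancel. -/
lemma exists_bracket : ∃ B, 0 < B ∧ ∀ y z v h, S.Psd z h → q h (S.Om z) = 1 →
    |q h (wedge (grad (fun z => S.rho2 z (z - y)) z) (S.om1 y v z)) +
      fderiv ℝ (fun y => S.rho2 z (z - y)) y v| ≤
      B * (1 + ‖v‖) * (Real.sqrt (S.B z h (sv (z - y)) (sv (z - y))) * Real.sqrt (S.B z h v v)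
        + dist0 (z - y) * Real.sqrt (S.B z h (sv (z - y)) (sv (z - y)))
        + dist0 (z - y) ^ 2 * Real.sqrt (S.B z h v v) + dist0 (z - y) ^ 3) := by
  obtain ⟨C2, hC2, h2⟩ := S.exists_sizes
  obtain ⟨C3, hC3, h3⟩ := S.exists_grad_split
  obtain ⟨C4, hC4, h4⟩ := S.exists_drho2
  obtain ⟨c0, C0, hc0, hC0, hk⟩ := S.Om_bounds
  obtain ⟨W1, hW1, hw1⟩ := S.exists_wedge_iota
  obtain ⟨W2, hW2, hw2⟩ := S.exists_wedge_gcov
  obtain ⟨N, hN0, hN⟩ := S.exists_norm_psd
  refine ⟨2 * C0 + 2 * (W2 * C2) + W1 * C2 + 6 * (N * (12 * (C2 * C2))) +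
    6 * (N * (12 * (C3 * C2))) + C4, by positivity, fun y z v h hh htr => ?_⟩
  obtain ⟨R, hR, hgr⟩ := h3 y z
  obtain ⟨hw, hom, hG, -⟩ := h2 y v z
  set d := dist0 (z - y)
  set s := sv (z - y)
  set n := 1 + ‖v‖
  set G : V := fun i => S.dgs z (e i) s
  have hd0 : 0 ≤ d := dist0_nonneg _
  have hn : ‖v‖ ≤ n := le_add_of_nonneg_left zero_le_one
  have hn1 : 1 ≤ n := le_add_of_nonneg_right (norm_nonneg v)
  set a := Real.sqrt (S.B z h s s)
  set b := Real.sqrt (S.B z h v v)
  have ha : 0 ≤ a := Real.sqrt_nonneg _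
  have hb : 0 ≤ b := Real.sqrt_nonneg _
  have hhn : ‖h‖ ≤ N := by simpa [htr] using hN z h hh
  -- the five pairings
  have p1 : |q h (wedge (S.gcov z s) (iota v (S.Om z))) - S.g z s v| ≤ C0 * (a * b) := by
    rw [S.q_wedge_gcov hh.1, htr, mul_one, sub_sub_cancel_left, abs_neg, abs_mul,
      abs_of_pos (S.kap_pos z)]
    refine mul_le_mul (hk z z).2.2.2 ?_ (abs_nonneg _) hC0.le
    rw [← Real.sqrt_sq_eq_abs, show a * b = Real.sqrt (S.B z h s s * S.B z h v v) from
      (Real.sqrt_mul (S.B_nonneg hh s) _).symm]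
    exact Real.sqrt_le_sqrt (S.B_cs hh s v)
  have p2 : |q h (wedge (S.gcov z s) (S.wv y v z)) - pair (S.wv y v z) (S.J z s)| ≤
      W2 * C2 * (n * (d * a)) :=
    calc _ ≤ W2 * ‖S.wv y v z‖ * a := hw2 z h s _ hh htr
      _ ≤ W2 * (C2 * n * d) * a := by gcongr; exact hw.trans (by gcongr)
      _ = _ := by ring
  have p3 : |q h (wedge G (iota v (S.Om z))) - S.dgs z v s| ≤ W1 * C2 * (d ^ 2 * b) := by
    have := hw1 z h G v hh htr
    rw [S.pair_dgs] at this
    calc _ ≤ W1 * ‖G‖ * b := this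
      _ ≤ W1 * (C2 * d ^ 2) * b := by gcongr
      _ = _ := by ring
  have p4 : |q h (wedge G (S.wv y v z))| ≤ 6 * (N * (12 * (C2 * C2))) * (n * d ^ 3) := by
    refine (abs_q_le _ _).trans ?_
    calc 6 * (‖h‖ * ‖wedge G (S.wv y v z)‖) ≤ 6 * (N * (12 * (C2 * d ^ 2 * (C2 * n * d)))) := by
          gcongr
          refine (norm_wedge_le _ _).trans ?_
          gcongr
          exact hw.trans (by gcongr)
      _ = _ := by ring
  have p5 : |q h (wedge R (S.om1 y v z))| ≤ 6 * (N * (12 * (C3 * C2))) * (n * d ^ 3) := by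
    refine (abs_q_le _ _).trans ?_
    calc 6 * (‖h‖ * ‖wedge R (S.om1 y v z)‖) ≤ 6 * (N * (12 * (C3 * d ^ 3 * (C2 * n)))) := by
          gcongr
          refine (norm_wedge_le _ _).trans ?_
          gcongr
          exact hom.trans (by gcongr)
      _ = _ := by ring
  have p6 : |fderiv ℝ (fun y => S.rho2 z (z - y)) y v + 2 * S.g z s v| ≤ C4 * (n * d ^ 3) :=
    calc _ ≤ C4 * d ^ 3 * ‖v‖ := (h4 y z v).2
      _ ≤ C4 * d ^ 3 * n := by gcongr
      _ = _ := by ring
  have hJ := S.pair_wv_J y v z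
  have e1 : q h (wedge (grad (fun z => S.rho2 z (z - y)) z) (S.om1 y v z)) =
      2 * q h (wedge (S.gcov z s) (iota v (S.Om z))) - 2 * q h (wedge (S.gcov z s) (S.wv y v z))
        + q h (wedge G (iota v (S.Om z))) - q h (wedge G (S.wv y v z))
        + q h (wedge R (S.om1 y v z)) := by
    rw [hgr, wedge_add_left, wedge_add_left, q_add_right, q_add_right]
    simp only [om1, wedge_smul_left, wedge_sub_right, q_smul_right, q_sub_right]
    ring
  rw [e1]
  have m1 : 0 ≤ a * b := mul_nonneg ha hb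
  have m2 : 0 ≤ d * a := mul_nonneg hd0 ha
  have m3 : 0 ≤ d ^ 2 * b := by positivity
  have m4 : 0 ≤ d ^ 3 := by positivity
  set T := n * (a * b + d * a + d ^ 2 * b + d ^ 3) with hT
  have t1 : a * b ≤ T := le_trans (le_mul_of_one_le_left m1 hn1)
    (mul_le_mul_of_nonneg_left (by linarith) (by linarith))
  have t2 : n * (d * a) ≤ T := mul_le_mul_of_nonneg_left (by linarith) (by linarith)
  have t3 : d ^ 2 * b ≤ T := le_trans (le_mul_of_one_le_left m3 hn1)
    (mul_le_mul_of_nonneg_left (by linarith) (by linarith))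
  have t4 : n * d ^ 3 ≤ T := mul_le_mul_of_nonneg_left (by linarith) (by linarith)
  have q1 := p1.trans (mul_le_mul_of_nonneg_left t1 hC0.le)
  have q2 := p2.trans (mul_le_mul_of_nonneg_left t2 (by positivity))
  have q3 := p3.trans (mul_le_mul_of_nonneg_left t3 (by positivity))
  have q4 := p4.trans (mul_le_mul_of_nonneg_left t4 (by positivity))
  have q5 := p5.trans (mul_le_mul_of_nonneg_left t4 (by positivity))
  have q6 := p6.trans (mul_le_mul_of_nonneg_left t4 hC4.le)
  rw [mul_assoc, ← hT]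
  rw [abs_le] at q1 q2 q3 q4 q5 q6 ⊢
  constructor <;> linarith

/-- The variation cancels the derivative of the weight in its centre. -/
lemma exists_variation : ∃ C, 0 < C ∧ ∀ r, 0 < r → ∀ y z v h, S.Psd z h → q h (S.Om z) = 1 →
    ∀ δ, 0 < δ → |q h (d1 (S.beta r y v) z) + fderiv ℝ (fun y => S.th r y z) y v| ≤
      C * (1 + ‖v‖) * (δ * (S.th3 r y z * S.B z h v v + S.th r y z) +
        δ⁻¹ * (S.th3 r y z * S.B z h (sv (z - y)) (sv (z - y)) + phi r (z - y))) := by
  obtain ⟨C1, hC1, h1⟩ := S.exists_d_om1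
  obtain ⟨B, hB, hbr⟩ := S.exists_bracket
  obtain ⟨c', C5, hc', -, hρ⟩ := S.exists_rho2_bounds
  set c := min c' 1
  have hc : 0 < c := lt_min hc' one_pos
  refine ⟨(C1 + 2 * B) * (6 / c ^ 3), by positivity, fun r hr y z v h hh htr δ hδ => ?_⟩
  obtain ⟨hg, hgy⟩ := S.fderiv_th hr y z
  set d := dist0 (z - y)
  set s := sv (z - y)
  set n := 1 + ‖v‖
  have hd0 : 0 ≤ d := dist0_nonneg _
  have hn : ‖v‖ ≤ n := le_add_of_nonneg_left zero_le_one
  have hn1 : 1 ≤ n := le_add_of_nonneg_right (norm_nonneg v)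
  set a := Real.sqrt (S.B z h s s)
  set b := Real.sqrt (S.B z h v v)
  have ha : 0 ≤ a := Real.sqrt_nonneg _
  have hb : 0 ≤ b := Real.sqrt_nonneg _
  change |q h (d1 (fun z => S.th r y z • S.om1 y v z) z) + _| ≤ _
  have hdth : DifferentiableAt ℝ (S.th r y) z :=
    ((S.contDiff_th₂ hr).comp (f := fun z : V => (z, y))
      (contDiff_id.prodMk contDiff_const)).differentiable (by simp) z
  have hdom : DifferentiableAt ℝ (S.om1 y v) z :=
    (((S.contDiff_iota_Om v)).sub ((S.contDiff_wv₂ v).comp (f := fun z : V => (z, y))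
      (contDiff_id.prodMk contDiff_const))).differentiable (by simp) z
  rw [d1_smul hdth hdom, hg, hgy, wedge_smul_left, q_add_right, q_smul_right, q_smul_right,
    add_assoc, ← mul_add]
  set W := S.th3 r y z
  set D := r ^ 2 + S.rho2 z (z - y) with hDdef
  have hρ0 := (hρ z (z - y)).1
  have hD : c * (r ^ 2 + d ^ 2) ≤ D := by
    nlinarith [min_le_right c' 1, mul_le_mul_of_nonneg_right (min_le_left c' 1) (sq_nonneg d),
      sq_nonneg r]
  have hp : 0 < r ^ 2 + d ^ 2 := by positivity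
  have hD0 : 0 < D := lt_of_lt_of_le (by positivity) hD
  have hW0 : 0 ≤ W := by simp only [W, th3]; positivity
  have hth : S.th r y z = W * D := by
    simp only [W, th, th3, ← hDdef]; field_simp
  have hphi : W * D ^ 2 ≤ c⁻¹ * phi r (z - y) := by
    simp only [W, th3, ← hDdef, phi]
    calc r ^ 2 / D ^ 3 * D ^ 2 = r ^ 2 / D := by field_simp
      _ ≤ r ^ 2 / (c * (r ^ 2 + d ^ 2)) := by gcongr
      _ = _ := by field_simp; rfl
  have hmon := monomials_le (a := a) (b := b) (D := D) hc (min_le_right _ _) hδ hd0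
    (le_trans (by nlinarith [sq_nonneg r]) hD)
  have hq1 : |q h (d1 (S.om1 y v) z)| ≤ C1 * n * (b + d) := by
    refine ((h1 y v z).2 h hh htr).trans ?_
    have : b + ‖v‖ * d ≤ n * (b + d) := by nlinarith [mul_nonneg (norm_nonneg v) hb]
    calc C1 * (b + ‖v‖ * d) ≤ C1 * (n * (b + d)) := by gcongr
      _ = _ := by ring
  refine (abs_add_le _ _).trans ?_
  rw [abs_mul, abs_mul, abs_of_nonneg (hth ▸ mul_nonneg hW0 hD0.le), abs_mul, abs_neg, abs_two,
    abs_of_nonneg hW0, hth]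
  set X := δ * (W * b ^ 2 + W * D) + δ⁻¹ * (W * a ^ 2 + phi r (z - y))
  set S' := a * b + d * a + d ^ 2 * b + d ^ 3 + D * b + D * d
  have hX : W * S' ≤ 6 / c ^ 3 * X := by
    have hWb : 0 ≤ W * b ^ 2 + W * D := by positivity
    have hWa : 0 ≤ W * a ^ 2 := by positivity
    have hci : 1 ≤ c⁻¹ := (one_le_inv₀ hc).2 (min_le_right _ _)
    have hph : 0 ≤ phi r (z - y) := phi_nonneg _ _
    calc W * S' ≤ W * (6 / c ^ 2 * (δ * (b ^ 2 + D) + δ⁻¹ * (a ^ 2 + D ^ 2))) :=
          mul_le_mul_of_nonneg_left hmon hW0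
      _ = 6 / c ^ 2 * (δ * (W * b ^ 2 + W * D) + δ⁻¹ * (W * a ^ 2 + W * D ^ 2)) := by ring
      _ ≤ 6 / c ^ 2 * (δ * (c⁻¹ * (W * b ^ 2 + W * D)) +
            δ⁻¹ * (c⁻¹ * (W * a ^ 2 + phi r (z - y)))) := by
          gcongr
          · exact le_mul_of_one_le_left hWb hci
          · rw [mul_add]
            exact add_le_add (le_mul_of_one_le_left hWa hci) hphi
      _ = _ := by simp only [X]; field_simp
  have hbr' := hbr y z v h hh htr
  have e1 : W * D * (b + d) ≤ W * S' := by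
    rw [mul_assoc]
    refine mul_le_mul_of_nonneg_left ?_ hW0
    have : 0 ≤ a * b + d * a + d ^ 2 * b + d ^ 3 := by positivity
    simp only [S']
    linarith
  have e2 : W * (a * b + d * a + d ^ 2 * b + d ^ 3) ≤ W * S' := by
    refine mul_le_mul_of_nonneg_left ?_ hW0
    have : 0 ≤ D * b + D * d := by positivity
    simp only [S']
    linarith
  have hba : S.B z h v v = b ^ 2 := (Real.sq_sqrt (S.B_nonneg hh v)).symm
  have hbs : S.B z h s s = a ^ 2 := (Real.sq_sqrt (S.B_nonneg hh s)).symm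
  rw [hba, hbs]
  calc W * D * |q h (d1 (S.om1 y v) z)| + 2 * W *
        |q h (wedge (grad (fun z => S.rho2 z (z - y)) z) (S.om1 y v z)) +
          fderiv ℝ (fun y => S.rho2 z (z - y)) y v|
      ≤ W * D * (C1 * n * (b + d)) + 2 * W *
          (B * n * (a * b + d * a + d ^ 2 * b + d ^ 3)) := by gcongr
    _ = C1 * n * (W * D * (b + d)) + 2 * B * n * (W * (a * b + d * a + d ^ 2 * b + d ^ 3)) := by
        ring
    _ ≤ C1 * n * (W * S') + 2 * B * n * (W * S') := by gcongr
    _ = (C1 + 2 * B) * n * (W * S') := by ring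
    _ ≤ (C1 + 2 * B) * n * (6 / c ^ 3 * X) := mul_le_mul_of_nonneg_left hX (by positivity)
    _ = _ := by ring

end Setup

end Vale.Agent.P204.Torus
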