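import Vale.Agent.P204.Torus.UData
import Vale.Agent.P204.Torus.Kernel
import Vale.Agent.P204.Torus.Coeffs
import Vale.Agent.P204.Torus.G
import Vale.Agent.P204.Torus.Facts

/-!
P204 on the four-torus: the coefficients of a positive current and of its regularisations.
-/

open MeasureTheory Filter Topology Set
open scoped BigOperators ComplexConjugate ENNReal

namespace Vale.Agent.P204.Torus

lemma smooth_add {a b : V → Form} (ha : Smooth a) (hb : Smooth b) : Smooth fun x => a x + b x :=
  ⟨ha.smooth.add hb.smooth, fun x n => by simp only [ha.periodic x n, hb.periodic x n]⟩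

lemma smooth_sub {a b : V → Form} (ha : Smooth a) (hb : Smooth b) : Smooth fun x => a x - b x :=
  ⟨ha.smooth.sub hb.smooth, fun x n => by simp only [ha.periodic x n, hb.periodic x n]⟩

lemma smooth_smul (r : ℝ) {a : V → Form} (ha : Smooth a) : Smooth fun x => r • a x :=
  ⟨ha.smooth.const_smul r, fun x n => by simp only [ha.periodic x n]⟩

lemma closed_sub {a b : V → Form} (ha : Smooth a) (hb : Smooth b) (hca : Closed a)
    (hcb : Closed b) : Closed fun x => a x - b x := by
  intro x u v w
  have e : fderiv ℝ (fun x => a x - b x) x = fderiv ℝ a x - fderiv ℝ b x :=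
    fderiv_fun_sub (ha.smooth.differentiable (by simp) x) (hb.smooth.differentiable (by simp) x)
  simp only [e, sub_apply, ev_sub]
  linarith [hca x u v w, hcb x u v w]

lemma wgt_le_one (e : ℝ) (ξ : Freq) : wgt e (-2) ξ ≤ 1 :=
  zpow_le_one_of_nonpos₀ (Finset.one_le_prod fun i _ => le_add_of_nonneg_right (by positivity))
    (by norm_num)

lemma tendsto_wgt_one (ξ : Freq) : Tendsto (fun e => wgt e (-2) ξ) (𝓝[>] (0 : ℝ)) (𝓝 1) := by
  have hb : Continuous fun e : ℝ => ∏ i, (1 + 4 * Real.pi ^ 2 * e ^ 2 * (ξ i : ℝ) ^ 2) := by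
    fun_prop
  have hc : ContinuousAt (fun e => wgt e (-2) ξ) 0 :=
    hb.continuousAt.zpow₀ _ (Or.inl (wgt_base_pos 0 ξ).ne')
  have h := hc.tendsto
  rw [show wgt 0 (-2) ξ = 1 by simp [wgt]] at h
  exact h.mono_left nhdsWithin_le_nhds

lemma qC_smul_cconj (r : ℝ) (a b : CForm) :
    (qC ((r : ℂ) • a) (cconj b)).re = r * (qC a (cconj b)).re := by
  rw [qC_smul_left, Complex.re_ofReal_mul]

lemma qC_cconj_smul (r : ℝ) (a b : CForm) :
    (qC a (cconj ((r : ℂ) • b))).re = r * (qC a (cconj b)).re := by
  rw [cconj_smul_real, qC_smul_right, Complex.re_ofReal_mul]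

/-- The convolution of a continuous field with the kernel. -/
lemma kconv_eq_synth {f : V → Form} {e : ℝ} (he : 0 < e) (hf : Continuous f) (hp : Periodic f)
    (hs : Summable fun ξ => ‖coef f ξ‖) (x : V) :
    kconv e f x = synth (fun ξ => (wgt e (-2) ξ : ℂ) • coef f ξ) x := by
  obtain ⟨hkc, hkp⟩ := ker_continuous he
  have hd : Summable fun ξ => ‖(wgt e (-2) ξ : ℂ) • coef f ξ‖ :=
    hs.of_nonneg_of_le (fun _ => norm_nonneg _) fun ξ => by
      rw [norm_smul, Complex.norm_real, Real.norm_of_nonneg (wgt_pos e _ ξ).le]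
      exact mul_le_of_le_one_left (norm_nonneg _) (wgt_le_one e ξ)
  have hh : Herm fun ξ => (wgt e (-2) ξ : ℂ) • coef f ξ := fun ξ => by
    simp only [coef_herm f ξ, cconj_smul_real, wgt_neg]
  ext k
  refine Complex.ofReal_inj.1 ?_
  rw [synth_apply_complex hd hh]
  have hint : Integrable (fun y => ker e (x - y) • f y) (volume.restrict cube) :=
    integrableOn_cube ((hkc.comp (by fun_prop)).smul hf)
  have h0 : kconv e f x k = ∫ y in cube, ker e (x - y) * f y k :=
    ((EuclideanSpace.proj (𝕜 := ℝ) k).integral_comp_comm hint).symm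
  let g : V → ℂ := fun y => (ker e (y + -x) : ℂ)
  have hgc : Continuous g := Complex.continuous_ofReal.comp (hkc.comp (by fun_prop))
  have hgp : Periodic g := fun y n => by
    simp only [g]
    rw [add_right_comm, hkp]
  have hfk : MemLp (fun y => (f y k : ℂ)) 2 (volume.restrict cube) :=
    memLp_coord (memLp_cube hf hp 2) k
  have h := parsevalS (memLp_cube hgc hgp 2) hfk
  have hkp' : Periodic fun y => (ker e y : ℂ) := fun y n => by simp only [hkp y n]
  rw [h0, ← integral_complex_ofReal]
  refine Eq.trans ?_ ((h.congr_fun (g := fun ξ => chr ξ x * ((wgt e (-2) ξ : ℂ) • coef f ξ) k)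
    fun ξ => ?_).tsum_eq).symm
  · refine integral_congr_ae (Eventually.of_forall fun y => ?_)
    simp only [g, Complex.conj_ofReal, Complex.ofReal_mul]
    rw [show x - y = -(y + -x) by abel, ker_even]
  · rw [show coefS g ξ = chr ξ (-x) * coefS (fun y => (ker e y : ℂ)) ξ from
      coefS_translate hkp' (-x) ξ, coefS_ker he, map_mul, Complex.conj_ofReal,
      chr_neg_right, chr_neg, Complex.conj_conj, PiLp.smul_apply, smul_eq_mul, coef_apply]
    ring

/-- The symmetry of the invariant projection and the field it defines. -/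
noncomputable def Setup.PPf (S : Setup) (x : V) : Form →L[ℝ] Form :=
  LinearMap.toContinuousLinearMap
    { toFun := piP (S.J x)
      map_add' := piP_add _
      map_smul' := piP_smul _ }

lemma Setup.PPf_apply (S : Setup) (x : V) (a : Form) : S.PPf x a = piP (S.J x) a := rfl

lemma Setup.smooth_PPf (S : Setup) : Smooth S.PPf :=
  ⟨contDiff_clm_apply_iff.2 fun a => (S.smooth_piP (Setup.smooth_const a)).smooth,
    fun x n => ContinuousLinearMap.ext fun a => (S.smooth_piP (Setup.smooth_const a)).periodic x n⟩

namespace Current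

variable {S : Setup} (T : Current S)

/-- The coefficients of the current. -/
noncomputable def mc (ξ : Freq) : CForm :=
  WithLp.toLp 2 fun k => ∫ y, chr (-ξ) y * (T.h y k : ℂ) ∂T.ν

lemma exists_h_bound : ∃ M, 0 < M ∧ ∀ y, ‖T.h y‖ ≤ M := by
  obtain ⟨C, hC, h⟩ := S.exists_norm_psd
  exact ⟨C, hC, fun y => (h y _ (T.psd y)).trans_eq (by rw [T.trace, mul_one])⟩

lemma integrable_q {α : V → Form} (hc : Continuous α) (hp : Periodic α) :
    Integrable (fun y => q (T.h y) (α y)) T.ν := by
  have := T.finite
  obtain ⟨M, hM, hb⟩ := T.exists_h_bound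
  obtain ⟨A, hA, ha⟩ := exists_bound hc hp
  refine Integrable.of_bound ?_ (6 * (M * A)) (Eventually.of_forall fun y => ?_)
  · exact ((Setup.continuous_q continuous_fst continuous_snd).measurable.comp
      (T.meas.prodMk hc.measurable)).aestronglyMeasurable
  · exact (abs_q_le _ _).trans (by gcongr <;> first | exact hb y | exact ha y)

lemma app_add {α β : V → Form} (hα : Smooth α) (hβ : Smooth β) :
    T.app (fun x => α x + β x) = T.app α + T.app β := by
  simp only [app, q_add_right]
  exact integral_add (T.integrable_q hα.smooth.continuous hα.periodic)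
    (T.integrable_q hβ.smooth.continuous hβ.periodic)

lemma app_smul (r : ℝ) (α : V → Form) : T.app (fun x => r • α x) = r * T.app α := by
  simp only [app, q_smul_right, integral_const_mul]

lemma norm_mc_le : ∃ M, 0 ≤ M ∧ ∀ ξ, ‖T.mc ξ‖ ≤ M := by
  have := T.finite
  obtain ⟨M, hM, hb⟩ := T.exists_h_bound
  refine ⟨6 * (M * T.ν.real univ), by positivity, fun ξ => (norm_le_sum_coord _).trans
    ((Finset.sum_le_card_nsmul _ _ (M * T.ν.real univ) fun k _ => ?_).trans_eq (by simp))⟩
  refine norm_integral_le_of_norm_le_const (Eventually.of_forall fun y => ?_)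
  rw [norm_mul, norm_chr, one_mul, Complex.norm_real]
  exact (PiLp.norm_apply_le (T.h y) k).trans (hb y)

lemma integrable_chr_h (ξ : Freq) (k : Fin 6) :
    Integrable (fun y => chr ξ y * (T.h y k : ℂ)) T.ν := by
  have := T.finite
  obtain ⟨M, -, hb⟩ := T.exists_h_bound
  refine Integrable.of_bound ((continuous_chr ξ).measurable.mul (Complex.measurable_ofReal.comp
    ((EuclideanSpace.proj (𝕜 := ℝ) k).continuous.measurable.comp T.meas))).aestronglyMeasurable M
    (Eventually.of_forall fun y => ?_)
  rw [norm_mul, norm_chr, one_mul, Complex.norm_real]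
  exact (PiLp.norm_apply_le (T.h y) k).trans (hb y)

lemma hasSum_app {α : V → Form} (hα : Smooth α) :
    HasSum (fun ξ => (qC (T.mc ξ) (cconj (coef α ξ))).re) (T.app α) := by
  have := T.finite
  obtain ⟨M, hM, hb⟩ := T.exists_h_bound
  have hc := (coef_rapid hα).summable
  have hd := hasSum_integral_of_dominated_convergence (μ := T.ν)
    (F := fun ξ y => (qC (WithLp.toLp 2 fun k => chr (-ξ) y * (T.h y k : ℂ) : CForm)
      (cconj (coef α ξ))).re) (f := fun y => q (T.h y) (α y))
    (fun ξ _ => 6 * (6 * M * ‖coef α ξ‖))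
    (fun ξ => (Complex.continuous_re.measurable.comp (by
      simp only [qC]
      have : ∀ k, Measurable fun y => chr (-ξ) y * (T.h y k : ℂ) := fun k =>
        (continuous_chr _).measurable.mul (Complex.measurable_ofReal.comp
          ((EuclideanSpace.proj (𝕜 := ℝ) k).continuous.measurable.comp T.meas))
      fun_prop)).aestronglyMeasurable)
    (fun ξ => Eventually.of_forall fun y => by
      refine (abs_qC_le _ _).trans ?_
      gcongr
      refine (norm_le_sum_coord _).trans ((Finset.sum_le_card_nsmul _ _ M fun k _ => ?_).trans_eq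
        (by simp))
      rw [norm_mul, norm_chr, one_mul, Complex.norm_real]
      exact (PiLp.norm_apply_le (T.h y) k).trans (hb y))
    (Eventually.of_forall fun y => (hc.mul_left (6 * (6 * M))).congr fun ξ => by ring)
    (integrable_const _)
    (Eventually.of_forall fun y => by
      have h1 : HasSum (fun ξ => chr ξ y • coef α ξ) (∑' ξ, chr ξ y • coef α ξ) :=
        (summable_chr_smul hc y).hasSum
      have h2 := reL.hasSum h1
      rw [show reL (∑' ξ, chr ξ y • coef α ξ) = α y from
        synth_coef hα.smooth.continuous hα.periodic hc y] at h2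
      let L : Form →L[ℝ] ℝ := LinearMap.toContinuousLinearMap
        { toFun := fun a => q (T.h y) a
          map_add' := fun a b => q_add_right _ a b
          map_smul' := fun r a => q_smul_right r _ a }
      refine (L.hasSum h2).congr_fun fun ξ => ?_
      show _ = q (T.h y) (reF (chr ξ y • coef α ξ))
      simp only [qC, q, cconj_apply, reF_apply, PiLp.smul_apply, smul_eq_mul, chr_neg,
        Complex.add_re, Complex.mul_re, Complex.mul_im, Complex.conj_re, Complex.conj_im,
        Complex.ofReal_re, Complex.ofReal_im]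
      ring)
  refine hd.congr_fun fun ξ => ?_
  have hi := T.integrable_chr_h (-ξ)
  simp only [qC, mc, ← integral_mul_const]
  repeat rw [← integral_add]
  · refine (integral_re (𝕜 := ℂ) ?_).symm
    repeat (first | exact (hi _).mul_const _ | refine Integrable.add ?_ ?_)
  all_goals repeat (first | exact (hi _).mul_const _ | refine Integrable.add ?_ ?_)

lemma continuous_reg {e : ℝ} (he : 0 < e) : Continuous (T.reg e) ∧ Periodic (T.reg e) := by
  have := T.finite
  obtain ⟨hkc, hkp⟩ := ker_continuous he
  obtain ⟨K, hK, hKb⟩ := exists_bound hkc hkp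
  obtain ⟨M, hM, hb⟩ := T.exists_h_bound
  refine ⟨continuous_of_dominated (bound := fun _ => K * M)
    (fun x => ((hkc.comp (by fun_prop)).measurable.smul T.meas).aestronglyMeasurable)
    (fun x => Eventually.of_forall fun y => ?_) (integrable_const _)
    (Eventually.of_forall fun y => (hkc.comp (by fun_prop)).smul continuous_const), fun x n => ?_⟩
  · rw [norm_smul]
    exact mul_le_mul (hKb _) (hb y) (norm_nonneg _) hK.le
  · show (∫ z, ker e (x + intVec n - z) • T.h z ∂T.ν) = ∫ z, ker e (x - z) • T.h z ∂T.ν
    refine integral_congr_ae (Eventually.of_forall fun z => ?_)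
    simp only
    rw [add_sub_right_comm, hkp]

lemma coef_reg {e : ℝ} (he : 0 < e) (ξ : Freq) :
    coef (T.reg e) ξ = (wgt e (-2) ξ : ℂ) • T.mc ξ := by
  have := T.finite
  obtain ⟨M, -, hb⟩ := T.exists_h_bound
  exact coef_smoothing he T.ν T.meas hb ξ

end Current

end Vale.Agent.P204.Torus
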