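import Vale.Agent.P204.Torus.FourierDefs

/-!
P204 on the four-torus: the interface between the Fourier part and the two estimates.

`UData` is the exact current extending a separating positive current, with its regularisations;
`SLimit` records that its anti-invariant part is square integrable.
-/

open MeasureTheory
open scoped BigOperators

namespace Vale.Agent.P204.Torus

/-- The envelope of the kernels. -/
noncomputable def env (ε : ℝ) (N : ℕ) (u : V) : ℝ :=
  (ε ^ 4)⁻¹ * (ε ^ 2 / (ε ^ 2 + dist0 u ^ 2)) ^ N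

/-- Convolution with the mollifier. -/
noncomputable def kconv {F : Type*} [NormedAddCommGroup F] [NormedSpace ℝ F] (ε : ℝ) (α : V → F)
    (x : V) : F :=
  ∫ y in cube, ker ε (x - y) • α y

/-- The square norm on the torus. -/
noncomputable def l2 {F : Type*} [NormedAddCommGroup F] (f : V → F) : ℝ :=
  Real.sqrt (∫ x in cube, ‖f x‖ ^ 2)

/-- The absolute norm on the torus. -/
noncomputable def l1 {F : Type*} [NormedAddCommGroup F] (f : V → F) : ℝ :=
  ∫ x in cube, ‖f x‖

namespace Current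

variable {S : Setup} (T : Current S)

/-- The current as a functional. -/
noncomputable def app (α : V → Form) : ℝ := ∫ y, q (T.h y) (α y) ∂T.ν

/-- The regularised trace measure. -/
noncomputable def nuK (ε : ℝ) (x : V) : ℝ := ∫ z, ker ε (x - z) ∂T.ν

/-- The regularised current. -/
noncomputable def reg (ε : ℝ) (x : V) : Form := ∫ z, ker ε (x - z) • T.h z ∂T.ν

/-- The regularised weighted current. -/
noncomputable def regW (g : V → ℝ) (ε : ℝ) (x : V) : Form :=
  ∫ z, (g z * ker ε (x - z)) • T.h z ∂T.ν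

/-- The density at scale `r`. -/
noncomputable def dens (r : ℝ) (y : V) : ℝ :=
  ∫ z, r ^ 2 / (r ^ 2 + dist0 (z - y) ^ 2) ^ 2 ∂T.ν

end Current

/-- The exact current extending a separating positive current. -/
structure UData {S : Setup} (T : Current S) where
  /-- The functional on smooth two-forms. -/
  U : (V → Form) → ℝ
  /-- Its regularisations. -/
  Ue : ℝ → V → Form
  add : ∀ α β, Smooth α → Smooth β → U (α + β) = U α + U β
  smul : ∀ (a : ℝ) α, Smooth α → U (a • α) = a * U α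
  inv : ∀ α, Smooth α → (∀ x, piM (S.J x) (α x) = 0) → U α = T.app α
  closed : ∀ α, Smooth α → Closed α → U α = 0
  Ue_cont : ∀ ε, 0 < ε → ε ≤ 1 → Continuous (Ue ε)
  Ue_periodic : ∀ ε, 0 < ε → ε ≤ 1 → Periodic (Ue ε)
  Ue_closed : ∀ ε, 0 < ε → ε ≤ 1 → ∀ α, Smooth α → Closed α →
    ∫ x in cube, q (Ue ε x) (α x) = 0
  Ue_q : ∀ ε, 0 < ε → ε ≤ 1 → ∫ x in cube, q (Ue ε x) (Ue ε x) = 0
  Ue_exact : ∀ ε, 0 < ε → ε ≤ 1 → ∀ δ > 0, ∃ η : V → V, Smooth η ∧
    ∀ x, ‖kconv ε (Ue ε) x - d1 η x‖ ≤ δ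
  comm : ∃ C ε₀, 0 < ε₀ ∧ ∀ ε, 0 < ε → ε ≤ ε₀ →
    l2 (fun x => piP (S.J x) (Ue ε x - T.reg ε x)) ≤ C * ε * l2 (fun x => Ue ε x - T.reg ε x)

namespace UData

variable {S : Setup} {T : Current S} (D : UData T)

/-- The anti-invariant part as a functional. -/
noncomputable def Sf (α : V → Form) : ℝ := D.U α - T.app α

/-- The regularised anti-invariant part. -/
noncomputable def Se (ε : ℝ) (x : V) : Form := D.Ue ε x - T.reg ε x

/-- The anti-invariant part has bounded regularisations. -/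
def Bounded : Prop :=
  ∃ C ε₀, 0 < ε₀ ∧ ∀ ε, 0 < ε → ε ≤ ε₀ → l2 (D.Se ε) ≤ C

/-- The consequences of square integrability of the anti-invariant part. -/
structure SLimit where
  /-- The square of the anti-invariant part. -/
  σ : ℝ
  σ_nonneg : 0 ≤ σ
  σ_zero : σ = 0 → ∀ α, Smooth α → D.Sf α = 0
  σ_lim : Filter.Tendsto (fun ε => ∫ x in cube, q (D.Se ε x) (D.Se ε x))
    (nhdsWithin 0 (Set.Ioi 0)) (nhds σ)
  piP_small : Filter.Tendsto (fun ε => l2 (fun x => piP (S.J x) (D.Se ε x)) / ε)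
    (nhdsWithin 0 (Set.Ioi 0)) (nhds 0)
  Sf_bound : ∃ C, ∀ α, Smooth α → |D.Sf α| ≤ C * l2 (fun x => piM (S.J x) (α x))
  Sf_small : ∀ C, ∀ δ > 0, ∃ η > 0, ∀ w, Smooth w → l2 w ≤ C → l1 w ≤ η → |D.Sf w| ≤ δ
  Se_small : ∀ C, ∀ δ > 0, ∃ η > 0, ∀ ε, 0 < ε → ε ≤ η → ∀ w : V → Form, Continuous w →
    Periodic w → l2 w ≤ C → l1 w ≤ η → |∫ x in cube, q (D.Se ε x) (w x)| ≤ δ

end UData

end Vale.Agent.P204.Torus
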