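import Vale.Agent.P204.Torus.Mono
import Vale.Agent.P204.Torus.Energy

/-!
P204 on the four-torus: the exact forms cut off at the density pair to zero in the limit.
-/

open MeasureTheory Filter Topology
open scoped BigOperators

namespace Vale.Agent.P204.Torus

lemma d1_sum_smul {ι : Type*} (s : Finset ι) (a : ι → ℝ) (f : ι → V → V) (x : V)
    (hf : ∀ i, DifferentiableAt ℝ (f i) x) :
    d1 (fun x => ∑ i ∈ s, a i • f i x) x = ∑ i ∈ s, a i • d1 (f i) x := by
  ext k
  simp only [d1_apply, WithLp.ofLp_sum, Finset.sum_apply, PiLp.smul_apply, smul_eq_mul]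
  rw [fderiv_fun_sum fun i _ => (hf i).fun_const_smul (a i)]
  simp only [FunLike.coe_sum, Finset.sum_apply, mul_sub, ← Finset.sum_sub_distrib]
  refine Finset.sum_congr rfl fun i _ => ?_
  rw [fderiv_fun_const_smul (hf i) (a i)]
  simp

lemma continuous_d1₂ {b : V → V → V} (hb : ContDiff ℝ (⊤ : ℕ∞) fun p : V × V => b p.1 p.2) :
    Continuous fun p : V × V => d1 (fun x => b x p.2) p.1 := by
  refine (PiLp.continuous_toLp 2 _).comp (continuous_pi fun k => ?_)
  have hD := (Param.contDiff_D1 hb).continuous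
  simp only [pair_e', fun p : V × V => (Param.hasFDerivAt_D1 hb p.1 p.2).fderiv]
  exact ((continuous_apply _).comp (hD.clm_apply continuous_const)).sub
    ((continuous_apply _).comp (hD.clm_apply continuous_const))

lemma continuous_vec : Continuous fun p : Form × V => Setup.vec p.1 p.2 := by
  refine continuous_pi fun i => ?_
  refine Setup.continuous_q continuous_fst ((PiLp.continuous_toLp 2 _).comp
    (continuous_pi fun k => ?_))
  simp only [pair_e']
  fun_prop

/-- Integral norms of a field below a majorant. -/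
lemma l_mono {f : V → Form} {ρ : V → ℝ} {C : ℝ} (hρ : Continuous ρ)
    (h0 : ∀ x, 0 ≤ ρ x) (hC : 0 ≤ C) (h : ∀ x, ‖f x‖ ≤ C * ρ x) :
    l1 f ≤ C * l1 ρ ∧ l2 f ≤ C * l2 ρ := by
  have hn : ∀ x, ‖ρ x‖ = ρ x := fun x => Real.norm_of_nonneg (h0 x)
  constructor
  · simp only [l1, hn]
    refine (integral_mono_of_nonneg (Eventually.of_forall fun x => norm_nonneg _)
      ((integrable_cube_of_continuous hρ).const_mul C) (Eventually.of_forall h)).trans_eq ?_
    exact integral_const_mul _ _
  · simp only [l2, hn]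
    rw [show C * Real.sqrt (∫ x in cube, ρ x ^ 2) = Real.sqrt (C ^ 2 * ∫ x in cube, ρ x ^ 2) by
      rw [Real.sqrt_mul (sq_nonneg C), Real.sqrt_sq hC]]
    refine Real.sqrt_le_sqrt ?_
    rw [← integral_const_mul]
    refine integral_mono_of_nonneg (Eventually.of_forall fun x => sq_nonneg _)
      ((integrable_cube_of_continuous (hρ.pow 2)).const_mul _) (Eventually.of_forall fun x => ?_)
    simp only [← mul_pow]
    exact pow_le_pow_left₀ (norm_nonneg _) (h x) 2

namespace Setup

variable (S : Setup)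

lemma rho2_periodic_snd (z : V) : Periodic (S.rho2 z) := fun u n => by
  simp only [rho2, sv_periodic u n]
  refine congrArg _ (Finset.sum_congr rfl fun i _ => ?_)
  simp only [intVec, Pi.add_apply]
  rw [show 2 * Real.pi * (u i + (n i : ℝ)) = 2 * Real.pi * u i + (n i : ℝ) * (2 * Real.pi) by ring,
    Real.cos_add_int_mul_two_pi]

lemma th_periodic_centre (r : ℝ) (z : V) : Periodic fun y => S.th r y z := fun y n => by
  have h := S.rho2_periodic_snd z (z - (y + intVec n)) n
  rw [show z - (y + intVec n) + intVec n = z - y by abel] at h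
  simp only [th, h]

/-- The weight `r²/(r²+ρ²)³` is dominated by the dyadic ball averages. -/
lemma exists_th3_dyadic : ∃ C, 0 < C ∧ ∀ (k : ℕ) (y z : V) (P : ℝ), 0 ≤ P →
    S.th3 (scale k) y z * P ≤ C * ∑ i ∈ Finset.range (k + 1), (4 : ℝ) ^ i / 4 ^ k *
      (if dist0 (y - z) ≤ scale i then P / scale i ^ 4 else 0) := by
  obtain ⟨c', C', hc', -, hρ⟩ := S.exists_rho2_bounds
  set c := min c' 1
  have hc : 0 < c := lt_min hc' one_pos
  refine ⟨64 / c ^ 3, by positivity, fun k y z P hP => ?_⟩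
  obtain ⟨i, hik, hdi, hi⟩ := exists_scale k (dist0_nonneg (z - y)) (dist0_le_one _)
  rw [dist0_sub_comm y z]
  have hterm : ∀ j, 0 ≤ (4 : ℝ) ^ j / 4 ^ k *
      (if dist0 (z - y) ≤ scale j then P / scale j ^ 4 else 0) := fun j => by
    have := scale_pos' j
    split_ifs <;> positivity
  refine le_trans ?_ (mul_le_mul_of_nonneg_left
    (Finset.single_le_sum (fun j _ => hterm j) (Finset.mem_range.2 (Nat.lt_succ_of_le hik)))
    (by positivity))
  rw [if_pos hdi]
  have hr := scale_pos' k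
  have hR := scale_pos' i
  have hD : c * (scale i ^ 2 / 4) ≤ scale k ^ 2 + S.rho2 z (z - y) := by
    have h1 := (hρ z (z - y)).1
    nlinarith [min_le_right c' 1, mul_le_mul_of_nonneg_right (min_le_left c' 1)
      (sq_nonneg (dist0 (z - y))), sq_nonneg (scale k)]
  have e : scale k ^ 2 = 4 ^ i / 4 ^ k * scale i ^ 2 := by
    simp only [scale]
    rw [show (4 : ℝ) = 2 ^ 2 by norm_num, ← pow_mul, ← pow_mul, inv_pow, inv_pow, ← pow_mul,
      ← pow_mul]
    field_simp
    ring
  rw [th3]
  calc scale k ^ 2 / (scale k ^ 2 + S.rho2 z (z - y)) ^ 3 * P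
      ≤ scale k ^ 2 / (c * (scale i ^ 2 / 4)) ^ 3 * P := by gcongr
    _ = _ := by rw [e]; field_simp; ring

end Setup

namespace UData

variable {S : Setup} {T : Current S} (D : UData T)

/-- The weight of the directions of the variation. -/
lemma exists_var_mass (hd : T.DensBound) (L : D.SLimit) {η : V → V} (hη : Smooth η) :
    ∃ K, 0 ≤ K ∧ ∀ k, ∫ p : V × V, (S.th3 (scale k) p.1 p.2 *
      S.B p.2 (T.h p.2) (Setup.vec (T.h p.1) (η p.1)) (Setup.vec (T.h p.1) (η p.1)) + S.th (scale k) p.1 p.2)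
        ∂T.ν.prod T.ν ≤ K := by
  obtain ⟨CP, BP, hCP, hBP, hP0, hP⟩ := D.exists_pair_mass hd L
  obtain ⟨Cv, hCv, hv⟩ := S.exists_vec_bound
  obtain ⟨Cd, hCd, hdy⟩ := S.exists_th3_dyadic
  obtain ⟨A, hA, hA', -⟩ := D.exists_limit hd L
  obtain ⟨c', C', hc', -, hρ⟩ := S.exists_rho2_bounds
  obtain ⟨N, hN0, hN⟩ := T.exists_h_bound
  obtain ⟨M, hM0, hM⟩ := exists_bound hη.smooth.continuous hη.periodic
  obtain ⟨KB, hKB, hB⟩ := T.exists_B_bound
  set E := Cv * M ^ 2
  set m := T.ν.real Set.univ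
  refine ⟨E * (Cd * (2 * BP)) + (E * Cv / c' + 1) * (A * m),
    by have : 0 ≤ m := measureReal_nonneg; positivity, fun k => ?_⟩
  set r := scale k
  have hr : 0 < r := scale_pos' k
  set P : V × V → ℝ := fun p => q (T.h p.1) (T.h p.2) + CP * dist0 (p.1 - p.2) ^ 2
  set Z : ℕ → V × V → ℝ := fun i p => if dist0 (p.1 - p.2) ≤ scale i then P p / scale i ^ 4 else 0
  have hPm : Measurable P := T.measurable_qh.add (measurable_const.mul
    ((continuous_dist0.comp (continuous_fst.sub continuous_snd)).pow 2).measurable)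
  have hPb : ∀ p, |P p| ≤ 6 * (N * N) + CP := fun p => by
    refine (abs_add_le _ _).trans (add_le_add (T.abs_qh_le hN0.le hN p) ?_)
    rw [abs_mul, abs_of_pos hCP, abs_of_nonneg (sq_nonneg _)]
    exact mul_le_of_le_one_right hCP.le (pow_le_one₀ (dist0_nonneg _) (dist0_le_one _))
  have hZi : ∀ i, Integrable (Z i) (T.ν.prod T.ν) := fun i => by
    have := scale_pos' i
    refine Integrable.of_bound (Measurable.aestronglyMeasurable (Measurable.ite
      (measurableSet_le (continuous_dist0.comp (continuous_fst.sub continuous_snd)).measurable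
        measurable_const) (hPm.div_const _) measurable_const)) ((6 * (N * N) + CP) / scale i ^ 4)
      (Eventually.of_forall fun p => ?_)
    rw [Real.norm_eq_abs]
    simp only [Z]
    split_ifs
    · rw [abs_div, abs_of_pos (pow_pos this 4)]
      gcongr
      exact hPb p
    · rw [abs_zero]; positivity
  have hth : Integrable (fun p : V × V => S.th r p.1 p.2) (T.ν.prod T.ν) :=
    Integrable.of_bound (S.continuous_th₂ hr).aestronglyMeasurable (1 / r ^ 2)
      (Eventually.of_forall fun p => by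
        rw [Real.norm_eq_abs, abs_of_nonneg (S.th_nonneg r _ _)]; exact S.th_le hr _ _)
  have hpt : ∀ p : V × V, S.th3 r p.1 p.2 *
      S.B p.2 (T.h p.2) (Setup.vec (T.h p.1) (η p.1)) (Setup.vec (T.h p.1) (η p.1)) + S.th r p.1 p.2 ≤
      E * (Cd * ∑ i ∈ Finset.range (k + 1), (4 : ℝ) ^ i / 4 ^ k * Z i p) +
        (E * Cv / c' + 1) * S.th r p.1 p.2 := by
    rintro ⟨y, z⟩
    simp only [Z, P]
    set d := dist0 (y - z) with hd'
    set Pv := q (T.h y) (T.h z) + CP * d ^ 2
    have hw0 := S.th3_nonneg r y z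
    have hB1 : S.B z (T.h z) (Setup.vec (T.h y) (η y)) (Setup.vec (T.h y) (η y)) ≤ E * (Pv + Cv * d ^ 2) := by
      have h := (hv y z _ _ (η y) (T.psd y) (T.psd z) (T.trace y) (T.trace z)).2
      have hp := hP0 y z
      have h2 : q (T.h y) (T.h z) + Cv * d ^ 2 ≤ Pv + Cv * d ^ 2 :=
        add_le_add (le_add_of_nonneg_right (by positivity)) le_rfl
      have h3 : (0 : ℝ) ≤ Pv + Cv * d ^ 2 := by positivity
      refine h.trans ((mul_le_mul_of_nonneg_left h2 (by positivity)).trans ?_)
      refine mul_le_mul_of_nonneg_right ?_ h3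
      simp only [E]
      gcongr
      exact hM y
    have hd2 : S.th3 r y z * d ^ 2 ≤ 1 / c' * S.th r y z := by
      have hρ1 := (hρ z (z - y)).1
      have hρ0 := S.rho2_nonneg z (z - y)
      rw [hd', dist0_sub_comm y z]
      have e : S.th r y z = S.th3 r y z * (r ^ 2 + S.rho2 z (z - y)) := by
        simp only [Setup.th, Setup.th3]; field_simp
      rw [e, one_div, ← mul_assoc, mul_comm c'⁻¹, mul_assoc]
      refine mul_le_mul_of_nonneg_left ?_ hw0
      rw [← div_eq_inv_mul, le_div_iff₀ hc']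
      nlinarith [sq_nonneg r]
    have hdy' := hdy k y z Pv (hP0 y z)
    calc S.th3 r y z * S.B z (T.h z) (Setup.vec (T.h y) (η y)) (Setup.vec (T.h y) (η y)) + S.th r y z
        ≤ S.th3 r y z * (E * (Pv + Cv * d ^ 2)) + S.th r y z := by gcongr
      _ = E * (S.th3 r y z * Pv) + E * Cv * (S.th3 r y z * d ^ 2) + S.th r y z := by ring
      _ ≤ E * (Cd * ∑ i ∈ Finset.range (k + 1), (4 : ℝ) ^ i / 4 ^ k *
            (if d ≤ scale i then Pv / scale i ^ 4 else 0)) +
          E * Cv * (1 / c' * S.th r y z) + S.th r y z := by gcongr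
      _ = _ := by ring
  have hint := ((integrable_finsetSum (Finset.range (k + 1))
    fun i _ => (hZi i).const_mul ((4 : ℝ) ^ i / 4 ^ k)).const_mul Cd).const_mul E
  refine (integral_mono_of_nonneg (Eventually.of_forall fun p => add_nonneg
    (mul_nonneg (S.th3_nonneg r _ _) (hB _ _).1) (S.th_nonneg r _ _))
    (hint.add (hth.const_mul _)) (Eventually.of_forall hpt)).trans ?_
  simp only [Pi.add_apply]
  rw [integral_add hint (hth.const_mul _), integral_const_mul, integral_const_mul,
    integral_const_mul, integral_finsetSum _ fun i _ => (hZi i).const_mul _]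
  refine add_le_add (mul_le_mul_of_nonneg_left (mul_le_mul_of_nonneg_left ?_ hCd.le)
    (by positivity)) (mul_le_mul_of_nonneg_left ?_ (by positivity))
  · calc ∑ i ∈ Finset.range (k + 1), ∫ p, (4 : ℝ) ^ i / 4 ^ k * Z i p ∂T.ν.prod T.ν
        ≤ ∑ i ∈ Finset.range (k + 1), (4 : ℝ) ^ i / 4 ^ k * BP := by
          refine Finset.sum_le_sum fun i _ => ?_
          rw [integral_const_mul, integral_prod _ (hZi i)]
          exact mul_le_mul_of_nonneg_left (hP _ (scale_pos' i) (Mass.scale_le_one i)) (by positivity)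
      _ = (4 ^ (k + 1) - 1) / (4 - 1) / 4 ^ k * BP := by
          rw [← Finset.sum_mul, ← Finset.sum_div, geom_sum_eq (by norm_num)]
      _ ≤ 2 * BP := by
          refine mul_le_mul_of_nonneg_right ?_ hBP.le
          rw [div_le_iff₀ (by positivity), pow_succ]
          have : (1 : ℝ) ≤ 4 ^ k := one_le_pow₀ (by norm_num)
          linarith
  · rw [integral_prod _ hth]
    refine (integral_mono hth.integral_prod_left (integrable_const A) fun y =>
      (hA' r hr (Mass.scale_le_one k) y).1).trans_eq ?_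
    rw [integral_const, smul_eq_mul, mul_comm]

/-- The derivative of the density. -/
lemma fderiv_Th {r : ℝ} (hr : 0 < r) :
    Smooth (T.Th r) ∧ ∀ y u, Integrable (fun z => fderiv ℝ (fun y => S.th r y z) y u) T.ν ∧
      fderiv ℝ (T.Th r) y u = ∫ z, fderiv ℝ (fun y => S.th r y z) y u ∂T.ν := by
  have hb : ContDiff ℝ (⊤ : ℕ∞) fun p : V × V => S.th r p.1 p.2 :=
    ContDiff.comp (g := fun p : V × V => S.th r p.2 p.1) (f := fun p : V × V => (p.2, p.1))
      (S.contDiff_th₂ hr) (contDiff_snd.prodMk contDiff_fst)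
  obtain ⟨h1, h2⟩ := contDiff_integral_param T.ν T.supp hb (c := fun _ => 1) (M := 1)
    measurable_const fun _ => by simp
  simp only [one_smul] at h1 h2
  refine ⟨⟨h1, fun y n => ?_⟩, h2⟩
  have hp := fun z => S.th_periodic_centre r z y n
  simp only at hp
  simp only [Current.Th, hp]

lemma Sf_eq_neg_app {α : V → Form} (hα : Smooth α) (cα : Closed α) : D.Sf α = -T.app α := by
  rw [Sf, D.closed α hα cα, zero_sub]

/-- The measurable direction of the variation. -/
lemma measurable_dir {η : V → V} (hη : Smooth η) :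
    Measurable fun y => Setup.vec (T.h y) (η y) :=
  continuous_vec.measurable.comp (T.meas.prodMk hη.smooth.continuous.measurable)

lemma exists_dir_bound {η : V → V} (hη : Smooth η) :
    ∃ A, 0 < A ∧ ∀ y, ‖Setup.vec (T.h y) (η y)‖ ≤ A := by
  obtain ⟨Cv, hCv, hv⟩ := S.exists_vec_bound
  obtain ⟨Mη, hMη0, hMη⟩ := exists_bound hη.smooth.continuous hη.periodic
  refine ⟨Cv * Mη, by positivity, fun y => ?_⟩
  refine (hv y y _ _ (η y) (T.psd y) (T.psd y) (T.trace y) (T.trace y)).1.trans ?_
  gcongr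
  exact hMη y

lemma integrable_centre {η : V → V} (hη : Smooth η) (k : ℕ) {c : V → ℝ} {M : ℝ}
    (hc : Measurable c) (hM : ∀ y, |c y| ≤ M) :
    Integrable (fun p : V × V => c p.1 *
        fderiv ℝ (fun y => S.th (scale k) y p.2) p.1 (Setup.vec (T.h p.1) (η p.1))) (T.ν.prod T.ν) ∧
      ∫ y, c y * fderiv ℝ (T.Th (scale k)) y (Setup.vec (T.h y) (η y)) ∂T.ν =
        ∫ p : V × V, c p.1 * fderiv ℝ (fun y => S.th (scale k) y p.2) p.1
          (Setup.vec (T.h p.1) (η p.1)) ∂T.ν.prod T.ν := by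
  obtain ⟨Cb, hCb, hvb⟩ := S.exists_var_bound
  obtain ⟨A, hA, hvn⟩ := exists_dir_bound (T := T) hη
  set r := scale k
  have hr : 0 < r := scale_pos' k
  have hr1 : r ≤ 1 := Mass.scale_le_one k
  have hM0 : 0 ≤ M := (abs_nonneg _).trans (hM 0)
  set v := fun y => Setup.vec (T.h y) (η y) with hvdef
  have hvm : Measurable v := measurable_dir hη
  have hw1 : ∀ x y, Mass.w r (dist0 (x - y)) + Mass.w' r (dist0 (x - y)) ≤ 2 / r * (1 / r ^ 2) :=
    fun x y => (le_abs_self _).trans
      ((Real.norm_eq_abs _).ge.trans (Mass.norm_weights_le hr hr1 y x))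
  have hyc : Continuous fun p : V × V => Param.D1 (fun y z => S.th r y z) p.1 p.2 :=
    (Param.contDiff_D1 (b := fun y z => S.th r y z) (ContDiff.comp
      (g := fun p : V × V => S.th r p.2 p.1) (f := fun p : V × V => (p.2, p.1))
      (S.contDiff_th₂ hr) (contDiff_snd.prodMk contDiff_fst))).continuous
  set Y : V × V → ℝ := fun p => fderiv ℝ (fun y => S.th r y p.2) p.1 (v p.1)
  have hYm : Measurable Y := by
    have e0 : Y = fun p => Param.D1 (fun y z => S.th r y z) p.1 p.2 (v p.1) := funext fun p => by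
      simp only [Y]
      rw [(Param.hasFDerivAt_D1 (b := fun y z => S.th r y z) (ContDiff.comp
        (g := fun p : V × V => S.th r p.2 p.1) (f := fun p : V × V => (p.2, p.1))
        (S.contDiff_th₂ hr) (contDiff_snd.prodMk contDiff_fst)) p.1 p.2).fderiv]
    rw [e0]
    exact (continuous_fst.clm_apply continuous_snd).measurable.comp
      (hyc.measurable.prodMk (hvm.comp measurable_fst))
  have hYb : ∀ p : V × V, |Y p| ≤ Cb * A * (2 / r * (1 / r ^ 2)) := fun p => by
    refine (hvb r hr p.1 (v p.1) p.2).2.trans (mul_le_mul (mul_le_mul_of_nonneg_left (hvn _) hCb.le)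
      ((le_add_of_nonneg_left (Mass.w_nonneg r _)).trans (hw1 p.2 p.1)) ?_ (by positivity))
    have := dist0_nonneg (p.2 - p.1)
    positivity
  have hYi : Integrable (fun p : V × V => c p.1 * Y p) (T.ν.prod T.ν) :=
    Integrable.of_bound ((hc.comp measurable_fst).mul hYm).aestronglyMeasurable
      (M * (Cb * A * (2 / r * (1 / r ^ 2)))) (Eventually.of_forall fun p => by
        rw [norm_mul, Real.norm_eq_abs, Real.norm_eq_abs]
        exact mul_le_mul (hM _) (hYb p) (abs_nonneg _) hM0)
  refine ⟨hYi, ?_⟩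
  rw [integral_prod _ hYi]
  refine integral_congr_ae (Eventually.of_forall fun y => ?_)
  simp only [Y, v, ((fderiv_Th (T := T) hr).2 y (Setup.vec (T.h y) (η y))).2, ← integral_const_mul]

/-- The variation superposed with a bounded coefficient is an exact form. -/
lemma exists_superposition {η : V → V} (hη : Smooth η) :
    ∃ C, 0 < C ∧ ∀ k, ∀ (c : V → ℝ) (M : ℝ), Measurable c → (∀ y, |c y| ≤ M) →
      ∃ F : V → Form, Smooth F ∧ Closed F ∧ (∀ x, ‖F x‖ ≤ C * M * T.rad (scale k) x) ∧
        Integrable (fun p : V × V => c p.1 * q (T.h p.2)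
          (d1 (S.beta (scale k) p.1 (Setup.vec (T.h p.1) (η p.1))) p.2)) (T.ν.prod T.ν) ∧
        T.app F = ∫ p : V × V, c p.1 * q (T.h p.2)
          (d1 (S.beta (scale k) p.1 (Setup.vec (T.h p.1) (η p.1))) p.2) ∂T.ν.prod T.ν := by
  obtain ⟨Cb, hCb, hvb⟩ := S.exists_var_bound
  obtain ⟨A, hA, hvn⟩ := exists_dir_bound (T := T) hη
  obtain ⟨N, hN0, hN⟩ := T.exists_h_bound
  refine ⟨Cb * A, by positivity, fun k c M hc hM => ?_⟩
  set r := scale k
  have hr : 0 < r := scale_pos' k
  have hr1 : r ≤ 1 := Mass.scale_le_one k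
  have hM0 : 0 ≤ M := (abs_nonneg _).trans (hM 0)
  set v := fun y => Setup.vec (T.h y) (η y) with hvdef
  have hvm : Measurable v := measurable_dir hη
  have hvi : ∀ i y, |c y * v y i| ≤ M * A := fun i y => by
    rw [abs_mul]
    exact mul_le_mul (hM y) ((abs_coord_le' _ i).trans (hvn y)) (abs_nonneg _) hM0
  have hb : ∀ i, ContDiff ℝ (⊤ : ℕ∞) fun p : V × V => S.beta r p.2 (e i) p.1 := fun i =>
    S.contDiff_beta₂ hr (e i)
  have hci : ∀ i, Measurable fun y => c y * v y i := fun i =>
    hc.mul ((measurable_pi_apply i).comp hvm)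
  set Bf : V → V := fun x => ∑ i, ∫ y, (c y * v y i) • S.beta r y (e i) x ∂T.ν
  set G : V → V → Form := fun x y => d1 (S.beta r y (v y)) x
  have hG : ∀ x y, G x y = ∑ i, v y i • d1 (S.beta r y (e i)) x := fun x y => by
    have e0 : S.beta r y (v y) = fun x => ∑ i, v y i • S.beta r y (e i) x := funext fun x => by
      simp only [Setup.beta]
      rw [S.om1_sum y (v y) x, Finset.smul_sum]
      exact Finset.sum_congr rfl fun i _ => smul_comm _ _ _
    simp only [G]
    rw [e0, d1_sum_smul]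
    exact fun i => (S.smooth_beta hr y (e i)).differentiableAt x
  have hBi : ∀ i, Smooth fun x => ∫ y, (c y * v y i) • S.beta r y (e i) x ∂T.ν := fun i =>
    ⟨(contDiff_integral_param T.ν T.supp (b := fun x y => S.beta r y (e i) x) (hb i) (hci i)
      (hvi i)).1, fun x n => by simp only [(S.smooth_beta hr _ _).periodic x n]⟩
  have hBf : Smooth Bf := ⟨ContDiff.sum fun i _ => (hBi i).smooth,
    fun x n => Finset.sum_congr rfl fun i _ => (hBi i).periodic x n⟩
  -- the exact form as a superposition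
  have hFx : ∀ x, d1 Bf x = ∫ y, c y • G x y ∂T.ν := fun x => by
    have h1 : d1 Bf x = ∑ i, d1 (fun x => ∫ y, (c y * v y i) • S.beta r y (e i) x ∂T.ν) x := by
      have := d1_sum_smul Finset.univ (fun _ : Fin 4 => (1 : ℝ))
        (fun i x => ∫ y, (c y * v y i) • S.beta r y (e i) x ∂T.ν) x
        fun i => (hBi i).differentiableAt x
      simpa using this
    have h2 := fun i => d1_integral T.ν T.supp (b := fun x y => S.beta r y (e i) x) (hb i) (hci i)
      (hvi i) x
    rw [h1, Finset.sum_congr rfl fun i _ => (h2 i).2, ← integral_finsetSum _ fun i _ => (h2 i).1]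
    refine integral_congr_ae (Eventually.of_forall fun y => ?_)
    simp only [hG, Finset.smul_sum, smul_smul]
  -- joint measurability and bounds
  have hGm : Measurable fun p : V × V => G p.1 p.2 := by
    simp only [hG]
    exact Finset.measurable_fun_sum _ fun i _ => (((measurable_pi_apply i).comp
      (hvm.comp measurable_snd))).smul (continuous_d1₂ (b := fun x y => S.beta r y (e i) x) (hb i)).measurable
  have hw1 : ∀ x y, Mass.w r (dist0 (x - y)) + Mass.w' r (dist0 (x - y)) ≤ 2 / r * (1 / r ^ 2) :=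
    fun x y => (le_abs_self _).trans
      ((Real.norm_eq_abs _).ge.trans (Mass.norm_weights_le hr hr1 y x))
  have hGb : ∀ x y, ‖G x y‖ ≤ Cb * A *
      (Mass.w r (dist0 (x - y)) + Mass.w' r (dist0 (x - y))) := fun x y => by
    have h0 : 0 ≤ Mass.w r (dist0 (x - y)) + Mass.w' r (dist0 (x - y)) :=
      add_nonneg (Mass.w_nonneg _ _) (Mass.w'_nonneg r (dist0_nonneg _))
    exact (hvb r hr y (v y) x).1.trans
      (mul_le_mul_of_nonneg_right (mul_le_mul_of_nonneg_left (hvn y) hCb.le) h0)
  have hXm : Measurable fun p : V × V => c p.1 * q (T.h p.2) (G p.2 p.1) :=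
    (hc.comp measurable_fst).mul ((Setup.continuous_q continuous_fst continuous_snd).measurable.comp
      ((T.meas.comp measurable_snd).prodMk (hGm.comp (measurable_snd.prodMk measurable_fst))))
  have hXi : Integrable (fun p : V × V => c p.1 * q (T.h p.2) (G p.2 p.1)) (T.ν.prod T.ν) := by
    refine Integrable.of_bound hXm.aestronglyMeasurable
      (M * (6 * (N * (Cb * A * (2 / r * (1 / r ^ 2)))))) (Eventually.of_forall fun p => ?_)
    rw [norm_mul, Real.norm_eq_abs, Real.norm_eq_abs]
    refine mul_le_mul (hM _) ((abs_q_le _ _).trans ?_) (abs_nonneg _) hM0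
    gcongr
    · exact hN _
    · exact (hGb _ _).trans (mul_le_mul_of_nonneg_left (hw1 _ _) (by positivity))
  refine ⟨d1 Bf, smooth_d1 hBf, closed_d1 hBf, fun x => ?_, hXi, ?_⟩
  · rw [hFx]
    have hi : Integrable (fun z => Cb * A * M *
        (Mass.w r (dist0 (z - x)) + Mass.w' r (dist0 (z - x)))) T.ν :=
      ((T.continuous_rad hr hr1).2 x).const_mul _
    refine (norm_integral_le_integral_norm _).trans ((integral_mono_of_nonneg
      (Eventually.of_forall fun y => norm_nonneg _) hi (Eventually.of_forall fun y => ?_)).trans ?_)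
    · simp only [norm_smul, Real.norm_eq_abs]
      refine (mul_le_mul (hM y) (hGb x y) (norm_nonneg _) hM0).trans_eq ?_
      rw [dist0_sub_comm x y]; ring
    · rw [integral_const_mul]
      exact le_of_eq rfl
  · change T.app (d1 Bf) = ∫ p : V × V, c p.1 * q (T.h p.2) (G p.2 p.1) ∂T.ν.prod T.ν
    rw [integral_prod_symm _ hXi, Current.app]
    refine integral_congr_ae (Eventually.of_forall fun x => ?_)
    simp only [hFx]
    have hi : Integrable (fun y => c y • G x y) T.ν := by
      refine T.integrable_bounded (hc.smul (hGm.comp measurable_prodMk_left)).aestronglyMeasurable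
        (C := M * (Cb * A * (2 / r * (1 / r ^ 2)))) fun y => ?_
      rw [norm_smul]
      exact mul_le_mul (hM y) ((hGb x y).trans (mul_le_mul_of_nonneg_left (hw1 _ _)
        (by positivity))) (norm_nonneg _) hM0
    rw [q_integral hi]
    exact integral_congr_ae (Eventually.of_forall fun y => q_smul_right _ _ _)

/-- The derivative of the weight in its centre, integrated, is an exact pairing plus an error. -/
lemma exists_centre_variation (hd : T.DensBound) {η : V → V} (hη : Smooth η) :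
    ∃ C, 0 < C ∧ ∀ k, ∀ (c : V → ℝ) (M : ℝ), Measurable c → (∀ y, |c y| ≤ M) → ∀ δ, 0 < δ →
      ∃ F : V → Form, Smooth F ∧ Closed F ∧
        (∀ x, ‖F x‖ ≤ C * M * T.rad (scale k) x) ∧
        |∫ y, c y * fderiv ℝ (T.Th (scale k)) y (Setup.vec (T.h y) (η y)) ∂T.ν + T.app F| ≤
          C * M * (δ * ∫ p : V × V, (S.th3 (scale k) p.1 p.2 *
              S.B p.2 (T.h p.2) (Setup.vec (T.h p.1) (η p.1)) (Setup.vec (T.h p.1) (η p.1)) +
                S.th (scale k) p.1 p.2) ∂T.ν.prod T.ν +
            δ⁻¹ * (∫ y, ∫ z, S.th3 (scale k) y z *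
              S.B z (T.h z) (sv (z - y)) (sv (z - y)) ∂T.ν ∂T.ν + scale k)) := by
  obtain ⟨Cw, hCw, hvar⟩ := S.exists_variation
  obtain ⟨CF, hCF, hsup⟩ := exists_superposition (T := T) hη
  obtain ⟨A, hA, hvn⟩ := exists_dir_bound (T := T) hη
  obtain ⟨CPh, hPh⟩ := T.exists_int_phi hd
  obtain ⟨KB, hKB, hB⟩ := T.exists_B_bound
  set m := T.ν.real Set.univ
  have hm : 0 ≤ m := measureReal_nonneg
  set CP := max CPh 0
  refine ⟨CF + Cw * (1 + A) * (1 + CP * m), by positivity, fun k c M hc hM δ hδ => ?_⟩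
  set r := scale k
  have hr : 0 < r := scale_pos' k
  have hr1 : r ≤ 1 := Mass.scale_le_one k
  have hM0 : 0 ≤ M := (abs_nonneg _).trans (hM 0)
  set v := fun y => Setup.vec (T.h y) (η y) with hvdef
  have hvm : Measurable v := measurable_dir hη
  obtain ⟨F, hFs, hFc, hFb, hXi, happ⟩ := hsup k c M hc hM
  obtain ⟨hYi, hTh⟩ := integrable_centre (T := T) hη k hc hM
  refine ⟨F, hFs, hFc, fun x => (hFb x).trans (mul_le_mul_of_nonneg_right
    (mul_le_mul_of_nonneg_right (le_add_of_nonneg_right (by positivity)) hM0)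
      (T.rad_nonneg r x)), ?_⟩
  rw [hTh, happ, ← integral_add hYi hXi]
  set U := fun p : V × V => S.th3 r p.1 p.2 * S.B p.2 (T.h p.2) (v p.1) (v p.1) + S.th r p.1 p.2
  set W := fun p : V × V => S.th3 r p.1 p.2 *
    S.B p.2 (T.h p.2) (sv (p.2 - p.1)) (sv (p.2 - p.1))
  set Φ := fun p : V × V => phi r (p.2 - p.1)
  obtain ⟨KS, hKS, hBs⟩ := T.exists_Bs_bound
  have hUi : Integrable U (T.ν.prod T.ν) := by
    refine Integrable.of_bound (((S.continuous_th3₂ hr).measurable.mul (T.measurable_B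
      measurable_snd (hvm.comp measurable_fst))).add
        (S.continuous_th₂ hr).measurable).aestronglyMeasurable
      (1 / r ^ 4 * (KB * A ^ 2) + 1 / r ^ 2) (Eventually.of_forall fun p => ?_)
    rw [Real.norm_eq_abs, abs_of_nonneg (add_nonneg
      (mul_nonneg (S.th3_nonneg _ _ _) (hB _ _).1) (S.th_nonneg _ _ _))]
    refine add_le_add (mul_le_mul (S.th3_le hr _ _) ((hB _ _).2.trans ?_) (hB _ _).1
      (by positivity)) (S.th_le hr _ _)
    exact mul_le_mul_of_nonneg_left (pow_le_pow_left₀ (norm_nonneg _) (hvn _) 2) hKB.le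
  have hWi : Integrable W (T.ν.prod T.ν) := by
    refine Integrable.of_bound ((S.continuous_th3₂ hr).measurable.mul (T.measurable_B
      measurable_snd (Continuous.measurable (contDiff_sv.continuous.comp
        (continuous_snd.sub continuous_fst))))).aestronglyMeasurable (1 / r ^ 4 * KS)
      (Eventually.of_forall fun p => ?_)
    rw [Real.norm_eq_abs, abs_of_nonneg (mul_nonneg (S.th3_nonneg _ _ _) (hBs _ _).1)]
    exact mul_le_mul (S.th3_le hr _ _) (hBs _ _).2 (hBs _ _).1 (by positivity)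
  have hΦi : Integrable Φ (T.ν.prod T.ν) :=
    Integrable.of_bound ((continuous_phi hr).comp
      (continuous_snd.sub continuous_fst)).aestronglyMeasurable 1 (Eventually.of_forall fun p => by
      rw [Real.norm_eq_abs, abs_of_nonneg (phi_nonneg _ _)]; exact phi_le_one _ _)
  have hi1 : Integrable (fun p => δ * U p + δ⁻¹ * (W p + Φ p)) (T.ν.prod T.ν) :=
    (hUi.const_mul δ).fun_add ((hWi.fun_add hΦi).const_mul δ⁻¹)
  refine (abs_integral_le_integral_abs).trans ((integral_mono_of_nonneg
    (Eventually.of_forall fun p => abs_nonneg _) (hi1.const_mul (M * (Cw * (1 + A))))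
    (Eventually.of_forall fun p => ?_)).trans ?_)
  · simp only
    rw [← mul_add, abs_mul, mul_assoc M]
    refine mul_le_mul (hM _) ?_ (abs_nonneg _) hM0
    rw [add_comm]
    refine (hvar r hr p.1 p.2 (v p.1) (T.h p.2) (T.psd _) (T.trace _) δ hδ).trans ?_
    refine mul_le_mul_of_nonneg_right (mul_le_mul_of_nonneg_left
      (add_le_add le_rfl (hvn _)) hCw.le) ?_
    have h1 := S.th3_nonneg r p.1 p.2
    have h2 := S.th_nonneg r p.1 p.2
    have h3 := (hB p.2 (v p.1)).1
    have h4 := (hBs p.1 p.2).1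
    have h5 := phi_nonneg r (p.2 - p.1)
    positivity
  · rw [integral_const_mul, integral_add (hUi.const_mul δ) ((hWi.fun_add hΦi).const_mul δ⁻¹),
      integral_const_mul, integral_const_mul, integral_add hWi hΦi]
    have hW2 : ∫ p, W p ∂T.ν.prod T.ν = ∫ y, ∫ z, S.th3 r y z *
        S.B z (T.h z) (sv (z - y)) (sv (z - y)) ∂T.ν ∂T.ν := integral_prod _ hWi
    have hΦ2 : ∫ p, Φ p ∂T.ν.prod T.ν ≤ CP * m * r := by
      rw [integral_prod _ hΦi]
      refine (integral_mono hΦi.integral_prod_left (integrable_const (CP * r)) fun y => ?_).trans_eq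
        (by rw [integral_const, smul_eq_mul]; ring)
      exact (hPh r hr hr1 y).trans (mul_le_mul_of_nonneg_right (le_max_left _ _) hr.le)
    rw [← hW2]
    have hU0 : 0 ≤ ∫ p, U p ∂T.ν.prod T.ν := integral_nonneg fun p => add_nonneg
      (mul_nonneg (S.th3_nonneg _ _ _) (hB _ _).1) (S.th_nonneg _ _ _)
    have hW0 : 0 ≤ ∫ p, W p ∂T.ν.prod T.ν := integral_nonneg fun p =>
      mul_nonneg (S.th3_nonneg _ _ _) (hBs _ _).1
    calc M * (Cw * (1 + A)) * (δ * ∫ p, U p ∂T.ν.prod T.ν +
          δ⁻¹ * (∫ p, W p ∂T.ν.prod T.ν + ∫ p, Φ p ∂T.ν.prod T.ν))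
        ≤ M * (Cw * (1 + A)) * ((1 + CP * m) * (δ * ∫ p, U p ∂T.ν.prod T.ν +
            δ⁻¹ * (∫ p, W p ∂T.ν.prod T.ν + r))) := by
          refine mul_le_mul_of_nonneg_left ?_ (by positivity)
          have a1 : 0 ≤ CP * m * (δ * ∫ p, U p ∂T.ν.prod T.ν) := by positivity
          have a2 : 0 ≤ CP * m * (δ⁻¹ * ∫ p, W p ∂T.ν.prod T.ν) := by positivity
          have a3 : δ⁻¹ * ∫ p, Φ p ∂T.ν.prod T.ν ≤ δ⁻¹ * (CP * m * r) :=
            mul_le_mul_of_nonneg_left hΦ2 (by positivity)
          have a4 : 0 ≤ δ⁻¹ * r := by positivity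
          linarith
      _ = Cw * (1 + A) * (1 + CP * m) * M * (δ * ∫ p, U p ∂T.ν.prod T.ν +
            δ⁻¹ * (∫ p, W p ∂T.ν.prod T.ν + r)) := by ring
      _ ≤ _ := by
          gcongr
          exact le_add_of_nonneg_left (by positivity)

/-- The cut-off exact forms pair to zero in the limit. -/
lemma tendsto_app_cut (hd : T.DensBound) (L : D.SLimit) {η : V → V} (hη : Smooth η) {τ : ℝ}
    (hτ : 0 < τ) :
    Tendsto (fun k => T.app fun x => (T.Th (scale k) x / (T.Th (scale k) x + τ)) • d1 η x)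
      atTop (𝓝 0) := by
  obtain ⟨C, hC, hcv⟩ := exists_centre_variation (T := T) hd hη
  obtain ⟨K, hK, hU⟩ := D.exists_var_mass hd L hη
  obtain ⟨CR, hR⟩ := T.exists_rad_bound hd
  obtain ⟨Ct, hCt, hth⟩ := S.exists_th_compare
  obtain ⟨Cb, hCb, hvb⟩ := S.exists_var_bound
  obtain ⟨A0, hA0, hA0'⟩ := exists_bound (smooth_d1 hη).smooth.continuous (smooth_d1 hη).periodic
  obtain ⟨Mη, hMη0, hMη⟩ := exists_bound hη.smooth.continuous hη.periodic
  set CW := Ct / τ * A0 + 12 * (Cb / τ * Mη)
  have hI := D.tendsto_transverse hd L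
  rw [Metric.tendsto_atTop]
  intro ε hε
  obtain ⟨η1, hη1, hS1⟩ := L.Sf_small ((CW + C * τ⁻¹) * |CR|) (ε / 4) (by positivity)
  obtain ⟨δ, hδ, hδK⟩ : ∃ δ : ℝ, 0 < δ ∧ C * τ⁻¹ * (δ * K) ≤ ε / 8 :=
    ⟨ε / 8 / (C * τ⁻¹ * (K + 1)), by positivity, by
      rw [show C * τ⁻¹ * (ε / 8 / (C * τ⁻¹ * (K + 1)) * K) = ε / 8 * (K / (K + 1)) by field_simp]
      exact mul_le_of_le_one_right (by positivity) (div_le_one_of_le₀ (by linarith) (by linarith))⟩
  have hIs := (hI.add tendsto_scale).const_mul (C * τ⁻¹ * δ⁻¹)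
  rw [add_zero, mul_zero] at hIs
  have hls := tendsto_scale.const_mul ((CW + C * τ⁻¹) * |CR|)
  rw [mul_zero] at hls
  obtain ⟨k0, hk0⟩ := eventually_atTop.1
    ((hls.eventually (eventually_le_nhds hη1)).and
      (hIs.eventually (eventually_le_nhds (show (0 : ℝ) < ε / 8 by positivity))))
  refine ⟨k0, fun k hk => ?_⟩
  obtain ⟨hk1, hk2⟩ := hk0 k hk
  set r := scale k
  have hr : 0 < r := scale_pos' k
  obtain ⟨hThs, hThD⟩ := fderiv_Th (T := T) hr
  obtain ⟨hradc, hrad0, -, hrad1, hrad2⟩ := hR k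
  have hpos : ∀ x, 0 < T.Th r x + τ := fun x => add_pos_of_nonneg_of_pos (T.Th_nonneg r x) hτ
  set g : V → ℝ := fun x => T.Th r x / (T.Th r x + τ)
  set c : V → ℝ := fun x => τ / (T.Th r x + τ) ^ 2
  have hgs : Smooth g :=
    ⟨hThs.smooth.div (hThs.smooth.add contDiff_const) fun x => (hpos x).ne',
      fun x n => by simp only [g, hThs.periodic x n]⟩
  have hgd : ∀ x u, fderiv ℝ g x u = c x * fderiv ℝ (T.Th r) x u := fun x u => by
    have hh : HasDerivAt (fun t => t / (t + τ)) (c x) (T.Th r x) := by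
      have := (hasDerivAt_id (T.Th r x)).fun_div ((hasDerivAt_id (T.Th r x)).add_const τ)
        (hpos x).ne'
      refine this.congr_deriv ?_
      simp only [c, id]
      ring
    have h := hh.comp_hasFDerivAt x (hThs.differentiableAt x).hasFDerivAt
    rw [show g = (fun t => t / (t + τ)) ∘ T.Th r from rfl, h.fderiv]
    simp
  have hcb : ∀ x, |c x| ≤ τ⁻¹ := fun x => by
    rw [abs_of_nonneg (by have := hpos x; positivity), inv_eq_one_div]
    simp only [c]
    rw [div_le_div_iff₀ (pow_pos (hpos x) 2) hτ, one_mul, ← sq]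
    exact pow_le_pow_left₀ hτ.le (le_add_of_nonneg_left (T.Th_nonneg r x)) 2
  have hcm : Measurable c :=
    (continuous_const.div ((hThs.smooth.continuous.add continuous_const).pow 2)
      fun x => (pow_pos (hpos x) 2).ne').measurable
  have hP : Smooth fun x => g x • η x :=
    ⟨hgs.smooth.smul hη.smooth, fun x n => by simp only [hgs.periodic x n, hη.periodic x n]⟩
  set W := d1 fun x => g x • η x
  have hWx : ∀ x, W x = g x • d1 η x + wedge (grad g x) (η x) := fun x =>
    d1_smul (hgs.differentiableAt x) (hη.differentiableAt x)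
  obtain ⟨F, hFs, hFc, hFb, hFE⟩ := hcv k c τ⁻¹ hcm hcb δ hδ
  -- the cut-off exact form is small
  have hThrad : ∀ x, T.Th r x ≤ Ct * T.rad r x := fun x => by
    rw [Current.rad, ← integral_const_mul]
    refine integral_mono (T.integrable_th hr x)
      (((T.continuous_rad hr (Mass.scale_le_one k)).2 x).const_mul Ct) fun z => ?_
    exact (hth r hr x z).1.trans (mul_le_mul_of_nonneg_left
      (le_add_of_nonneg_right (Mass.w'_nonneg r (dist0_nonneg _))) hCt.le)
  have hgrad : ∀ x, ‖grad g x‖ ≤ Cb / τ * T.rad r x := fun x => by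
    have := hrad0 x
    refine (pi_norm_le_iff_of_nonneg (by positivity)).2 fun i => ?_
    rw [Real.norm_eq_abs, grad, hgd, abs_mul, show Cb / τ * T.rad r x = τ⁻¹ * (Cb * T.rad r x) by
      ring]
    refine mul_le_mul (hcb x) ?_ (abs_nonneg _) (by positivity)
    rw [(hThD x (e i)).2, Current.rad, ← integral_const_mul]
    refine (abs_integral_le_integral_abs).trans (integral_mono_of_nonneg
      (Eventually.of_forall fun z => abs_nonneg _)
      (((T.continuous_rad hr (Mass.scale_le_one k)).2 x).const_mul Cb)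
      (Eventually.of_forall fun z => ?_))
    have h0 := dist0_nonneg (z - x)
    refine (hvb r hr x (e i) z).2.trans (mul_le_mul (mul_le_of_le_one_right hCb.le (e_norm_le i))
      (le_add_of_nonneg_left (Mass.w_nonneg r _)) (by positivity) hCb.le)
  have hWb : ∀ x, ‖W x‖ ≤ CW * T.rad r x := fun x => by
    have := hrad0 x
    rw [hWx]
    refine (norm_add_le _ _).trans ?_
    rw [norm_smul, show CW * T.rad r x =
      Ct / τ * A0 * T.rad r x + 12 * (Cb / τ * Mη) * T.rad r x by simp only [CW]; ring]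
    refine add_le_add ?_ ((norm_wedge_le _ _).trans ?_)
    · rw [Real.norm_eq_abs, abs_of_nonneg (div_nonneg (T.Th_nonneg r x) (hpos x).le)]
      have h1 : g x ≤ Ct / τ * T.rad r x := by
        calc g x ≤ T.Th r x / τ := div_le_div_of_nonneg_left (T.Th_nonneg r x) hτ
              (le_add_of_nonneg_left (T.Th_nonneg r x))
          _ ≤ Ct * T.rad r x / τ := div_le_div_of_nonneg_right (hThrad x) hτ.le
          _ = _ := by ring
      calc g x * ‖d1 η x‖ ≤ Ct / τ * T.rad r x * A0 := by
            gcongr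
            exact hA0' x
        _ = _ := by ring
    · calc 12 * (‖grad g x‖ * ‖η x‖) ≤ 12 * (Cb / τ * T.rad r x * Mη) := by
            gcongr
            · exact hgrad x
            · exact hMη x
        _ = _ := by ring
  have hCW : 0 ≤ CW := by positivity
  have small : ∀ (Z : V → Form) (a : ℝ), Smooth Z → 0 ≤ a → a ≤ CW + C * τ⁻¹ →
      (∀ x, ‖Z x‖ ≤ a * T.rad r x) → |D.Sf Z| ≤ ε / 4 := by
    intro Z a hZ ha0 ha hb
    obtain ⟨h1, h2⟩ := l_mono hradc hrad0 ha0 hb
    have hl1n : 0 ≤ l1 (T.rad r) := integral_nonneg fun x => norm_nonneg _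
    refine hS1 Z hZ (h2.trans ?_) (h1.trans (le_trans ?_ hk1))
    · exact mul_le_mul ha (hrad2.trans (le_abs_self _)) (l2_nonneg _) (by positivity)
    · rw [mul_assoc]
      exact mul_le_mul ha (hrad1.trans (mul_le_mul_of_nonneg_right (le_abs_self _) hr.le)) hl1n
        (by positivity)
  have hW1 := small W CW (smooth_d1 hP) hCW (le_add_of_nonneg_right (by positivity)) hWb
  have hF1 := small F (C * τ⁻¹) hFs (by positivity) (le_add_of_nonneg_left hCW) hFb
  -- the identity
  have hid : T.app W = T.app (fun x => g x • d1 η x) +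
      ∫ y, c y * fderiv ℝ (T.Th r) y (Setup.vec (T.h y) (η y)) ∂T.ν := by
    have hs1 : Smooth fun x => g x • d1 η x := ⟨hgs.smooth.smul (smooth_d1 hη).smooth,
      fun x n => by simp only [hgs.periodic x n, (smooth_d1 hη).periodic x n]⟩
    have hp : ∀ y, c y * fderiv ℝ (T.Th r) y (Setup.vec (T.h y) (η y)) =
        q (T.h y) (W y) - q (T.h y) (g y • d1 η y) := fun y => by
      rw [hWx, q_add_right, add_sub_cancel_left, ← Setup.pair_vec, pair_grad, hgd]
    simp only [Current.app, hp]
    rw [integral_sub (integrable_app (smooth_d1 hP)) (integrable_app hs1)]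
    ring
  rw [Real.dist_eq, sub_zero]
  have e1 := D.Sf_eq_neg_app (smooth_d1 hP) (closed_d1 hP)
  have e2 := D.Sf_eq_neg_app hFs hFc
  have hE : |∫ y, c y * fderiv ℝ (T.Th r) y (Setup.vec (T.h y) (η y)) ∂T.ν + T.app F| ≤ ε / 4 := by
    refine hFE.trans ?_
    calc C * τ⁻¹ * (δ * _ + δ⁻¹ * _) ≤ C * τ⁻¹ * (δ * K + δ⁻¹ *
          (∫ y, ∫ z, S.th3 r y z * S.B z (T.h z) (sv (z - y)) (sv (z - y)) ∂T.ν ∂T.ν + r)) := by
          gcongr
          exact hU k
      _ = C * τ⁻¹ * (δ * K) + C * τ⁻¹ * δ⁻¹ *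
          (∫ y, ∫ z, S.th3 r y z * S.B z (T.h z) (sv (z - y)) (sv (z - y)) ∂T.ν ∂T.ν + r) := by
          ring
      _ ≤ ε / 8 + ε / 8 := add_le_add hδK hk2
      _ = ε / 4 := by ring
  rw [abs_le] at hW1 hF1 hE
  rw [abs_lt]
  constructor <;> linarith

end UData

end Vale.Agent.P204.Torus
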